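import Crest.Agent.X212.Shi84.Chs
import Crest.Agent.X212.Cmp73.Ine
import Crest.Agent.X212.Mp86.Bar
import Crest.Agent.X212.Cmp73.St
import Crest.Agent.X212.Loc66.Fcv
import Crest.Agent.X212.Cmp73.Lim
import Crest.Agent.X212.Pat85.Star

-- ▼ part X212/Shi84/BE
section

/-!
# SHI (helper84): BERN and EPS for consistent systems
-/

set_option autoImplicit false
set_option linter.unusedSectionVars false
open Set Filter Topology Metric MeasureTheory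
open scoped Manifold ContDiff NNReal InnerProductSpace

noncomputable section

namespace Crest.Agent.X212.Shi84

open Mp86 Cmp73
open An (Sm)
open Wz78 (nab)

theorem sq_mu {σ : ℝ} (hσ : 0 < σ) (d : ℕ) : (((√σ)⁻¹ ^ d) ^ 2)⁻¹ = σ ^ d := by
  rw [← pow_mul, mul_comm, pow_mul, inv_pow, Real.sq_sqrt hσ.le, inv_pow, inv_inv]

theorem mu4 {σ : ℝ} (hσ : 0 < σ) : (√σ)⁻¹ ^ 4 = (σ ^ 2)⁻¹ := by
  rw [← sq_mu hσ 2, inv_inv, ← pow_mul]

theorem one_le_mu {σ : ℝ} (hσ : 0 < σ) (h1 : σ ≤ 1) : 1 ≤ (√σ)⁻¹ :=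
  (one_le_inv₀ (Real.sqrt_pos.2 hσ)).2 (Real.sqrt_le_one.2 h1)

/-- from the homogeneous gauge to the weighted square -/
theorem wt_le {σ a Λ : ℝ} {d : ℕ} (hd : d = 3 ∨ d = 4) (a0 : 0 ≤ a) (Λ0 : 0 ≤ Λ)
    (h : σ ^ 6 * a ^ (12 / d) ≤ Λ) : σ ^ d * a ^ 2 ≤ 1 + Λ := by
  rcases hd with rfl | rfl
  · have e : σ ^ 6 * a ^ (12 / 3) = (σ ^ 3 * a ^ 2) ^ 2 := by norm_num; ring
    rw [e] at h
    nlinarith [sq_nonneg (σ ^ 3 * a ^ 2 - 1)]
  · have e : σ ^ 6 * a ^ (12 / 4) = (σ ^ 2 * a) ^ 3 := by norm_num; ring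
    have e' : σ ^ 4 * a ^ 2 = (σ ^ 2 * a) ^ 2 := by ring
    rw [e] at h
    rw [e']
    have : 0 ≤ σ ^ 2 * a := by positivity
    generalize σ ^ 2 * a = c at *
    nlinarith [mul_nonneg this (sq_nonneg (c - 1)), sq_nonneg (c - 1)]

theorem wt_ge {σ a η : ℝ} {d : ℕ} (hd : d = 3 ∨ d = 4) (σ0 : 0 ≤ σ) (a0 : 0 ≤ a) (η0 : 0 ≤ η) (η1 : η ≤ 1)
    (h : σ ^ d * a ^ 2 ≤ η ^ 2) : σ ^ 6 * a ^ (12 / d) ≤ η := by
  rcases hd with rfl | rfl
  · have e : σ ^ 6 * a ^ (12 / 3) = (σ ^ 3 * a ^ 2) ^ 2 := by norm_num; ring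
    rw [e]
    exact (pow_le_pow_left₀ (by positivity) h 2).trans (by rw [← pow_mul]; exact pow_le_of_le_one η0 η1 (by norm_num))
  · have e : σ ^ 6 * a ^ (12 / 4) = (σ ^ 2 * a) ^ 3 := by norm_num; ring
    have e' : σ ^ 4 * a ^ 2 = (σ ^ 2 * a) ^ 2 := by ring
    rw [e]
    rw [e'] at h
    exact (pow_le_pow_left₀ (by positivity) (abs_le_of_sq_le_sq' h η0).2 3).trans
      (pow_le_of_le_one η0 η1 (by norm_num))

variable {E : Type} [NormedAddCommGroup E] [NormedSpace ℝ E] {HM : Type} [TopologicalSpace HM]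
  {I : ModelWithCorners ℝ E HM} {ι : Type} [Fintype ι]
  {E' : Type} [NormedAddCommGroup E'] [NormedSpace ℝ E']

section one
variable {N : Type} [TopologicalSpace N] [ChartedSpace HM N] [IsManifold I ∞ N] [MeasurableSpace N]
  {e : ι → (x : N) → TangentSpace I x} {μ : Measure N} {κ : OpenPartialHomeomorph N E'} {T : Set E'}
  {K B σ C η t : ℝ} {φ : E' → ℝ} {z : E'} {V : Type} [NormedAddCommGroup V] [InnerProductSpace ℝ V]
  {A : ι → N → V →L[ℝ] V} {s w : N → V} {d : ℕ}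

theorem hs_one (σ0 : 0 < σ) {x : N} (h : σ ^ d * hs I e A (√σ)⁻¹ 1 s x ≤ C) :
    σ ^ d * ‖s x‖ ^ 2 ≤ C ∧ ∀ a, σ ^ d * (σ * ‖nab I e A a s x‖) ^ 2 ≤ C := by
  simp only [hs, mu4 σ0, inv_inv] at h
  have a1 := sq_nonneg ‖s x‖
  have a2 : 0 ≤ σ ^ 2 * ∑ a, ‖nab I e A a s x‖ ^ 2 := by positivity
  refine ⟨le_trans (by gcongr; linarith) h, fun a => le_trans (mul_le_mul_of_nonneg_left ?_ (by positivity)) h⟩
  have := mul_le_mul_of_nonneg_left (Finset.single_le_sum (f := fun a => ‖nab I e A a s x‖ ^ 2)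
    (fun _ _ => sq_nonneg _) (Finset.mem_univ a)) (sq_nonneg σ)
  rw [mul_pow]; linarith

/-- a large field stays large on a ball of comparable size -/
theorem fld_low (h : Ch I e μ κ T K) (K0 : 0 ≤ K) (sk : ∀ a x v w, ⟪A a x v, w⟫_ℝ = -⟪v, A a x w⟫_ℝ)
    (hs' : Sm I s) (σ0 : 0 < σ) (C0 : 0 ≤ C) (hb : closedBall z (σ / 2) ⊆ T)
    (hC : ∀ y ∈ closedBall z (σ / 2), σ ^ d * hs I e A (√σ)⁻¹ 1 s (κ.symm y) ≤ C)
    (t1 : t ≤ 1 / 2) (t2 : 2 * Fintype.card ι * K * C * t ≤ η) (hη : 2 * η ≤ σ ^ d * ‖s (κ.symm z)‖ ^ 2) :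
    ∀ y ∈ closedBall z (t * σ), η ≤ σ ^ d * ‖s (κ.symm y)‖ ^ 2 := by
  intro y hy
  have md : ∀ x, MD I (fun x => ‖s x‖ ^ 2) x := fun x => (cm_normSq (hs' x)).md (by simp)
  have := lip h (convex_closedBall z (σ / 2)) hb (f := fun x => σ ^ d * ‖s x‖ ^ 2) (A := 2 * C / σ)
    (fun y _ => md_mul mdifferentiableAt_const (md _)) (fun y hy a => ?_) (mem_closedBall_self (by positivity))
    (closedBall_subset_closedBall (by nlinarith) hy)
  · rw [abs_of_nonneg K0, abs_of_nonneg (by positivity), Real.norm_eq_abs] at this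
    have a1 : Fintype.card ι * K * (2 * C / σ) * ‖y - z‖ ≤ Fintype.card ι * K * (2 * C / σ) * (t * σ) := by
      gcongr; exact mem_closedBall_iff_norm.1 hy
    have a2 : Fintype.card ι * K * (2 * C / σ) * (t * σ) = 2 * Fintype.card ι * K * C * t := by field_simp
    have := neg_le_of_abs_le this
    linarith
  obtain ⟨a1, a2⟩ := hs_one σ0 (hC y hy)
  have m1 : MD I s (κ.symm y) := (hs' _).mdifferentiableAt (by simp)
  have a3 := dv_inner_cd (v := e a) (sk a _) m1 m1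
  simp only [real_inner_self_eq_norm_sq] at a3
  rw [dv_mul mdifferentiableAt_const (md _), dv_const, zero_mul, zero_add, a3, real_inner_comm, ← two_mul,
    norm_mul, norm_mul, Real.norm_of_nonneg (by positivity), Real.norm_ofNat, le_div_iff₀ σ0]
  have a4 := mul_le_mul_of_nonneg_left (norm_inner_le_norm (𝕜 := ℝ) (s (κ.symm y)) (cd I (e a) (A a) s (κ.symm y)))
    (show 0 ≤ σ ^ d * σ by positivity)
  have a5 := mul_nonneg (pow_nonneg σ0.le d) (sq_nonneg (‖s (κ.symm y)‖ - σ * ‖nab I e A a s (κ.symm y)‖))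
  have a6 := a2 a
  change _ ≤ _ * (_ * ‖nab I e A a s (κ.symm y)‖) at a4
  linarith

theorem tay_arith {σ η C W p q J : ℝ} (σ0 : 0 < σ) (η0 : 0 < η)
    (h1 : η ≤ σ ^ 3 * p ^ 2) (h2 : σ ^ 3 * (σ * q) ^ 2 ≤ C) (h3 : σ * (4 * W ^ 2 * C) ≤ η ^ 2)
    (h4 : -(q * W) ≤ J) : η / σ ^ 3 ≤ 2 * J + 2 * p ^ 2 := by
  have a1 : (2 * W * (σ ^ 3 * q)) ^ 2 ≤ η ^ 2 := by
    have := mul_le_mul_of_nonneg_left h2 (show 0 ≤ σ * (4 * W ^ 2) by positivity)
    linarith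
  have a2 := (abs_le_of_sq_le_sq' a1 η0.le).2
  have a3 := mul_le_mul_of_nonneg_left h4 (pow_nonneg σ0.le 3)
  rw [div_le_iff₀ (by positivity)]
  linarith

end one

variable {α : Type} {X : α → Type} [∀ n, TopologicalSpace (X n)] [∀ n, ChartedSpace HM (X n)]
  [∀ n, IsManifold I ∞ (X n)] [∀ n, MeasurableSpace (X n)] {b : Fb I ι X} {L : Sy ι X}
  {κ : ∀ n, OpenPartialHomeomorph (X n) E'} {𝓑 : Filter (α × E' × ℝ)}

theorem si (hc : Cons b L) (r : ℕ) (R : ℝ) : ∃ K, 0 ≤ K ∧ ∀ᶠ q in b.F, ∀ μ, 1 ≤ μ → (μ = 1 ∨ r = 0) →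
    b.H L 3 μ r q.1 q.2 ≤ R → SI I (b.e q.1) (μ ^ 4) K (|R| + 1) (b.H L 3 μ r q.1) (b.H L 3 μ (r + 1) q.1)
      (b.H L 3 μ (r + 2) q.1) q.2 := by
  obtain ⟨K, K0, hK⟩ := hc.ine r R
  refine ⟨K, K0, hK.mono fun q hq μ h1 h2 h3 => ?_⟩
  have g : ∀ r, ∑ a, dv I (b.e q.1 a) (b.H L 3 μ r q.1) q.2 ^ 2 ≤
      4 * μ ^ 4 * b.H L 3 μ r q.1 q.2 * b.H L 3 μ (r + 1) q.1 q.2 := fun r => by
    refine (hc.grad (by linarith) r q.2).trans ?_
    have := mul_nonneg (mul_nonneg (b.H_nonneg L 3 μ r q.1 q.2) (b.H_nonneg L 3 μ 0 q.1 q.2))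
      (show 0 ≤ μ ^ 4 by positivity)
    linarith
  exact ⟨(hc.sm_H 3 μ _ _ _).of_le two_le, (hc.sm_H 3 μ _ _ _).of_le two_le, b.H_nonneg ..,
    b.H_nonneg .., b.H_nonneg .., h3.trans (by nlinarith [le_abs_self R, abs_nonneg R]),
    (hq μ h1 h2 h3).1, (hq μ h1 h2 h3).2, g r, g (r + 1)⟩

variable [CompleteSpace E] [I.Boundaryless] [FiniteDimensional ℝ E']

/-- SHI on all sub-balls, at all scales -/
theorem shi_sub (hc : Cons b L) (hB : Bl b κ 𝓑) (r : ℕ) (R : ℝ) : ∃ C, 0 ≤ C ∧ ∀ᶠ p in 𝓑, ∀ μ, 1 ≤ μ →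
    (μ = 1 ∨ r = 0) → ∀ z s, 0 < s → s ^ 2 * μ ^ 4 ≤ 1 → closedBall z s ⊆ closedBall p.2.1 p.2.2 →
      (∀ y ∈ closedBall z s, b.H L 3 μ r p.1 ((κ p.1).symm y) ≤ R) →
        s ^ 2 * μ ^ 4 * b.H L 3 μ (r + 1) p.1 ((κ p.1).symm z) ≤ C := by
  have := FiniteDimensional.proper_real E'
  obtain ⟨φ, B, hφ⟩ := exists_bmp E'
  obtain ⟨K, K0, hK⟩ := hB.ch
  obtain ⟨K', K1, hK'⟩ := si hc r R
  refine ⟨max 0 (ballC ι B K K' (|R| + 1)), le_max_left _ _, (hK.and (hB.sub _ hK')).mono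
    fun p hp μ h1 h2 z s s0 s1 hb hR => le_trans ?_ (le_max_right _ _)⟩
  have m1 : 1 ≤ μ ^ 4 := one_le_pow₀ h1
  exact shi_ball (h0 := b.H L 3 μ r p.1) (h2 := b.H L 3 μ (r + 2) p.1) hp.1.2.2 K0.le (b.frm _).se hφ s0
    (abs_le_of_sq_le_sq' (by nlinarith [sq_nonneg s]) zero_le_one).2 hb (by linarith) s1 K1 (by positivity)
    fun y hy => hp.2 y (hb hy) μ h1 h2 (hR y hy)

/-- **BERN** -/
theorem bern (hc : Cons b L) (hB : Bl b κ 𝓑) : Bern b L κ 𝓑 := fun r R => by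
  obtain ⟨C, -, hC⟩ := shi_sub hc hB r R
  obtain ⟨K, -, hK⟩ := hB.ch
  refine ⟨C, (hC.and hK).mono fun p hp hR => ?_⟩
  simpa using hp.1 1 le_rfl (.inl rfl) p.2.1 p.2.2 hp.2.1 (by nlinarith [hp.2.1, hp.2.2.1]) Subset.rfl hR

variable [∀ n, OpensMeasurableSpace (X n)]

/-- a field with bounded one-jet is small at small scales -/
theorem fld_small {f : Fld ι X} (hf : f.O3 b L) (hB : Bl b κ 𝓑) {C η : ℝ} (C0 : 0 ≤ C) (η0 : 0 < η) :
    ∃ δ : ℝ≥0, 0 < δ ∧ ∀ᶠ p in 𝓑, b.eb κ p ≤ δ → ∀ z (σ : ℝ), 0 < σ → σ ≤ δ →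
      closedBall z (σ / 2) ⊆ closedBall p.2.1 p.2.2 →
      (∀ y ∈ closedBall z (σ / 2), b.H L 3 (√σ)⁻¹ 0 p.1 ((κ p.1).symm y) ≤ C) →
      (∀ y ∈ closedBall z (σ / 2), σ ^ f.d 3 * hs I (b.e p.1) (f.A p.1) (√σ)⁻¹ 1 (f.s p.1) ((κ p.1).symm y) ≤ C) →
        σ ^ f.d 3 * ‖f.s p.1 ((κ p.1).symm z)‖ ^ 2 < 2 * η := by
  have := FiniteDimensional.proper_real E'
  obtain ⟨φ, B, hφ⟩ := exists_bmp E'
  obtain ⟨K, K0, hK⟩ := hB.ch
  have B0 := hφ.nn
  set t := min (1 / 2) (η / (2 * Fintype.card ι * K * C + 1))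
  have t0 : 0 < t := lt_min (by norm_num) (by positivity)
  have t1 : t ≤ 1 / 2 := min_le_left _ _
  have t2 : 2 * Fintype.card ι * K * C * t ≤ η := by
    have := (le_div_iff₀ (by positivity)).1 (min_le_right _ _ : t ≤ _); linarith
  have sb : ∀ {z : E'} {σ : ℝ}, 0 < σ → closedBall z (t * σ) ⊆ closedBall z (σ / 2) := fun σ0 =>
    closedBall_subset_closedBall (by nlinarith)
  suffices H : ∃ δ : ℝ, 0 < δ ∧ ∀ᶠ p in 𝓑, b.eb κ p ≤ δ.toNNReal → ∀ z σ, 0 < σ → σ ≤ δ →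
      closedBall z (σ / 2) ⊆ closedBall p.2.1 p.2.2 →
      (∀ y ∈ closedBall z (σ / 2), b.H L 3 (√σ)⁻¹ 0 p.1 ((κ p.1).symm y) ≤ C) →
      (∀ y ∈ closedBall z (σ / 2), σ ^ f.d 3 * hs I (b.e p.1) (f.A p.1) (√σ)⁻¹ 1 (f.s p.1) ((κ p.1).symm y) ≤ C) →
      ¬ ∀ y ∈ closedBall z (t * σ), η ≤ σ ^ f.d 3 * ‖f.s p.1 ((κ p.1).symm y)‖ ^ 2 by
    obtain ⟨δ, δ0, H⟩ := H
    exact ⟨δ.toNNReal, Real.toNNReal_pos.2 δ0, (H.and hK).mono fun p hp h1 z σ σ0 h2 hb hH hC => not_le.1 fun h3 =>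
      hp.1 h1 z σ σ0 (by rwa [Real.coe_toNNReal _ δ0.le] at h2) hb hH hC
        (fld_low hp.2.2.2 K0.le (hf.sk _) (hf.sm _) σ0 C0 hb hC t1 t2 h3)⟩
  rcases hf.kind with ⟨ht, hk | ⟨C₄, D, hD, hk⟩⟩ | ⟨ht, w, a, sw, ⟨W, hW⟩, hk⟩ <;>
    simp only [Fld.d, ht, Bool.false_eq_true, if_false, if_true]
  · obtain ⟨C₁, C1, hk⟩ := hk C
    refine ⟨min (min 1 (η / (2 * C₁))) (η / (2 * C₁) * t ^ 4 / (2 * K)),
      lt_min (lt_min one_pos (by positivity)) (by positivity),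
      (hK.and (hB.sub _ hk)).mono fun p hp h1 z σ σ0 h2 hb hH _ hl => ?_⟩
    have hs := ball_subset_closedBall.trans ((sb σ0).trans hb)
    have := mass hp.1.2.2 K0 (mul_pos t0 σ0) hs (image_mono hs) (c := η / (2 * C₁) / σ ^ 4) (by positivity)
      (fun y hy => ENNReal.ofReal_le_ofReal ?_) (h1.trans (ENNReal.coe_le_coe.2
        (Real.toNNReal_le_toNNReal (min_le_right _ _))))
    · rw [Real.coe_toNNReal _ (by positivity), mul_pow] at this
      have e1 : η / (2 * C₁) / σ ^ 4 * (t ^ 4 * σ ^ 4) = η / (2 * C₁) * t ^ 4 := by field_simp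
      have e2 : K * (η / (2 * C₁) * t ^ 4 / (2 * K)) = η / (2 * C₁) * t ^ 4 / 2 := by field_simp
      have : 0 < η / (2 * C₁) * t ^ 4 := by positivity
      linarith
    have a1 := h2.trans ((min_le_left _ _).trans (min_le_left _ _))
    have a2 := (le_div_iff₀ (by positivity)).1 (h2.trans ((min_le_left _ _).trans (min_le_right _ _)))
    have a3 := (hl y (ball_subset_closedBall hy)).trans (mul_le_mul_of_nonneg_left
      (hp.2 y (hs hy) _ (one_le_mu σ0 a1) (hH y (sb σ0 (ball_subset_closedBall hy)))) (by positivity))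
    have a4 : σ ^ 4 * (√σ)⁻¹ ^ 6 = σ := by
      rw [show 6 = 2 * 3 from rfl, pow_mul, inv_pow, Real.sq_sqrt σ0.le]; field_simp
    rw [mul_left_comm, mul_add, a4] at a3
    rw [div_le_iff₀' (by positivity), div_le_iff₀ (by positivity)]
    linarith
  · refine ⟨min 1 (η ^ 2 * t ^ 4 / (K * C₄ + 1)), lt_min one_pos (by positivity),
      (hK.and (hB.sub D hD)).mono fun p hp _ z σ σ0 h2 hb _ _ hl => ?_⟩
    have hs := ball_subset_closedBall.trans ((sb σ0).trans hb)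
    have := mass hp.1.2.2 K0 (mul_pos t0 σ0) hs (D := Sigma.mk p.1 ⁻¹' D)
      (by rintro _ ⟨y, hy, rfl⟩; exact hp.2 y (hs hy)) (c := (η / σ ^ 4) ^ 2) (by positivity)
      (fun y hy => ?_) (hk p.1)
    · have e1 : (η / σ ^ 4) ^ 2 * (t * σ) ^ 4 = η ^ 2 * t ^ 4 / σ ^ 4 := by field_simp
      rw [e1, div_le_iff₀ (by positivity)] at this
      have a1 := (le_div_iff₀ (by positivity)).1 (h2.trans (min_le_right _ _))
      have a2 : σ ^ 4 ≤ σ := pow_le_of_le_one σ0.le (h2.trans (min_le_left _ _)) (by norm_num)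
      have a3 := mul_le_mul_of_nonneg_left a2 (show 0 ≤ K * C₄ by positivity)
      linarith
    rw [← ofReal_norm, ← ENNReal.ofReal_pow (norm_nonneg _)]
    refine ENNReal.ofReal_le_ofReal ((pow_le_pow_left₀ (by positivity)
      ((div_le_iff₀' (by positivity)).2 (hl y (ball_subset_closedBall hy))) 2).trans (by rw [← pow_mul]))
  · refine ⟨min 1 (min (η ^ 2 / (4 * W ^ 2 * C + 1)) (η * t ^ 2 / ((W ^ 2 + 1) * (B * K ^ 2 + B * K) + 1))),
      lt_min one_pos (lt_min (by positivity) (by positivity)),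
      (hK.and (hB.sub _ hW)).mono fun p hp _ z σ σ0 h2 hb _ hC hl => ?_⟩
    have hs := (sb σ0).trans hb
    have a1 := h2.trans (min_le_left _ _)
    have a2 := (le_div_iff₀ (by positivity)).1 (h2.trans ((min_le_right _ _).trans (min_le_left _ _)))
    have a3 := (le_div_iff₀ (by positivity)).1 (h2.trans ((min_le_right _ _).trans (min_le_right _ _)))
    have := tay hp.1.2.2 (b.frm _).se hφ (mul_pos t0 σ0) (by nlinarith) hs a (g := fun x => ‖w p.1 x‖ ^ 2)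
      (A := W ^ 2) (c := η / σ ^ 3) (fun y _ => (cm_normSq (sw _ _)).of_le two_le) (sq_nonneg _)
      (fun y hy => pow_le_pow_left₀ (norm_nonneg _) (hp.2 y (hs hy)) 2) fun y hy => ?_
    · have e1 : (t * σ) ^ 2 * (η / σ ^ 3) = η * t ^ 2 / σ := by field_simp
      rw [e1, div_le_iff₀ σ0] at this
      linarith
    have b1 := Lop_normSq (e := fun _ : Unit => b.e p.1 a) (b := 0) (A := fun _ => f.A p.1 a) (u := w p.1)
      (x := (κ p.1).symm y) (fun _ => vf1 (b.frm _).se a _) (fun _ => (hf.sA _ a _).of_le (by simp))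
      (fun _ => .of_forall (hf.sk _ a)) ((sw _ _).of_le two_le)
    simp only [Lop, LA, Finset.univ_unique, Finset.sum_singleton, Pi.zero_apply, zero_smul, add_zero] at b1
    have b2 := (hs_one σ0 (hC y (sb σ0 hy))).2 a
    have b3 := hl y hy
    have b4 : ‖w p.1 ((κ p.1).symm y)‖ ≤ W := hp.2 y (hs hy)
    rw [hk] at b2 b3
    rw [b1]
    exact tay_arith σ0 η0 b3 b2 (by linarith)
      (neg_le_of_abs_le ((abs_real_inner_le_norm _ _).trans (mul_le_mul_of_nonneg_left b4 (norm_nonneg _))))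

variable (L) in
/-- the homogeneous gauge of weight twelve -/
def gm (n : α) (x : X n) : ℝ := ∑ i, ‖(L.f i).s n x‖ ^ (12 / (L.f i).d 3)

theorem gm_nonneg (n : α) (x : X n) : 0 ≤ gm L n x := Finset.sum_nonneg fun _ _ => by positivity

theorem d_cases (f : Fld ι X) : f.d 3 = 3 ∨ f.d 3 = 4 := by unfold Fld.d; split <;> simp

theorem H_of_gm {σ Λ : ℝ} (σ0 : 0 < σ) {n : α} {x : X n} (h : σ ^ 6 * gm L n x ≤ Λ) :
    b.H L 3 (√σ)⁻¹ 0 n x ≤ Fintype.card L.κ * (1 + Λ) := by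
  refine (Finset.sum_le_card_nsmul _ _ (1 + Λ) fun i _ => ?_).trans (by rw [Finset.card_univ, nsmul_eq_mul])
  rw [sq_mu σ0]
  exact wt_le (d_cases _) (norm_nonneg _) ((mul_nonneg (by positivity) (gm_nonneg n x)).trans h)
    (le_trans (mul_le_mul_of_nonneg_left (Finset.single_le_sum (f := fun i => ‖(L.f i).s n x‖ ^ (12 / (L.f i).d 3))
      (fun _ _ => by positivity) (Finset.mem_univ i)) (by positivity)) h)

/-- bounded gauge gives bounded one-jets -/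
theorem shi_gm (hc : Cons b L) (hB : Bl b κ 𝓑) (Λ : ℝ) : ∃ C, 0 ≤ C ∧ ∀ᶠ p in 𝓑, ∀ σ, 0 < σ → σ ≤ 1 → ∀ z,
    closedBall z (σ / 2) ⊆ closedBall p.2.1 p.2.2 →
      (∀ y ∈ closedBall z (σ / 2), σ ^ 6 * gm L p.1 ((κ p.1).symm y) ≤ Λ) →
        b.H L 3 (√σ)⁻¹ 1 p.1 ((κ p.1).symm z) ≤ C := by
  obtain ⟨C, C0, hC⟩ := shi_sub hc hB 0 (Fintype.card L.κ * (1 + Λ))
  refine ⟨4 * C, by positivity, hC.mono fun p hp σ σ0 σ1 z hb hm => ?_⟩
  have e : (σ / 2) ^ 2 * (√σ)⁻¹ ^ 4 = 1 / 4 := by rw [mu4 σ0]; field_simp; norm_num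
  have := hp _ (one_le_mu σ0 σ1) (.inr rfl) z _ (half_pos σ0) (by rw [e]; norm_num) hb fun y hy => H_of_gm σ0 (hm y hy)
  rw [e, zero_add] at this
  linarith

/-- **EPS** -/
theorem eps (hc : Cons b L) (hB : Bl b κ 𝓑) : Eps b L κ 𝓑 := by
  have := FiniteDimensional.proper_real E'
  obtain ⟨C, C0, hC⟩ := shi_gm hc hB (2 ^ 6)
  set η : ℝ := 1 / (Fintype.card L.κ + 1)
  have η0 : 0 < η := by positivity
  have η1 : η * (Fintype.card L.κ + 1) = 1 := one_div_mul_cancel (by positivity)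
  have η2 : 0 ≤ η * Fintype.card L.κ := by positivity
  choose δ δ0 hδ using fun i => fld_small (hc.ok i) hB C0 (η := η ^ 2 / 2) (by positivity)
  obtain ⟨ε, ⟨ε0, ε1⟩, hε⟩ := ((show ∀ᶠ x in 𝓝[>] (0 : ℝ≥0), x ∈ Ioc 0 1 from Ioc_mem_nhdsGT one_pos).and
    (eventually_all.2 fun i => show ∀ᶠ x in 𝓝[>] (0 : ℝ≥0), x ∈ Ioc 0 (δ i) from Ioc_mem_nhdsGT (δ0 i))).exists
  have ε2 : (0 : ℝ) < ε := ε0
  have ε3 : (1 : ℝ) ≤ (ε : ℝ)⁻¹ := (one_le_inv₀ ε2).2 ε1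
  obtain ⟨C', -, hC'⟩ := shi_gm hc hB ((2 * (2 + (ε : ℝ)⁻¹)) ^ 6)
  obtain ⟨K, -, hK⟩ := hB.ch
  refine ⟨ε, ε0, C', ((hC.and hC').and (hK.and (eventually_all.2 hδ))).mono fun p hp hE => ?_⟩
  obtain ⟨⟨h1, h2⟩, ⟨ρ0, ρ1, ch⟩, h3⟩ := hp
  refine h2 _ ρ0 ρ1 _ (closedBall_subset_closedBall (by linarith)) fun y hy => le_trans
    (pick (m := fun y => gm L p.1 ((κ p.1).symm y)) (k := 6) (by norm_num) ρ0 ?_ (fun _ => gm_nonneg _ _) ε3
      (fun z σ σ0 hz hm h1' => ?_) y hy) (by gcongr; nlinarith)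
  · exact (continuous_finsetSum _ fun i _ => ((hc.ok i).sm _).continuous.norm.pow _).comp_continuousOn
      ((κ p.1).continuousOn_symm.mono ch.tgt)
  rw [le_inv_mul_iff₀ ε2, mul_one]
  by_contra hn
  have dn := dist_nonneg (x := z) (y := p.2.1)
  have sb : closedBall z σ ⊆ closedBall p.2.1 p.2.2 := closedBall_subset_closedBall' (by linarith)
  have a1 : ∀ y ∈ closedBall z (σ / 2), b.H L 3 (√σ)⁻¹ 1 p.1 ((κ p.1).symm y) ≤ C := fun y hy => by
    have : closedBall y (σ / 2) ⊆ closedBall z σ :=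
      closedBall_subset_closedBall' (by have := mem_closedBall.1 hy; linarith)
    exact h1 σ σ0 (by linarith) y (this.trans sb) fun x hx => hm x (this hx)
  have a2 := Finset.sum_le_card_nsmul Finset.univ
    (fun i => σ ^ 6 * ‖(L.f i).s p.1 ((κ p.1).symm z)‖ ^ (12 / (L.f i).d 3)) η fun i _ => by
      refine wt_ge (d_cases _) σ0.le (norm_nonneg _) η0.le (by linarith) ?_
      have := h3 i (hE.trans (by exact_mod_cast (hε i).2)) z σ σ0
        ((not_le.1 hn).le.trans (by exact_mod_cast (hε i).2))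
        ((closedBall_subset_closedBall (by linarith)).trans sb)
        (fun y hy => (b.H_mono ..).trans (a1 y hy)) fun y hy => le_trans ?_ (a1 y hy)
      · linarith
      rw [← sq_mu σ0]
      exact Finset.single_le_sum (f := fun i => (((√σ)⁻¹ ^ (L.f i).d 3) ^ 2)⁻¹ *
        hs I (b.e p.1) ((L.f i).A p.1) (√σ)⁻¹ 1 ((L.f i).s p.1) ((κ p.1).symm y))
        (fun _ _ => mul_nonneg (by positivity) (hs_nonneg _ _ _)) (Finset.mem_univ i)
  rw [← Finset.mul_sum, Finset.card_univ, nsmul_eq_mul] at a2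
  have a3 : σ ^ 6 * ∑ i, ‖(L.f i).s p.1 ((κ p.1).symm z)‖ ^ (12 / (L.f i).d 3) = 1 := h1'
  linarith

end Crest.Agent.X212.Shi84

end
end

-- ▼ part X212/Eps63/Ann
section

/-!
# Row 212, AN (helper63): scalar barrier estimates on compact annuli (ANN, A, B')

`L = Lop I e b`, `Q` an approximate squared distance in dimension four, `K = {d' ≤ Q ≤ d}`.
-/

set_option autoImplicit false
set_option linter.unusedSectionVars false

open Set Filter Topology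
open scoped Manifold ContDiff
open Crest.Agent.X212.Mp86

noncomputable section

namespace Crest.Agent.X212.Eps63

universe u v w z

section
variable {E H M : Type*} [NormedAddCommGroup E] [NormedSpace ℝ E] [CompleteSpace E]
  [TopologicalSpace H] (I : ModelWithCorners ℝ E H) [TopologicalSpace M] [ChartedSpace H M]
  [IsManifold I ∞ M] [BoundarylessManifold I M] {ι : Type*} [Fintype ι]

/-- a compact annulus `d' ≤ Q ≤ d` -/
structure Ann (e : ι → Π x : M, TangentSpace I x) (b : ι → M → ℝ) (Q : M → ℝ) (K : Set M)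
    (d' d η : ℝ) : Prop where
  cpt : IsCompact K
  pos : 0 < d'
  vf : ∀ x ∈ K, ∀ a, VF I 1 (e a) x
  cQ : ∀ x ∈ K, CM I 2 Q x
  lo : ∀ x ∈ K, d' ≤ Q x
  hi : ∀ x ∈ K, Q x ≤ d
  fr : ∀ x ∈ K, x ∉ interior K → Q x = d' ∨ Q x = d
  gr : ∀ x ∈ K, |∑ a, dv I (e a) Q x ^ 2 - 4 * Q x| ≤ η * Q x
  lap : ∀ x ∈ K, |Lop I e b Q x - 8| ≤ η

variable {I} {e : ι → Π x : M, TangentSpace I x} {b : ι → M → ℝ} {Q : M → ℝ} {K : Set M}
  {d' d η : ℝ} {x : M}

/-- **ANN**: comparison with a positive strict supersolution -/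
theorem cmp_pos (hK : IsCompact K) (he : ∀ x ∈ K, ∀ a, VF I 1 (e a) x) {f ψ V : M → ℝ}
    (hf : ContinuousOn f K) (hψ : ∀ x ∈ K, 0 < ψ x ∧ CM I 2 ψ x)
    (hs : ∀ x ∈ interior K, Lop I e b ψ x < -(V x * ψ x))
    (hL : ∀ x ∈ interior K, ψ x < f x → CM I 2 f x ∧ -(V x * f x) ≤ Lop I e b f x)
    (hfr : ∀ x ∈ K, x ∉ interior K → f x ≤ ψ x) : ∀ x ∈ K, f x ≤ ψ x := by
  intro x hx
  have cψ : ContinuousOn ψ K := fun y hy => (hψ y hy).2.continuousAt.continuousWithinAt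
  obtain ⟨y, hy, hm⟩ := hK.exists_isMaxOn ⟨x, hx⟩ (hf.div cψ fun y hy => (hψ y hy).1.ne')
  set m := f y / ψ y with hmd
  have h1 : ∀ x ∈ K, f x ≤ m * ψ x := fun x hx => (div_le_iff₀ (hψ x hx).1).1 (hm hx)
  have h2 : f y = m * ψ y := (div_mul_cancel₀ _ (hψ y hy).1.ne').symm
  by_contra! hc
  have m1 : 1 < m := by
    by_contra! h
    nlinarith [h1 x hx, (hψ x hx).1]
  have h3 : ψ y < f y := by nlinarith [(hψ y hy).1]
  have hi : y ∈ interior K := by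
    by_contra h
    linarith [hfr y hy h]
  obtain ⟨a1, a2⟩ := hL y hi h3
  have c1 : CM I 2 (fun x => m * ψ x) y := contMDiffAt_const.mul (hψ y hy).2
  have h4 := Lop_nonpos (b := b) (f := fun x => f x - m * ψ x) (he y hy) (a1.sub c1) (by
    filter_upwards [mem_interior_iff_mem_nhds.1 hi] with x hx
    linarith [h1 x hx])
  rw [Lop_sub (he y hy) a1 c1, Lop_mul _ (he y hy) (hψ y hy).2] at h4
  have h5 := mul_lt_mul_of_pos_left (hs y hi) (zero_lt_one.trans m1)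
  rw [h2] at a2
  nlinarith

theorem cm_rpow {N : M → ℝ} (hN : CM I 2 N x) (h0 : 0 < N x) (s : ℝ) :
    CM I 2 (fun y => N y ^ s) x :=
  (Real.contDiffAt_rpow_const_of_ne (p := s) h0.ne').contMDiffAt.comp x hN

theorem cm_cmul {N : M → ℝ} (hN : CM I 2 N x) (c : ℝ) : CM I 2 (fun y => c * N y) x :=
  contMDiffAt_const.mul hN

theorem Lop_rpow {N : M → ℝ} (he : ∀ a, VF I 1 (e a) x) (hN : CM I 2 N x) (h0 : 0 < N x) (s : ℝ) :
    Lop I e b (fun y => N y ^ s) x =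
      s * (N x ^ s / N x) * (Lop I e b N x - (1 - s) * (∑ a, dv I (e a) N x ^ 2) / N x) := by
  rw [Lop_comp (g := fun t => t ^ s) (g' := fun t => s * t ^ (s - 1))
    (g'' := s * ((s - 1) * N x ^ (s - 1 - 1))) he hN
    ((lt_mem_nhds h0).mono fun t ht => Real.hasDerivAt_rpow_const (Or.inl ht.ne'))
    ((Real.hasDerivAt_rpow_const (Or.inl h0.ne')).const_mul s),
    Real.rpow_sub_one h0.ne', Real.rpow_sub_one h0.ne']
  field_simp
  ring

theorem Ann.Q0 (h : Ann I e b Q K d' d η) (hx : x ∈ K) : 0 < Q x := h.pos.trans_le (h.lo x hx)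

theorem Ann.eta (h : Ann I e b Q K d' d η) (hx : x ∈ K) : 0 ≤ η :=
  (abs_nonneg _).trans (h.lap x hx)

/-- the singular barriers -/
theorem Ann.neg (h : Ann I e b Q K d' d η) (hx : x ∈ K) {s c : ℝ} (s0 : 0 ≤ s) (s1 : s ≤ 1)
    (hc : c ≤ s * (4 * (1 - s) - 3 * η)) :
    Lop I e b (fun y => Q y ^ (-s)) x ≤ -(c / Q x * Q x ^ (-s)) := by
  have q := h.Q0 hx
  rw [Lop_rpow (h.vf x hx) (h.cQ x hx) q]
  have a1 : (∑ a, dv I (e a) Q x ^ 2) / Q x ≤ 4 + η := by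
    rw [div_le_iff₀ q]; linarith [(abs_le.1 (h.gr x hx)).2]
  have a2 := (abs_le.1 (h.lap x hx)).1
  have a3 : 0 < Q x ^ (-s) / Q x := div_pos (Real.rpow_pos_of_pos q _) q
  have a4 : c ≤ s * (Lop I e b Q x - (1 - -s) * (∑ a, dv I (e a) Q x ^ 2) / Q x) := by
    refine hc.trans (mul_le_mul_of_nonneg_left ?_ s0)
    rw [mul_div_assoc]
    nlinarith [h.eta hx]
  have := mul_le_mul_of_nonneg_left a4 a3.le
  calc _ = -(Q x ^ (-s) / Q x * (s * (Lop I e b Q x -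
        (1 - -s) * (∑ a, dv I (e a) Q x ^ 2) / Q x))) := by ring
    _ ≤ -(Q x ^ (-s) / Q x * c) := neg_le_neg this
    _ = _ := by ring

/-- the bounded barrier -/
theorem Ann.posb (h : Ann I e b Q K d' d η) (hx : x ∈ K) {s : ℝ} (s0 : 0 ≤ s) (s1 : s ≤ 1)
    (hη : η ≤ 1) : 2 * s * (Q x ^ s / Q x) ≤ Lop I e b (fun y => Q y ^ s) x := by
  have q := h.Q0 hx
  rw [Lop_rpow (h.vf x hx) (h.cQ x hx) q]
  have a1 : (∑ a, dv I (e a) Q x ^ 2) / Q x ≤ 4 + η := by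
    rw [div_le_iff₀ q]; linarith [(abs_le.1 (h.gr x hx)).2]
  have a2 := (abs_le.1 (h.lap x hx)).1
  have a3 : 0 ≤ s * (Q x ^ s / Q x) := by positivity
  have a4 : 2 ≤ Lop I e b Q x - (1 - s) * (∑ a, dv I (e a) Q x ^ 2) / Q x := by
    rw [mul_div_assoc]
    nlinarith [h.eta hx]
  nlinarith [mul_le_mul_of_nonneg_left a4 a3]

theorem sub_rpow {N : M → ℝ} (he : ∀ a, VF I 1 (e a) x) (hN : CM I 2 N x) (h0 : 0 < N x)
    {β V : ℝ} (b0 : 0 ≤ β) (b1 : β ≤ 1) (hV : 0 ≤ V)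
    (h : -(V * N x) ≤ Lop I e b N x - (1 - β) * (∑ a, dv I (e a) N x ^ 2) / N x) :
    -(V * N x ^ β) ≤ Lop I e b (fun y => N y ^ β) x := by
  rw [Lop_rpow he hN h0]
  have a3 : 0 ≤ β * (N x ^ β / N x) := by positivity
  refine le_trans ?_ (mul_le_mul_of_nonneg_left h a3)
  have : β * (N x ^ β / N x) * -(V * N x) = -(β * (V * N x ^ β)) := by field_simp
  rw [this, neg_le_neg_iff]
  exact mul_le_of_le_one_left (by positivity) b1

theorem absorb {a W t g : ℝ} (ha : 0 < a) : W * t * g ≤ a * g ^ 2 + W ^ 2 * t ^ 2 / (4 * a) := by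
  have : a * g ^ 2 + W ^ 2 * t ^ 2 / (4 * a) - W * t * g = (2 * a * g - W * t) ^ 2 / (4 * a) := by
    field_simp; ring
  have h2 : 0 ≤ (2 * a * g - W * t) ^ 2 / (4 * a) := by positivity
  linarith

theorem le_of_rpow_le {a c β : ℝ} (ha : 0 ≤ a) (hc : 0 ≤ c) (hβ : 0 < β) (h : a ^ β ≤ c) :
    a ≤ c ^ β⁻¹ := (Real.le_rpow_inv_iff_of_pos ha hc hβ).2 h

variable (I) in
/-- hypotheses of `(B')` at a point: `h = |F|²`, `G = |DF|²`, refined Kato constant `k` -/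
structure HB (e : ι → Π x : M, TangentSpace I x) (b : ι → M → ℝ) (k C S : ℝ) (h : M → ℝ)
    (x : M) : Prop where
  sm : CM I 2 h x
  ex : ∃ G W : ℝ, 0 ≤ G ∧ W ^ 2 ≤ C * (1 + √(h x)) ∧
    2 * G - C * √(h x) * (S + √(h x) + h x) - W * √(h x) * √G ≤ Lop I e b h x ∧
    ∑ a, dv I (e a) h x ^ 2 ≤ 4 * k * h x * G + C * h x * (S + h x + h x * √(h x))

theorem HB.sub {k C S : ℝ} {h : M → ℝ} (H : HB I e b k C S h x) (he : ∀ a, VF I 1 (e a) x)
    (k0 : 0 ≤ k) (k1 : k < 1) (hC : 0 ≤ C) (h0 : 0 < h x) (hS : S ≤ h x) :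
    -(C * (3 + 1 / (4 * ((1 - k) * (2 - k)))) * (1 + √(h x)) * h x ^ ((1 + k) / 4)) ≤
      Lop I e b (fun y => h y ^ ((1 + k) / 4)) x := by
  obtain ⟨G, W, G0, hW, h1, h2⟩ := H.ex
  have a0 : 0 < (1 - k) * (2 - k) := mul_pos (by linarith) (by linarith)
  refine sub_rpow he H.sm h0 (by linarith) (by linarith) (by positivity) ?_
  set t := √(h x) with ht
  have t0 : 0 ≤ t := Real.sqrt_nonneg _
  have tt : t ^ 2 = h x := Real.sq_sqrt h0.le
  have a1 : (∑ a, dv I (e a) h x ^ 2) / h x ≤ 4 * k * G + C * (2 + t) * h x := by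
    rw [div_le_iff₀ h0]
    nlinarith [mul_le_mul_of_nonneg_left hS (mul_nonneg hC h0.le)]
  have a2 := absorb (W := W) (t := t) (g := √G) a0
  rw [Real.sq_sqrt G0, tt] at a2
  have a3 : W ^ 2 * h x / (4 * ((1 - k) * (2 - k))) ≤
      C * (1 / (4 * ((1 - k) * (2 - k)))) * (1 + t) * h x := by
    rw [show C * (1 / (4 * ((1 - k) * (2 - k)))) * (1 + t) * h x =
      C * (1 + t) * h x / (4 * ((1 - k) * (2 - k))) by ring]
    gcongr
  have a4 : C * t * (S + t + h x) ≤ C * (1 + 2 * t) * h x := by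
    have := mul_le_mul_of_nonneg_left hS (mul_nonneg hC t0)
    nlinarith
  have a5 : (1 - (1 + k) / 4) * (∑ a, dv I (e a) h x ^ 2) / h x ≤
      k * (3 - k) * G + C * (2 + t) * h x := by
    rw [mul_div_assoc]
    refine (mul_le_mul_of_nonneg_left a1 (by linarith)).trans ?_
    have : 0 ≤ C * (2 + t) * h x := by positivity
    nlinarith
  nlinarith

/-- **(B')** with explicit constants -/
theorem Ann.decay (A : Ann I e b Q K d' d η) {k p C ε : ℝ} (k0 : 0 ≤ k) (k1 : k < 1) (p0 : 0 < p)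
    (p2 : p < 2) (hC : 0 ≤ C) (hη : η ≤ (1 - k) / 4) (ε1 : ε ≤ 1)
    (hε : C * (3 + 1 / (4 * ((1 - k) * (2 - k)))) * (d + ε) < p * (1 + k) / 4 * ((1 - k) / 4))
    {h : M → ℝ} (hc : ContinuousOn h K) (h0 : ∀ x ∈ K, 0 ≤ h x)
    (hb : ∀ x ∈ K, √(h x) * Q x ≤ ε)
    (H : ∀ x ∈ interior K, Q x ^ (-p) < h x → HB I e b k C (Q x ^ (-p)) h x) :
    ∀ x ∈ K, d' ^ (((1 - k) / 4) / ((3 + k) / 4 - p * (1 + k) / 4)) ≤ Q x →
      h x ≤ (2 + d ^ ((p - 2) * (1 + k) / 4)) ^ ((1 + k) / 4)⁻¹ * Q x ^ (-p) := by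
  intro x hx hx'
  set β := (1 + k) / 4 with hβ
  set s1 := p * (1 + k) / 4 with hs1
  set s2 := (3 + k) / 4 with hs2
  set C1 := C * (3 + 1 / (4 * ((1 - k) * (2 - k)))) with hC1
  have a0 : 0 < (1 - k) * (2 - k) := mul_pos (by linarith) (by linarith)
  have C10 : 0 ≤ C1 := by positivity
  have b0 : 0 < β := by positivity
  have e1 : s1 = p * β := by rw [hs1, hβ]; ring
  have s10 : 0 < s1 := by positivity
  have s12 : s1 < s2 := by nlinarith
  have d0 : 0 < d := (A.Q0 hx).trans_le (A.hi x hx)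
  set a := 1 + d ^ ((p - 2) * (1 + k) / 4) with ha
  set t := d' ^ ((1 - k) / 4) with ht
  have a1 : 1 ≤ a := le_add_of_nonneg_right (by positivity)
  have t0 : 0 < t := Real.rpow_pos_of_pos A.pos _
  have up : ∀ y ∈ K, h y ^ β ≤ Q y ^ (-(2 * β)) := by
    intro y hy
    have q := A.Q0 hy
    have : h y ≤ Q y ^ (-2 : ℝ) := by
      have h1 : √(h y) ≤ (Q y)⁻¹ := by
        rw [← one_div, le_div_iff₀ q]; exact (hb y hy).trans ε1
      rw [Real.rpow_neg q.le, Real.rpow_two, ← inv_pow]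
      exact (Real.sqrt_le_left (by positivity)).1 h1
    refine (Real.rpow_le_rpow (h0 y hy) this b0.le).trans_eq ?_
    rw [← Real.rpow_mul q.le]; ring_nf
  have key := cmp_pos (b := b) A.cpt A.vf (f := fun y => h y ^ β)
    (ψ := fun y => a * Q y ^ (-s1) + t * Q y ^ (-s2)) (V := fun y => C1 * (1 + √(h y)))
    (hc.rpow_const fun _ _ => Or.inr b0.le)
    (fun y hy => ⟨by have := A.Q0 hy; positivity,
      (contMDiffAt_const.mul (cm_rpow (A.cQ y hy) (A.Q0 hy) _)).add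
        (contMDiffAt_const.mul (cm_rpow (A.cQ y hy) (A.Q0 hy) _))⟩)
    (fun y hy => ?_) (fun y hy hl => ?_) (fun y hy hn => ?_) x hx
  · have q := A.Q0 hx
    have h1 : t * Q x ^ (-s2) ≤ Q x ^ (-s1) := by
      have h2 := Real.rpow_le_rpow (Real.rpow_pos_of_pos A.pos _).le hx' (sub_pos.2 s12).le
      rw [← Real.rpow_mul A.pos.le, div_mul_cancel₀ _ (sub_pos.2 s12).ne'] at h2
      refine (mul_le_mul_of_nonneg_right h2 (by positivity)).trans_eq ?_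
      rw [← Real.rpow_add q]; ring_nf
    have h2 : h x ^ β ≤ (1 + a) * Q x ^ (-s1) := by linarith
    refine (le_of_rpow_le (h0 x hx) (by positivity) b0 h2).trans_eq ?_
    rw [Real.mul_rpow (by positivity) (by positivity), ← Real.rpow_mul q.le, e1, ha,
      ← add_assoc, one_add_one_eq_two]
    congr 2
    field_simp
  · have hy' := interior_subset hy
    have q := A.Q0 hy'
    have c1 := cm_rpow (A.cQ y hy') q (-s1)
    have c2 := cm_rpow (A.cQ y hy') q (-s2)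
    rw [Lop_add (A.vf y hy') (cm_cmul c1 a) (cm_cmul c2 t),
      Lop_mul _ (A.vf y hy') c1, Lop_mul _ (A.vf y hy') c2]
    have n1 := A.neg hy' (s := s1) (c := s1 * ((1 - k) / 4)) s10.le (by linarith)
      (mul_le_mul_of_nonneg_left (by linarith) s10.le)
    have n2 := A.neg hy' (s := s2) (c := s1 * ((1 - k) / 4)) (by linarith) (by linarith)
      (mul_le_mul s12.le (by linarith) (by linarith) (by linarith))
    have v1 : C1 * (1 + √(h y)) < s1 * ((1 - k) / 4) / Q y := by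
      rw [lt_div_iff₀ q]
      refine lt_of_le_of_lt ?_ hε
      rw [mul_assoc]
      refine mul_le_mul_of_nonneg_left ?_ C10
      linarith [hb y hy', A.hi y hy']
    have p1 : 0 < a * Q y ^ (-s1) + t * Q y ^ (-s2) := by positivity
    nlinarith [mul_lt_mul_of_pos_right v1 p1, mul_le_mul_of_nonneg_left n1 (zero_le_one.trans a1),
      mul_le_mul_of_nonneg_left n2 t0.le]
  · have hy' := interior_subset hy
    have q := A.Q0 hy'
    have l1 : Q y ^ (-p) < h y := by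
      by_contra! hn
      have := Real.rpow_le_rpow (h0 y hy') hn b0.le
      rw [← Real.rpow_mul q.le, neg_mul, ← e1] at this
      have p1 : 0 < Q y ^ (-s1) := by positivity
      have p2 : 0 < t * Q y ^ (-s2) := by positivity
      nlinarith
    have hp : 0 < h y := (Real.rpow_pos_of_pos q _).trans l1
    exact ⟨cm_rpow (H y hy l1).sm hp _, (H y hy l1).sub (A.vf y hy') k0 k1 hC hp l1.le⟩
  · have q := A.Q0 hy
    refine (up y hy).trans ?_
    rcases A.fr y hy hn with e | e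
    · refine le_add_of_nonneg_of_le (by positivity) (le_of_eq ?_)
      rw [e, ht, ← Real.rpow_add A.pos]
      congr 1
      rw [hs2, hβ]; ring
    · refine le_add_of_le_of_nonneg ?_ (by positivity)
      rw [e, ha, add_mul, ← Real.rpow_add d0]
      refine le_add_of_nonneg_of_le (by positivity) (le_of_eq ?_)
      congr 1
      rw [hs1, hβ]; ring

variable (I) in
/-- hypotheses of `(A)` at a point -/
structure HA (e : ι → Π x : M, TangentSpace I x) (b : ι → M → ℝ) (C : ℝ) (h : M → ℝ)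
    (x : M) : Prop where
  sm : CM I 2 h x
  ex : ∃ G W : ℝ, 0 ≤ G ∧ W ^ 2 ≤ 1 + √(h x) ∧
    2 * G - C * (1 + √(h x)) * ((1 + √(h x)) ^ 2 + W * √G) ≤ Lop I e b h x ∧
    ∑ a, dv I (e a) h x ^ 2 ≤ 4 * h x * G

theorem HA.sub {C β : ℝ} {h : M → ℝ} (H : HA I e b C h x) (he : ∀ a, VF I 1 (e a) x)
    (hC : 0 ≤ C) (h0 : 0 ≤ h x) (b0 : 1 / 2 < β) (b1 : β ≤ 1) :
    CM I 2 (fun y => (1 + h y) ^ β) x ∧
    -((2 * C + C ^ 2 / (2 * (4 * β - 2))) * (1 + √(h x)) * (1 + h x) ^ β) ≤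
      Lop I e b (fun y => (1 + h y) ^ β) x := by
  obtain ⟨G, W, G0, hW, h1, h2⟩ := H.ex
  have a0 : 0 < 4 * β - 2 := by linarith
  have c1 : CM I 2 (fun y => 1 + h y) x := contMDiffAt_const.add H.sm
  have n0 : 0 < 1 + h x := by linarith
  refine ⟨cm_rpow c1 n0 _, sub_rpow he c1 n0 (by linarith) b1 (by positivity) ?_⟩
  rw [Lop_add he contMDiffAt_const H.sm, Lop_const, zero_add]
  simp only [dv_add mdifferentiableAt_const (H.sm.md one_le_two), dv_const, zero_add]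
  set t := √(h x) with ht
  have t0 : 0 ≤ t := Real.sqrt_nonneg _
  have tt : t ^ 2 = h x := Real.sq_sqrt h0
  have a1 : (∑ a, dv I (e a) h x ^ 2) / (1 + h x) ≤ 4 * G := by
    rw [div_le_iff₀ n0]; nlinarith
  have a2 := absorb (W := C * W) (t := 1 + t) (g := √G) a0
  rw [Real.sq_sqrt G0] at a2
  have a6 : (1 + t) ^ 2 ≤ 2 * (1 + h x) := by nlinarith [sq_nonneg (1 - t)]
  have a3 : (C * W) ^ 2 * (1 + t) ^ 2 / (4 * (4 * β - 2)) ≤
      C ^ 2 / (2 * (4 * β - 2)) * (1 + t) * (1 + h x) := by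
    rw [mul_pow]
    calc _ ≤ C ^ 2 * (1 + t) * (2 * (1 + h x)) / (4 * (4 * β - 2)) := by gcongr
      _ = _ := by field_simp; ring
  have a4 := mul_le_mul_of_nonneg_left a6 (by positivity : 0 ≤ C * (1 + t))
  have a5 := mul_le_mul_of_nonneg_left a1 (by linarith : 0 ≤ 1 - β)
  rw [mul_div_assoc]
  nlinarith

/-- **(A)** with explicit constants -/
theorem Ann.bdd (A : Ann I e b Q K d' d η) {α β s C C1 : ℝ} (α0 : 0 ≤ α) (α2 : α < 2)
    (b0 : 1 / 2 < β) (b1 : β ≤ 1) (hs : α * β < s) (s1 : s < 1) (hC : 0 ≤ C) (hη : η ≤ 1 - s)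
    (d1 : d ≤ 1) (hC1 : C1 = (2 * C + C ^ 2 / (2 * (4 * β - 2))) * (1 + √C))
    (hd : C1 * d ^ (1 - α / 2) < 1 - α / 2) (hd' : C1 * d ^ (1 - α / 2) ≤ s * (1 - s))
    {h : M → ℝ} (hc : ContinuousOn h K) (h0 : ∀ x ∈ K, 0 ≤ h x)
    (hb : ∀ x ∈ K, h x ≤ C * Q x ^ (-α)) (H : ∀ x ∈ interior K, HA I e b C h x) :
    ∀ x ∈ K, d' ^ ((s - α * β) / s) ≤ Q x →
      h x ≤ (2 * (1 + C * d ^ (-α)) ^ β + (1 + C) ^ β) ^ β⁻¹ := by
  intro x hx hx'
  set σ := 1 - α / 2 with hσ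
  have σ0 : 0 < σ := by linarith
  have β0 : 0 < β := by linarith
  have s0 : 0 < s := lt_of_le_of_lt (by positivity) hs
  have a0 : 0 < 4 * β - 2 := by linarith
  have d0 : 0 < d := (A.Q0 hx).trans_le (A.hi x hx)
  have C10 : 0 ≤ C1 := by rw [hC1]; positivity
  set a := (1 + C * d ^ (-α)) ^ β with ha
  set t := (1 + C) ^ β * d' ^ (s - α * β) with ht
  have a1 : 0 < a := by positivity
  have t0 : 0 < t := mul_pos (by positivity) (Real.rpow_pos_of_pos A.pos _)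
  have dσ : 0 < d ^ σ := by positivity
  have qd : ∀ y ∈ K, (d ^ σ)⁻¹ * Q y ^ σ ≤ 1 := fun y hy => by
    rw [inv_mul_le_iff₀ dσ, mul_one]
    exact Real.rpow_le_rpow (A.Q0 hy).le (A.hi y hy) σ0.le
  have q1 : ∀ y ∈ K, ∀ r : ℝ, 0 ≤ r → 1 ≤ Q y ^ (-r) := fun y hy r hr =>
    Real.one_le_rpow_of_pos_of_le_one_of_nonpos (A.Q0 hy) ((A.hi y hy).trans d1) (by linarith)
  have key := cmp_pos (b := b) A.cpt A.vf (f := fun y => (1 + h y) ^ β)
    (ψ := fun y => a * (2 - (d ^ σ)⁻¹ * Q y ^ σ) + t * Q y ^ (-s))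
    (V := fun y => (2 * C + C ^ 2 / (2 * (4 * β - 2))) * (1 + √(h y)))
    ((continuousOn_const.add hc).rpow_const fun _ _ => Or.inr β0.le)
    (fun y hy => ⟨add_pos (mul_pos a1 (by linarith [qd y hy]))
        (mul_pos t0 (Real.rpow_pos_of_pos (A.Q0 hy) _)),
      (contMDiffAt_const.mul (contMDiffAt_const.sub (contMDiffAt_const.mul
        (cm_rpow (A.cQ y hy) (A.Q0 hy) _)))).add
        (contMDiffAt_const.mul (cm_rpow (A.cQ y hy) (A.Q0 hy) _))⟩)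
    (fun y hy => ?_)
    (fun y hy _ => (H y hy).sub (A.vf y (interior_subset hy)) hC (h0 y (interior_subset hy)) b0 b1)
    (fun y hy hn => ?_) x hx
  · have q := A.Q0 hx
    have h1 : t * Q x ^ (-s) ≤ (1 + C) ^ β := by
      have h2 := Real.rpow_le_rpow (Real.rpow_pos_of_pos A.pos _).le hx' s0.le
      rw [← Real.rpow_mul A.pos.le, div_mul_cancel₀ _ s0.ne'] at h2
      rw [ht, mul_assoc]
      refine mul_le_of_le_one_right (by positivity) ?_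
      rw [Real.rpow_neg q.le, ← div_eq_mul_inv, div_le_one (by positivity)]
      exact h2
    have h3 : 0 ≤ a * ((d ^ σ)⁻¹ * Q x ^ σ) := by positivity
    have h2 : (1 + h x) ^ β ≤ 2 * a + (1 + C) ^ β := by linarith
    have := le_of_rpow_le (by linarith [h0 x hx]) (by positivity) β0 h2
    linarith
  · have hy' := interior_subset hy
    have q := A.Q0 hy'
    have he := A.vf y hy'
    have c1 := cm_rpow (A.cQ y hy') q σ
    have c2 := cm_rpow (A.cQ y hy') q (-s)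
    have c3 : CM I 2 (fun y => (d ^ σ)⁻¹ * Q y ^ σ) y := contMDiffAt_const.mul c1
    have c4 : CM I 2 (fun y => 2 - (d ^ σ)⁻¹ * Q y ^ σ) y := contMDiffAt_const.sub c3
    rw [Lop_add he (cm_cmul c4 a) (cm_cmul c2 t), Lop_mul _ he c4,
      Lop_mul _ he c2, Lop_sub he contMDiffAt_const c3, Lop_const, Lop_mul _ he c1]
    have n1 := A.posb hy' σ0.le (by linarith) (by linarith)
    have n2 := A.neg hy' (s := s) (c := s * (1 - s)) s0.le s1.le
      (mul_le_mul_of_nonneg_left (by linarith) s0.le)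
    set P := Q y ^ σ / Q y with hP
    have P0 : 0 < P := by positivity
    have eP : P = Q y ^ (-(α / 2)) := by rw [hP, ← Real.rpow_sub_one q.ne', hσ]; ring_nf
    have v0 : (2 * C + C ^ 2 / (2 * (4 * β - 2))) * (1 + √(h y)) ≤ C1 * P := by
      rw [hC1, mul_assoc]
      refine mul_le_mul_of_nonneg_left ?_ (by positivity)
      have r1 : √(h y) ≤ √C * P := by
        rw [Real.sqrt_le_left (by positivity), mul_pow, Real.sq_sqrt hC, eP, ← Real.rpow_two,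
          ← Real.rpow_mul q.le]
        convert hb y hy' using 3
        ring
      have r2 : 1 ≤ P := eP ▸ q1 y hy' _ (by linarith)
      linarith
    have v1 : C1 < σ * (d ^ σ)⁻¹ := by rw [← div_eq_mul_inv, lt_div_iff₀ dσ]; exact hd
    have v2 : C1 * P ≤ s * (1 - s) / Q y := by
      rw [hP, ← mul_div_assoc]
      refine div_le_div_of_nonneg_right (le_trans ?_ hd') q.le
      exact mul_le_mul_of_nonneg_left (Real.rpow_le_rpow q.le (A.hi y hy') σ0.le) C10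
    have w0 : 0 ≤ (d ^ σ)⁻¹ * Q y ^ σ := by positivity
    have w1 : 0 < a * (2 - (d ^ σ)⁻¹ * Q y ^ σ) + t * Q y ^ (-s) :=
      add_pos (mul_pos a1 (by linarith [qd y hy'])) (by positivity)
    have u1 := mul_le_mul_of_nonneg_right v0 w1.le
    have u2 := mul_le_mul_of_nonneg_left n2 t0.le
    have u3 := mul_le_mul_of_nonneg_right v2 (by positivity : 0 ≤ t * Q y ^ (-s))
    have u4 := mul_le_mul_of_nonneg_left n1 (by positivity : 0 ≤ a * (d ^ σ)⁻¹)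
    have u5 := mul_lt_mul_of_pos_right v1 (by positivity : 0 < 2 * a * P)
    have u6 : 0 ≤ C1 * P * a * ((d ^ σ)⁻¹ * Q y ^ σ) := by positivity
    nlinarith
  · have q := A.Q0 hy
    have n0 : 0 ≤ 1 + h y := by linarith [h0 y hy]
    rcases A.fr y hy hn with e | e
    · refine le_add_of_nonneg_of_le (mul_nonneg a1.le (by linarith [qd y hy])) ?_
      have r1 : 1 + h y ≤ (1 + C) * Q y ^ (-α) := by linarith [hb y hy, q1 y hy α α0]
      refine (Real.rpow_le_rpow n0 r1 β0.le).trans_eq ?_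
      rw [Real.mul_rpow (by positivity) (by positivity), ← Real.rpow_mul q.le, e, ht, mul_assoc,
        ← Real.rpow_add A.pos]
      congr 2
      ring
    · refine le_add_of_le_of_nonneg ?_ (by positivity)
      have r1 : 1 + h y ≤ 1 + C * d ^ (-α) := by have := hb y hy; rw [e] at this; linarith
      refine (Real.rpow_le_rpow n0 r1 β0.le).trans ?_
      exact le_mul_of_one_le_right a1.le (by linarith [qd y hy])

end

theorem small_pow {C σ c : ℝ} (hσ : 0 < σ) (hc : 0 < c) :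
    ∃ d0 > 0, ∀ d ∈ Ioc (0 : ℝ) d0, C * d ^ σ < c := by
  have h1 : ContinuousAt (fun d : ℝ => C * d ^ σ) 0 :=
    continuousAt_const.mul (Real.continuousAt_rpow_const 0 σ (Or.inr hσ.le))
  have h2 := h1.eventually (gt_mem_nhds (a := c) (by simpa [Real.zero_rpow hσ.ne'] using hc))
  obtain ⟨r, hr, hb⟩ := Metric.eventually_nhds_iff.1 h2
  refine ⟨r / 2, by positivity, fun d hd => hb ?_⟩
  rw [Real.dist_eq, sub_zero, abs_of_pos hd.1]
  linarith [hd.2]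

/-- **(B')**: `|F| ≤ ε r⁻²` on the annulus improves to `|F|² ≤ K' Q^(-p)` where `Q ≥ d'^γ` -/
theorem annB {k p C : ℝ} (k0 : 0 ≤ k) (k1 : k < 1) (p0 : 0 < p) (p2 : p < 2) (hC : 0 ≤ C) :
    ∃ ε > (0 : ℝ), ∃ γ > (0 : ℝ), ∀ d ∈ Ioc (0 : ℝ) ε, ∃ K' : ℝ, ∀ {E : Type u} {H : Type v}
      {M : Type w} [NormedAddCommGroup E] [NormedSpace ℝ E] [CompleteSpace E] [TopologicalSpace H]
      {I : ModelWithCorners ℝ E H} [TopologicalSpace M] [ChartedSpace H M] [IsManifold I ∞ M]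
      [BoundarylessManifold I M] {ι : Type z} [Fintype ι] {e : ι → Π x : M, TangentSpace I x}
      {b : ι → M → ℝ} {Q : M → ℝ} {K : Set M} {d' : ℝ} {h : M → ℝ}, Ann I e b Q K d' d ε →
      ContinuousOn h K → (∀ x ∈ K, 0 ≤ h x) → (∀ x ∈ K, √(h x) * Q x ≤ ε) →
      (∀ x ∈ interior K, Q x ^ (-p) < h x → HB I e b k C (Q x ^ (-p)) h x) →
      ∀ x ∈ K, d' ^ γ ≤ Q x → h x ≤ K' * Q x ^ (-p) := by
  obtain ⟨d0, h0, hd⟩ := small_pow (C := 2 * (C * (3 + 1 / (4 * ((1 - k) * (2 - k)))))) one_pos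
    (c := p * (1 + k) / 4 * ((1 - k) / 4)) (mul_pos (by positivity) (by linarith))
  have a0 : 0 < (1 - k) * (2 - k) := mul_pos (by linarith) (by linarith)
  have m0 : 0 < min d0 ((1 - k) / 4) := lt_min h0 (by linarith)
  refine ⟨min d0 ((1 - k) / 4), m0, _, div_pos (by linarith : 0 < (1 - k) / 4)
    (by nlinarith : 0 < (3 + k) / 4 - p * (1 + k) / 4), fun d hd' =>
    ⟨(2 + d ^ ((p - 2) * (1 + k) / 4)) ^ ((1 + k) / 4)⁻¹, fun A => ?_⟩⟩
  · refine A.decay k0 k1 p0 p2 hC (min_le_right _ _) ((min_le_right _ _).trans (by linarith)) ?_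
    refine lt_of_le_of_lt ?_ (hd _ ⟨m0, min_le_left _ _⟩)
    rw [Real.rpow_one]
    have : 0 ≤ C * (3 + 1 / (4 * ((1 - k) * (2 - k)))) := by positivity
    nlinarith [hd'.2]

/-- **(A)**: `h ≤ C Q^(-α)`, `α < 2`, on the annulus improves to `h ≤ K'` where `Q ≥ d'^γ` -/
theorem annA {α C : ℝ} (α0 : 0 ≤ α) (α2 : α < 2) (hC : 0 ≤ C) :
    ∃ ε > (0 : ℝ), ∃ γ > (0 : ℝ), ∀ d ∈ Ioc (0 : ℝ) ε, ∃ K' : ℝ, ∀ {E : Type u} {H : Type v}
      {M : Type w} [NormedAddCommGroup E] [NormedSpace ℝ E] [CompleteSpace E] [TopologicalSpace H]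
      {I : ModelWithCorners ℝ E H} [TopologicalSpace M] [ChartedSpace H M] [IsManifold I ∞ M]
      [BoundarylessManifold I M] {ι : Type z} [Fintype ι] {e : ι → Π x : M, TangentSpace I x}
      {b : ι → M → ℝ} {Q : M → ℝ} {K : Set M} {d' : ℝ} {h : M → ℝ}, Ann I e b Q K d' d ε →
      ContinuousOn h K → (∀ x ∈ K, 0 ≤ h x) → (∀ x ∈ K, h x ≤ C * Q x ^ (-α)) →
      (∀ x ∈ interior K, HA I e b C h x) → ∀ x ∈ K, d' ^ γ ≤ Q x → h x ≤ K' := by
  obtain ⟨β, b0, b1, b2⟩ : ∃ β : ℝ, 1 / 2 < β ∧ β ≤ 1 ∧ α * β < 1 :=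
    ⟨1 / 2 + (2 - α) / 8, by linarith, by linarith, by nlinarith⟩
  set s := (α * β + 1) / 2 with hs
  have s0 : 0 < s := by positivity
  have s1 : s < 1 := by linarith
  obtain ⟨d0, h0, hd⟩ := small_pow (C := (2 * C + C ^ 2 / (2 * (4 * β - 2))) * (1 + √C))
    (σ := 1 - α / 2) (by linarith) (c := min (1 - α / 2) (s * (1 - s)))
    (lt_min (by linarith) (mul_pos s0 (by linarith)))
  refine ⟨min d0 (1 - s), lt_min h0 (by linarith), (s - α * β) / s, div_pos (by linarith) s0,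
    fun d hd' => ⟨(2 * (1 + C * d ^ (-α)) ^ β + (1 + C) ^ β) ^ β⁻¹, fun A => ?_⟩⟩
  · have := hd d ⟨hd'.1, hd'.2.trans (min_le_left _ _)⟩
    exact A.bdd α0 α2 b0 b1 (by linarith) s1 hC (min_le_right _ _)
      (hd'.2.trans ((min_le_right _ _).trans (by linarith))) rfl
      (this.trans_le (min_le_left _ _)) (this.le.trans (min_le_right _ _))

end Crest.Agent.X212.Eps63

end
end

-- ▼ part X212/Eps63/Pf
section

/-!
# Row 212, AN (helper63): uniform charts (LIP, volume), the iterated filter, annuli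
-/

set_option autoImplicit false
set_option linter.unusedSectionVars false
open Set Filter Topology Function MeasureTheory Metric
open scoped ContDiff Manifold InnerProductSpace NNReal ENNReal

noncomputable section
namespace Crest.Agent.X212.Eps63

open Cmp73
open An (Sm)
open Sob92 (dv)
open Mp86 (Lop)

variable {E : Type} [NormedAddCommGroup E] [NormedSpace ℝ E] {HM : Type} [TopologicalSpace HM]
  {I : ModelWithCorners ℝ E HM} {ι : Type} [Fintype ι]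
  {E' : Type} [NormedAddCommGroup E'] [NormedSpace ℝ E']

section one
variable {N : Type} [TopologicalSpace N] [ChartedSpace HM N] [IsManifold I ∞ N]
  [MeasurableSpace N] {e : ι → (x : N) → TangentSpace I x} {μ : Measure N}
  {κ : OpenPartialHomeomorph N E'} {T : Set E'} {K : ℝ}

/-- **LIP** -/
theorem ch_lip (h : Ch I e μ κ T K) (K0 : 0 ≤ K) (hT : Convex ℝ T) {f : N → ℝ} (hf : Sm I f)
    {A : ℝ} (A0 : 0 ≤ A) (hA : ∀ z ∈ T, ∀ a, |dv I (e a) f (κ.symm z)| ≤ A) {y y' : E'}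
    (hy : y ∈ T) (hy' : y' ∈ T) :
    |f (κ.symm y') - f (κ.symm y)| ≤ Fintype.card ι * K * A * ‖y' - y‖ := by
  have d : ∀ z ∈ T, DifferentiableAt ℝ (fun z => f (κ.symm z)) z := fun z hz =>
    mdifferentiableAt_iff_differentiableAt.1 (((hf _).comp z
      (h.sm'.contMDiffAt (κ.open_target.mem_nhds (h.tgt hz)))).mdifferentiableAt (by simp))
  refine hT.norm_image_sub_le_of_norm_fderiv_le (f := fun z => f (κ.symm z)) d
    (fun z hz => ContinuousLinearMap.opNorm_le_bound _ (by positivity) fun v => ?_) hy hy'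
  obtain ⟨θ, h1, h2⟩ := h.sp z hz v
  have hs := κ.map_target (h.tgt hz)
  have key : ∀ a, fderiv ℝ (fun z => f (κ.symm z)) z (dv I (e a) κ (κ.symm z)) =
      dv I (e a) f (κ.symm z) := fun a => by
    have e1 := Mp86.dv_comp (I := I) (v := e a) (x := κ.symm z) (u := κ)
      (g := fun z => f (κ.symm z)) (g' := fderiv ℝ (fun z => f (κ.symm z)) z)
      (by rw [κ.right_inv (h.tgt hz)]; exact (d z hz).hasFDerivAt)
      ((h.sm.contMDiffAt (κ.open_source.mem_nhds hs)).mdifferentiableAt (by simp))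
    rw [← e1]
    refine Mp86.dv_congr ?_
    filter_upwards [κ.open_source.mem_nhds hs] with x hx
    rw [κ.left_inv hx]
  rw [← h1, map_sum]
  refine (norm_sum_le _ _).trans ((Finset.sum_le_card_nsmul _ _ (K * ‖v‖ * A)
    fun a _ => ?_).trans_eq ?_)
  · rw [map_smul, key, norm_smul]
    exact mul_le_mul (h2 a) (hA z hz a) (norm_nonneg _) (by positivity)
  · rw [h1, Finset.card_univ, nsmul_eq_mul]; ring

theorem ch_low [OpensMeasurableSpace N] {z : E'} {ρ σ : ℝ} (h : Ch I e μ κ (closedBall z ρ) K)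
    (s0 : 0 < σ) (s1 : σ ≤ ρ) {g : N → ℝ≥0∞} {c : ℝ≥0∞} {S : Set N}
    (hS : κ.symm '' closedBall z ρ ⊆ S) (hc : ∀ y ∈ ball z σ, c ≤ g (κ.symm y)) :
    c * ENNReal.ofReal (σ ^ 4 / K) ≤ ∫⁻ x in S, g x ∂μ := by
  have sub : ball z σ ⊆ closedBall z ρ := ball_subset_closedBall.trans (closedBall_subset_closedBall s1)
  have o : IsOpen (κ.symm '' ball z σ) :=
    κ.symm.isOpen_image_of_subset_source isOpen_ball (sub.trans h.tgt)
  calc _ ≤ c * μ (κ.symm '' ball z σ) := mul_le_mul_right (h.vol z σ s0 sub) c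
    _ = ∫⁻ _ in κ.symm '' ball z σ, c ∂μ := (setLIntegral_const _ _).symm
    _ ≤ ∫⁻ x in κ.symm '' ball z σ, g x ∂μ := setLIntegral_mono' o.measurableSet (by
        rintro _ ⟨y, hy, rfl⟩; exact hc y hy)
    _ ≤ _ := lintegral_mono_set ((image_mono sub).trans hS)

end one

variable {α : Type} {l : Filter α} {z₀ : E'}

theorem ev_pF {P : α × E' → Prop} : (∀ᶠ p in pF l z₀, P p) ↔ ∃ δ > 0, ∀ δ' > 0, ∀ᶠ n in l,
    ∀ z, δ' ≤ ‖z - z₀‖ → ‖z - z₀‖ ≤ δ → P (n, z) := Iff.rfl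

theorem pF_small {δ : ℝ} (h : 0 < δ) : ∀ᶠ p in pF l z₀, 0 < ‖p.2 - z₀‖ ∧ ‖p.2 - z₀‖ ≤ δ :=
  ev_pF.2 ⟨δ, h, fun _ h' => .of_forall fun _ _ a b => ⟨h'.trans_le a, b⟩⟩

theorem ball_cmp {z y : E'} (hy : y ∈ closedBall z (‖z - z₀‖ / 2)) :
    ‖z - z₀‖ / 2 ≤ ‖y - z₀‖ ∧ ‖y - z₀‖ ≤ 2 * ‖z - z₀‖ := by
  have a := mem_closedBall_iff_norm.1 hy
  have b := norm_sub_le_norm_sub_add_norm_sub y z z₀
  have c := norm_sub_le_norm_sub_add_norm_sub z y z₀
  rw [norm_sub_rev z y] at c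
  constructor <;> linarith [norm_nonneg (z - z₀)]

theorem pF_ball {P : α × E' → Prop} (h : ∀ᶠ p in pF l z₀, P p) :
    ∀ᶠ p in pF l z₀, ∀ y ∈ closedBall p.2 (‖p.2 - z₀‖ / 2), P (p.1, y) := by
  obtain ⟨δ, h0, h⟩ := ev_pF.1 h
  refine ev_pF.2 ⟨δ / 2, by positivity, fun δ' h' => (h (δ' / 2) (by positivity)).mono
    fun n hn z a b y hy => hn y ?_ ?_⟩ <;> linarith [ball_cmp hy]

/-- the inverse radius -/
def tau (z₀ z : E') : ℝ := (‖z - z₀‖ / 2)⁻¹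

theorem tau_nonneg (z : E') : 0 ≤ tau z₀ z := by unfold tau; positivity

theorem tau_ball {z y : E'} (h0 : 0 < ‖z - z₀‖) (hy : y ∈ closedBall z (‖z - z₀‖ / 2)) :
    tau z₀ y ≤ 2 * tau z₀ z := by
  have := (ball_cmp hy).1
  unfold tau
  rw [show 2 * (‖z - z₀‖ / 2)⁻¹ = (‖z - z₀‖ / 4)⁻¹ by field_simp; norm_num]
  exact inv_anti₀ (by positivity) (by linarith)

theorem mu_sq (z : E') : (√(‖z - z₀‖ / 2))⁻¹ ^ 2 = tau z₀ z := by
  rw [inv_pow, Real.sq_sqrt (by positivity), tau]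

theorem mu_pow (z : E') (k : ℕ) : (√(‖z - z₀‖ / 2))⁻¹ ^ (2 * k) = tau z₀ z ^ k := by
  rw [pow_mul, mu_sq]

variable {X : α → Type} [∀ n, TopologicalSpace (X n)] [∀ n, ChartedSpace HM (X n)]
  [∀ n, IsManifold I ∞ (X n)] [∀ n, MeasurableSpace (X n)]
  {b : Fb I ι X} {L : Sy ι X} {κ : ∀ n, OpenPartialHomeomorph (X n) E'}

theorem ev_F (P : Pun b L κ l z₀) {Φ : (Σ n, X n) → Prop} :
    (∀ᶠ q in b.F, Φ q) ↔ ∀ᶠ p in pF l z₀, Φ ⟨p.1, (κ p.1).symm p.2⟩ := by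
  rw [P.F]; rfl

theorem ev_B {Φ : α × E' × ℝ → Prop} :
    (∀ᶠ p in gB l z₀, Φ p) ↔ ∀ᶠ p in pF l z₀, Φ (p.1, p.2, ‖p.2 - z₀‖ / 2) := Iff.rfl

/-- a gradient bound gives lower bounds of integrals over balls -/
theorem pun_low [∀ n, OpensMeasurableSpace (X n)] (P : Pun b L κ l z₀) {f : ∀ n, X n → ℝ}
    (hf : ∀ n, Sm I (f n)) {A : ℝ} (A0 : 0 ≤ A) (hA : ∀ᶠ p in pF l z₀, ∀ a,
      |dv I (b.e p.1 a) (f p.1) ((κ p.1).symm p.2)| ≤ A * tau z₀ p.2 ^ 5) (B0 : ℝ) :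
    ∃ B K : ℝ, 0 < B ∧ B0 ≤ B ∧ 0 < K ∧ ∀ᶠ p in pF l z₀, ∀ σ, 0 < σ → σ ≤ ‖p.2 - z₀‖ / 2 →
      ∀ (g : X p.1 → ℝ≥0∞) (c : ℝ≥0∞) (S : Set (X p.1)),
        (κ p.1).symm '' closedBall p.2 (‖p.2 - z₀‖ / 2) ⊆ S →
        (∀ y ∈ closedBall p.2 (‖p.2 - z₀‖ / 2), f p.1 ((κ p.1).symm p.2) - B * tau z₀ p.2 ^ 5 * σ ≤
          f p.1 ((κ p.1).symm y) → c ≤ g ((κ p.1).symm y)) →
        c * ENNReal.ofReal (σ ^ 4 / K) ≤ ∫⁻ x in S, g x ∂b.μ p.1 := by
  obtain ⟨K, K0, hK⟩ := P.bl.ch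
  refine ⟨Fintype.card ι * K * (32 * A) + |B0| + 1, K, by positivity,
    by have : 0 ≤ Fintype.card ι * K * (32 * A) := by positivity
       linarith [le_abs_self B0], K0, ?_⟩
  filter_upwards [ev_B.1 hK, pF_ball hA, pF_small one_pos] with p h1 h2 h3 σ s0 s1 g c S hS hc
  refine ch_low h1.2.2 s0 s1 hS fun y hy =>
    hc _ (ball_subset_closedBall.trans (closedBall_subset_closedBall s1) hy) ?_
  have t0 := tau_nonneg (z₀ := z₀) p.2
  have := ch_lip h1.2.2 K0.le (convex_closedBall _ _) (hf p.1) (A := 32 * A * tau z₀ p.2 ^ 5)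
    (by positivity) (fun z hz a => (h2 z hz a).trans (by
      have := pow_le_pow_left₀ (tau_nonneg z) (tau_ball h3.1 hz) 5
      nlinarith)) (mem_closedBall_self h1.1.le)
    (ball_subset_closedBall.trans (closedBall_subset_closedBall s1) hy)
  have a1 := (abs_le.1 this).1
  have a2 := (mem_ball_iff_norm.1 hy).le
  have a3 : Fintype.card ι * K * (32 * A * tau z₀ p.2 ^ 5) * ‖y - p.2‖ ≤
      (Fintype.card ι * K * (32 * A) + |B0| + 1) * tau z₀ p.2 ^ 5 * σ := by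
    calc _ = Fintype.card ι * K * (32 * A) * tau z₀ p.2 ^ 5 * ‖y - p.2‖ := by ring
      _ ≤ _ := by gcongr; linarith [abs_nonneg B0]
  linarith

/-- annuli in the charts -/
theorem pun_ann [CompleteSpace E] [∀ n, BoundarylessManifold I (X n)] [FiniteDimensional ℝ E']
    (P : Pun b L κ l z₀) : ∃ (Q : E' → ℝ) (K : ℝ), 0 < K ∧
      (∀ z, ‖z - z₀‖ ^ 2 ≤ K * Q z ∧ Q z ≤ K * ‖z - z₀‖ ^ 2) ∧
      ∀ ε > (0 : ℝ), ∀ γ > (0 : ℝ), ∀ Hy : α × E' → Prop, (∀ᶠ p in pF l z₀, Hy p) →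
        ∃ d ∈ Ioc (0 : ℝ) ε, ∀ᶠ p in pF l z₀, ∃ (S : Set (X p.1)) (d' : ℝ),
          Ann I (b.e p.1) 0 (fun x => Q (κ p.1 x)) S d' d ε ∧ (κ p.1).symm p.2 ∈ S ∧
          κ p.1 ((κ p.1).symm p.2) = p.2 ∧ d' ^ γ ≤ Q p.2 ∧
          ∀ x ∈ S, ∃ z, Hy (p.1, z) ∧ (κ p.1).symm z = x ∧ κ p.1 x = z := by
  obtain ⟨Q, K, sQ, hQ, hη⟩ := P.Q
  obtain ⟨K', -, hK⟩ := P.bl.ch
  have tg : ∀ᶠ p in pF l z₀, p.2 ∈ (κ p.1).target ∧
      ContMDiffOn I 𝓘(ℝ, E') ∞ (κ p.1) (κ p.1).source :=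
    (ev_B.1 hK).mono fun p hp => ⟨hp.2.2.tgt (mem_closedBall_self hp.1.le), hp.2.2.sm⟩
  by_cases K0 : K ≤ 0
  · have bot : ∀ᶠ p in pF l z₀, False := by
      filter_upwards [(ev_F P).1 (hη 1 one_pos), tg, pF_small one_pos] with p h1 h2 h3
      have a := (abs_nonneg _).trans h1.1
      rw [(κ p.1).right_inv h2.1] at a
      nlinarith [(hQ p.2).1, pow_pos h3.1 2]
    exact ⟨fun z => ‖z - z₀‖ ^ 2, 1, one_pos, fun z => by simp, fun ε h _ _ _ _ =>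
      ⟨ε, ⟨h, le_rfl⟩, bot.mono fun _ h => h.elim⟩⟩
  push Not at K0
  refine ⟨Q, K, K0, hQ, fun ε ε0 γ γ0 Hy hH => ?_⟩
  obtain ⟨δ, δ0, hδ⟩ := ev_pF.1 (hH.and (tg.and ((ev_F P).1 (hη ε ε0))))
  set d := min ε (δ ^ 2 / K) with hd
  have d0 : 0 < d := lt_min ε0 (by positivity)
  refine ⟨d, ⟨d0, min_le_left _ _⟩, ev_pF.2 ⟨√(d / K), by positivity, fun δ' δ'0 => ?_⟩⟩
  obtain ⟨d1, d10, hd1⟩ := small_pow (C := 1) γ0 (c := δ' ^ 2 / K) (by positivity)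
  set d' := min d1 (δ' ^ 2 / K) with hd'
  have d'0 : 0 < d' := lt_min d10 (by positivity)
  filter_upwards [hδ √(d' / K) (by positivity)] with n hn z z1 z2
  let T : Set E' := {z | d' ≤ Q z ∧ Q z ≤ d}
  have up : ∀ y ∈ T, ‖y - z₀‖ ≤ δ := fun y hy => by
    refine abs_le_of_sq_le_sq' ((hQ y).1.trans ?_) δ0.le |>.2
    rw [mul_comm, ← le_div_iff₀ K0]
    exact hy.2.trans (min_le_right _ _)
  have hT := fun y (hy : y ∈ T) => hn y (Real.sqrt_le_iff.2 ⟨norm_nonneg _, by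
    rw [div_le_iff₀ K0, mul_comm]; exact hy.1.trans (hQ y).2⟩) (up y hy)
  have cT : IsCompact T := by
    have := FiniteDimensional.proper_real E'
    exact (isCompact_closedBall z₀ δ).of_isClosed_subset
      ((isClosed_le continuous_const sQ.continuous).inter
        (isClosed_le sQ.continuous continuous_const)) fun y hy => mem_closedBall_iff_norm.2 (up y hy)
  have q0 : δ' ^ 2 / K ≤ Q z := by
    rw [div_le_iff₀ K0, mul_comm]
    exact (pow_le_pow_left₀ δ'0.le z1 2).trans (hQ z).1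
  have zT : z ∈ T := ⟨(min_le_right _ _).trans q0, (hQ z).2.trans (by
    rw [mul_comm, ← le_div_iff₀ K0]
    exact (Real.le_sqrt (norm_nonneg _) (by positivity)).1 z2)⟩
  have ri : ∀ y ∈ T, κ n ((κ n).symm y) = y := fun y hy => (κ n).right_inv (hT y hy).2.1.1
  refine ⟨(κ n).symm '' T, d', ⟨cT.image_of_continuousOn ((κ n).continuousOn_symm.mono
    fun y hy => (hT y hy).2.1.1), d'0, fun x _ a => ((b.frm n).se a x).of_le (by simp), ?_, ?_, ?_,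
    ?_, ?_, ?_⟩, mem_image_of_mem _ zT, ri z zT, ?_, ?_⟩
  · rintro _ ⟨y, hy, rfl⟩
    exact (sQ.contMDiff.contMDiffAt.comp _ ((hT y hy).2.1.2.contMDiffAt
      ((κ n).open_source.mem_nhds ((κ n).map_target (hT y hy).2.1.1)))).of_le Mp86.two_le
  · rintro _ ⟨y, hy, rfl⟩
    simpa only [ri y hy] using hy.1
  · rintro _ ⟨y, hy, rfl⟩
    simpa only [ri y hy] using hy.2
  · rintro _ ⟨y, hy, rfl⟩ hi
    by_contra! hc
    simp only [ri y hy] at hc
    refine hi (mem_interior.2 ⟨(κ n).source ∩ κ n ⁻¹' {z | d' < Q z ∧ Q z < d}, fun x hx =>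
      ⟨κ n x, ⟨hx.2.1.le, hx.2.2.le⟩, (κ n).left_inv hx.1⟩, (κ n).isOpen_inter_preimage
        ((isOpen_lt continuous_const sQ.continuous).inter
          (isOpen_lt sQ.continuous continuous_const)), (κ n).map_target (hT y hy).2.1.1, ?_⟩)
    rw [mem_preimage, ri y hy]
    exact ⟨lt_of_le_of_ne hy.1 hc.1.symm, lt_of_le_of_ne hy.2 hc.2⟩
  · rintro _ ⟨y, hy, rfl⟩
    exact (hT y hy).2.2.1
  · rintro _ ⟨y, hy, rfl⟩
    exact (hT y hy).2.2.2
  · have := hd1 d' ⟨d'0, min_le_left _ _⟩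
    linarith
  · rintro _ ⟨y, hy, rfl⟩
    exact ⟨y, (hT y hy).1, rfl, ri y hy⟩

end Crest.Agent.X212.Eps63
end
end

-- ▼ part X212/Th31/E3
section

/-!
# X212 / COMP (helper31): the homogeneous inequality (E3) for the weights three and four
-/

set_option autoImplicit false
set_option linter.unusedSectionVars false
open Set Filter Topology Function MeasureTheory Metric
open scoped ContDiff Manifold InnerProductSpace NNReal

noncomputable section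
namespace Crest.Agent.X212.Th31

open Cmp73
open An (Sm)
open Wz78 (nab)
open Sob92 (dv)
open Mp86 (Lop CM VF)
open Eps63 (HA cm_rpow Lop_rpow)

theorem e3_beta {t μ X Gb D g : ℝ} (m0 : 0 < μ) (tm : t ≤ μ ^ 2) (X0 : 0 ≤ X) (Gb0 : 0 ≤ Gb) (D0 : 0 ≤ D)
    (g0 : 0 ≤ g) (e : (μ ^ 6 * g) ^ 2 = 2 / 9 * D + μ ^ 2 * (X / 2 + 4 / 3 * Gb)) :
    √(2 + (μ ^ 4)⁻¹ * (((μ ^ 4) ^ 2)⁻¹ * (t * X) + ((μ ^ 3) ^ 2)⁻¹ * Gb)) ≤ 2 + 2 * g := by
  refine Real.sqrt_le_iff.2 ⟨by positivity, ?_⟩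
  have e2 : (μ ^ 4)⁻¹ * (((μ ^ 4) ^ 2)⁻¹ * (t * X) + ((μ ^ 3) ^ 2)⁻¹ * Gb) =
      (t * X + μ ^ 2 * Gb) / μ ^ 12 := by field_simp
  have e3 : (t * X + μ ^ 2 * Gb) / μ ^ 12 ≤ 2 * g ^ 2 := by
    rw [div_le_iff₀ (by positivity)]
    linarith [mul_le_mul_of_nonneg_right tm X0, mul_nonneg (sq_nonneg μ) Gb0]
  rw [e2]; linarith [sq_nonneg g]

theorem e3_arith {t μ b Ga Gb La Lb Da Dm K β : ℝ} (t1 : 1 ≤ t) (m1 : 1 ≤ μ) (b0 : 0 ≤ b)
    (e : t ^ 3 + b = μ ^ 6) (Ga0 : 0 ≤ Ga) (Gb0 : 0 ≤ Gb) (K0 : 0 ≤ K) (Dm0 : 0 ≤ Dm)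
    (hDa : Da ≤ 4 * t ^ 4 * Ga) (hDm : Dm ≤ 4 * μ ^ 6 * (9 / 16 * (Ga / t) + Gb))
    (hβ : β ≤ 1 + √(2 + (μ ^ 4)⁻¹ * (((μ ^ 4) ^ 2)⁻¹ * Ga + ((μ ^ 3) ^ 2)⁻¹ * Gb)))
    (β0 : 0 ≤ β) (ha : 2 * Ga - K * μ ^ 8 * β * t ^ 2 ≤ La) (hb : 2 * Gb - K * μ ^ 7 * β * √b ≤ Lb) :
    ∃ G, 0 ≤ G ∧ 2 * G - 7 * K * (1 + μ ^ 4) * ((1 + μ ^ 4) ^ 2 + μ ^ 2 * √G) ≤
      4 / 3 * μ ^ 2 * (3 / 4 * t⁻¹ * (La - 1 / 4 * Da / t ^ 4) + Lb + 1 / 3 * Dm / μ ^ 6) ∧
      (4 / 3 * μ ^ 2) ^ 2 * Dm ≤ 4 * μ ^ 8 * G := by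
  have t0 : 0 < t := by linarith
  have m0 : 0 < μ := by linarith
  obtain ⟨X, X0, rfl⟩ : ∃ X, 0 ≤ X ∧ Ga = t * X := ⟨Ga / t, by positivity, by field_simp⟩
  obtain ⟨D, D0, rfl⟩ : ∃ D, 0 ≤ D ∧ Dm = μ ^ 4 * D := ⟨Dm / μ ^ 4, by positivity, by field_simp⟩
  rw [mul_div_cancel_left₀ _ t0.ne'] at hDm
  have tm : t ≤ μ ^ 2 := le_of_pow_le_pow_left₀ (n := 3) (by norm_num) (by positivity) (by linarith)
  have bm : √b ≤ μ ^ 3 := Real.sqrt_le_iff.2 ⟨by positivity, by linarith [pow_pos t0 3]⟩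
  obtain ⟨G, hG⟩ : ∃ G, G = 2 / 9 * D + μ ^ 2 * (X / 2 + 4 / 3 * Gb) := ⟨_, rfl⟩
  have G0 : 0 ≤ G := by rw [hG]; positivity
  obtain ⟨g, g0, eg⟩ : ∃ g, 0 ≤ g ∧ √G = μ ^ 6 * g := ⟨√G / μ ^ 6, by positivity, by field_simp⟩
  have b3 : β ≤ 3 + 2 * g := by
    linarith [e3_beta m0 tm X0 Gb0 D0 g0 (by rw [← eg, Real.sq_sqrt G0, hG])]
  clear hβ
  refine ⟨G, G0, ?_, ?_⟩
  · have a1 : X - K * μ ^ 10 * β ≤ t⁻¹ * (La - 1 / 4 * Da / t ^ 4) := by
      have c1 : 1 / 4 * Da / t ^ 4 ≤ t * X := by rw [div_le_iff₀ (by positivity)]; linarith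
      rw [le_inv_mul_iff₀ t0]
      linarith [mul_le_mul_of_nonneg_left tm (show 0 ≤ K * μ ^ 8 * β * t by positivity)]
    have a2 : 2 * Gb - K * μ ^ 10 * β ≤ Lb := by
      linarith [mul_le_mul_of_nonneg_left bm (show 0 ≤ K * μ ^ 7 * β by positivity)]
    have a3 : 4 / 3 * μ ^ 2 * (1 / 3 * (μ ^ 4 * D) / μ ^ 6) = 4 / 9 * D := by field_simp; ring
    have c1 : μ ^ 12 + μ ^ 12 * g ≤ (1 + μ ^ 4) * ((1 + μ ^ 4) ^ 2 + μ ^ 2 * √G) := by
      rw [eg]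
      calc _ = μ ^ 4 * ((μ ^ 4) ^ 2 + μ ^ 2 * (μ ^ 6 * g)) := by ring
        _ ≤ _ := by gcongr <;> linarith
    have c2 := mul_le_mul_of_nonneg_left b3 (show 0 ≤ K * μ ^ 12 by positivity)
    have c3 := mul_le_mul_of_nonneg_left c1 K0
    have c4 : 0 ≤ K * μ ^ 12 * g := by positivity
    have a5 := mul_le_mul_of_nonneg_left a1 (sq_nonneg μ)
    have a6 := mul_le_mul_of_nonneg_left a2 (sq_nonneg μ)
    rw [mul_add (4 / 3 * μ ^ 2), a3]
    generalize √G = r at *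
    linarith
  · rw [hG]
    linarith [mul_le_mul_of_nonneg_left hDm (pow_nonneg m0.le 4), mul_nonneg (pow_nonneg m0.le 10) Gb0]

variable {E : Type} [NormedAddCommGroup E] [NormedSpace ℝ E] {HM : Type} [TopologicalSpace HM]
  {I : ModelWithCorners ℝ E HM} {ι : Type} [Fintype ι]

section one
variable {N : Type} [TopologicalSpace N] [ChartedSpace HM N] [IsManifold I ∞ N]
  {e : ι → (x : N) → TangentSpace I x} {x : N}

theorem dv_rpow {f : N → ℝ} (v : (x : N) → TangentSpace I x) (hf : CM I 2 f x) (h0 : 0 < f x) (s : ℝ) :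
    dv I v (fun y => f y ^ s) x = s * (f x ^ s / f x) * dv I v f x := by
  rw [Mp86.dv_comp (Real.hasDerivAt_rpow_const (p := s) (Or.inl h0.ne')).hasFDerivAt
    (hf.md one_le_two), Real.rpow_sub_one h0.ne']
  simp [mul_comm]

theorem rp_pow {a : ℝ} (h : 0 ≤ a) (s : ℝ) (k : ℕ) : (a ^ s) ^ k = a ^ (s * k) :=
  (Real.rpow_mul_natCast h s k).symm

theorem ha_pt [CompleteSpace E] [BoundarylessManifold I N] (he : SmV I e) {a b : N → ℝ} (sa : CM I 2 a x)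
    (sb : CM I 2 b x) (a1 : 1 ≤ a x) (b0 : 0 ≤ b x) {Ga Gb K : ℝ} (Ga0 : 0 ≤ Ga) (Gb0 : 0 ≤ Gb)
    (K0 : 0 ≤ K) (ga : ∀ θ : ι → ℝ, ∑ i, θ i * dv I (e i) a x ≤ (∑ i, θ i ^ 2) * a x + Ga)
    (gb : ∀ θ : ι → ℝ, ∑ i, θ i * dv I (e i) b x ≤ (∑ i, θ i ^ 2) * b x + Gb)
    (h : ∀ μ : ℝ, 1 ≤ μ → a x ≤ μ ^ 8 → b x ≤ μ ^ 6 → ∃ β, 0 ≤ β ∧
      β ≤ 1 + √(2 + (μ ^ 4)⁻¹ * (((μ ^ 4) ^ 2)⁻¹ * Ga + ((μ ^ 3) ^ 2)⁻¹ * Gb)) ∧
      2 * Ga - K * μ ^ 8 * β * √(a x) ≤ Lop I e 0 a x ∧ 2 * Gb - K * μ ^ 7 * β * √(b x) ≤ Lop I e 0 b x) :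
    HA I e 0 (7 * K) (fun y => (a y ^ (3 / 4 : ℝ) + b y) ^ (4 / 3 : ℝ)) x := by
  have hv : ∀ i, VF I 1 (e i) x := fun i => (he i x).of_le (by simp)
  have a0 : 0 < a x := by linarith
  have s1 := cm_rpow sa a0 (3 / 4)
  have sm : CM I 2 (fun y => a y ^ (3 / 4 : ℝ) + b y) x := s1.add sb
  set t := a x ^ (1 / 4 : ℝ)
  have t1 : 1 ≤ t := Real.one_le_rpow a1 (by norm_num)
  have t3 : a x ^ (3 / 4 : ℝ) = t ^ 3 := by rw [rp_pow a0.le]; norm_num
  have t4 : a x = t ^ 4 := by rw [rp_pow a0.le]; norm_num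
  have m1 : 1 ≤ a x ^ (3 / 4 : ℝ) + b x := by rw [t3]; linarith [one_le_pow₀ (n := 3) t1]
  have m0 : 0 < a x ^ (3 / 4 : ℝ) + b x := by linarith
  set μ := (a x ^ (3 / 4 : ℝ) + b x) ^ (1 / 6 : ℝ)
  have u1 : 1 ≤ μ := Real.one_le_rpow m1 (by norm_num)
  have u6 : a x ^ (3 / 4 : ℝ) + b x = μ ^ 6 := by rw [rp_pow m0.le]; norm_num
  have u8 : (a x ^ (3 / 4 : ℝ) + b x) ^ (4 / 3 : ℝ) = μ ^ 8 := by rw [rp_pow m0.le]; norm_num
  have t0 : 0 < t := by linarith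
  have u0 : 0 < μ := by linarith
  have tm : t ≤ μ ^ 2 :=
    le_of_pow_le_pow_left₀ (n := 3) (by norm_num) (by positivity) (by rw [← t3]; linarith)
  obtain ⟨β, β0, β1, h1, h2⟩ := h μ u1 (by
    rw [t4, show μ ^ 8 = (μ ^ 2) ^ 4 by ring]; gcongr) (by rw [← u6, t3]; linarith [pow_pos t0 3])
  rw [t4, show t ^ 4 = (t ^ 2) ^ 2 by ring, Real.sqrt_sq (by positivity)] at h1
  have q1 : t ^ 3 / t ^ 4 = t⁻¹ := by field_simp
  have q2 : μ ^ 8 / μ ^ 6 = μ ^ 2 := by field_simp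
  have dm : ∀ i, dv I (e i) (fun y => a y ^ (3 / 4 : ℝ) + b y) x =
      3 / 4 * t⁻¹ * dv I (e i) a x + dv I (e i) b x := fun i => by
    rw [Mp86.dv_add (s1.md one_le_two) (sb.md one_le_two), dv_rpow _ sa a0, t3, t4, q1]
  obtain ⟨G, G0, k1, k2⟩ := e3_arith (Da := ∑ i, dv I (e i) a x ^ 2)
    (Dm := ∑ i, dv I (e i) (fun y => a y ^ (3 / 4 : ℝ) + b y) x ^ 2) t1 u1 b0 (t3 ▸ u6) Ga0 Gb0 K0
    (by positivity) (t4 ▸ sq_le_of_quad a0.le Ga0 ga) (u6 ▸ sq_le_of_quad m0.le (by positivity) fun θ => by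
      have c1 := mul_le_mul_of_nonneg_left (ga fun i => 4 / 3 * θ i) (show 0 ≤ 9 / 16 * t⁻¹ by positivity)
      have c2 := gb θ
      have c3 : t⁻¹ * t ^ 4 = t ^ 3 := by field_simp
      simp only [dm, mul_add, Finset.sum_add_distrib, mul_pow, mul_assoc, ← Finset.mul_sum,
        mul_left_comm (θ _), t3, div_eq_inv_mul Ga] at c1 ⊢
      rw [t4] at c1
      have c4 : t⁻¹ * ((∑ i, θ i ^ 2) * t ^ 4) = (∑ i, θ i ^ 2) * t ^ 3 := by rw [mul_left_comm, c3]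
      nlinarith) β1 β0 h1 h2
  refine ⟨cm_rpow sm m0 _, G, μ ^ 2, G0, ?_, ?_, ?_⟩ <;> rw [u8]
  · rw [show μ ^ 8 = (μ ^ 4) ^ 2 by ring, Real.sqrt_sq (by positivity)]; linarith
  · rw [show μ ^ 8 = (μ ^ 4) ^ 2 by ring, Real.sqrt_sq (by positivity), Lop_rpow hv sm m0,
      Mp86.Lop_add hv s1 sb, Lop_rpow hv sa a0, u8, u6, q2, t3]
    rw [t4, q1]
    convert k1 using 2; ring
  · simp only [dv_rpow _ sm m0, u8]
    simp only [u6, q2, mul_pow, ← Finset.mul_sum]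
    simpa only [mul_pow] using k2

/-- interpolation for the derivative of a bounded section -/
theorem interp [CompleteSpace E] [BoundarylessManifold I N] [MeasurableSpace N] {E' : Type}
    [NormedAddCommGroup E'] [NormedSpace ℝ E'] [ProperSpace E'] {μ : Measure N}
    {κ : OpenPartialHomeomorph N E'} {z : E'} {ρ K B W C τ : ℝ} {φ : E' → ℝ} {V : Type}
    [NormedAddCommGroup V] [InnerProductSpace ℝ V] {A : ι → N → V →L[ℝ] V} {w : N → V}
    (h : Ch I e μ κ (closedBall z ρ) K) (K0 : 0 < K) (he : SmV I e) (hφ : Shi84.Bmp φ B) (ρ1 : ρ ≤ 1)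
    (sA : ∀ a, Sm I (A a)) (sk : ∀ a x v w, ⟪A a x v, w⟫_ℝ = -⟪v, A a x w⟫_ℝ) (sw : Sm I w) (a : ι)
    (τ1 : 1 ≤ τ) (eτ : τ * ρ = 1) (C0 : 0 ≤ C) (hW : ∀ y ∈ closedBall z ρ, ‖w (κ.symm y)‖ ≤ W)
    (h1 : ∀ y ∈ closedBall z ρ, ‖nab I e A a w (κ.symm y)‖ ^ 2 ≤ C * τ ^ 3)
    (h2 : ∀ y ∈ closedBall z ρ, ∀ a', ‖nab I e A a' (nab I e A a w) (κ.symm y)‖ ^ 2 ≤ C * τ ^ 5) :
    (‖nab I e A a w (κ.symm z)‖ ^ 2) ^ 3 ≤ ((16 * W ^ 2 * C + 1) ^ 2 + 8 *
      (Fintype.card ι * K * (2 * C) + C + 1) ^ 2 * ((W ^ 2 + 1) * (B * K ^ 2 + B * K))) * τ ^ 8 := by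
  have B0 := hφ.nn
  have τ0 : 0 < τ := by linarith
  have ρ0 : 0 < ρ := by by_contra! hn; nlinarith
  have sf := sm_nab he sA sw a
  have hz := mem_closedBall_self (x := z) ρ0.le
  obtain ⟨L, hL⟩ : ∃ L : ℝ, L = Fintype.card ι * K * (2 * C) + C + 1 := ⟨_, rfl⟩
  have n0 : 0 ≤ Fintype.card ι * K * (2 * C) := by positivity
  have L0 : 0 < L := by linarith
  rw [← hL]
  obtain ⟨m, hm⟩ : ∃ m, m = ‖nab I e A a w (κ.symm z)‖ ^ 2 := ⟨_, rfl⟩
  have m0 : 0 ≤ m := hm ▸ sq_nonneg _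
  rw [← hm, add_mul]
  by_cases hc : m ^ 2 ≤ 16 * W ^ 2 * C * τ ^ 5
  · refine le_add_of_le_of_nonneg (le_of_pow_le_pow_left₀ (n := 2) (by norm_num) (by positivity) ?_)
      (by positivity)
    have d1 : 1 ≤ 16 * W ^ 2 * C + 1 := le_add_of_nonneg_left (by positivity)
    calc _ = (m ^ 2) ^ 3 := by ring
      _ ≤ ((16 * W ^ 2 * C + 1) * τ ^ 5) ^ 3 := by gcongr; linarith [pow_pos τ0 5]
      _ = (16 * W ^ 2 * C + 1) ^ 3 * τ ^ 15 := by ring
      _ ≤ (16 * W ^ 2 * C + 1) ^ 4 * τ ^ 16 := by gcongr <;> norm_num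
      _ = _ := by ring
  refine le_add_of_nonneg_of_le (by positivity) ?_
  have m1 : 0 < m := m0.lt_of_ne fun e => hc (by rw [← e]; simp; positivity)
  have s1 : m / (2 * L * τ ^ 4) ≤ ρ := by
    rw [div_le_iff₀ (by positivity), show ρ * (2 * L * τ ^ 4) = 2 * L * τ ^ 3 * (τ * ρ) by ring, eτ]
    nlinarith [h1 z hz, pow_pos τ0 3]
  have sb := closedBall_subset_closedBall (x := z) s1
  have md : ∀ x, Mp86.MD I (fun x => ‖nab I e A a w x‖ ^ 2) x := fun x =>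
    (Mp86.cm_normSq (sf x)).md (by simp)
  have := Shi84.tay h he hφ (s := m / (2 * L * τ ^ 4)) (by positivity) (s1.trans ρ1) sb a
    (g := fun x => ‖w x‖ ^ 2) (A := W ^ 2) (c := m / 2)
    (fun y _ => (Mp86.cm_normSq (sw _)).of_le Mp86.two_le) (sq_nonneg _)
    (fun y hy => pow_le_pow_left₀ (norm_nonneg _) (hW y (sb hy)) 2) fun y hy => ?_
  · rw [show (m / (2 * L * τ ^ 4)) ^ 2 * (m / 2) = m ^ 3 / (8 * L ^ 2 * τ ^ 8) by field_simp; ring,
      div_le_iff₀ (by positivity)] at this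
    linarith
  have b1 := Mp86.Lop_normSq (e := fun _ : Unit => e a) (b := 0) (A := fun _ => A a) (u := w)
    (x := κ.symm y) (fun _ => Shi84.vf1 he a _) (fun _ => (sA a _).of_le (by simp))
    (fun _ => .of_forall (sk a)) ((sw _).of_le Mp86.two_le)
  simp only [Lop, Mp86.LA, Finset.univ_unique, Finset.sum_singleton, Pi.zero_apply, zero_smul,
    add_zero] at b1
  have b2 := Shi84.lip h (convex_closedBall z ρ) Subset.rfl (f := fun x => ‖nab I e A a w x‖ ^ 2)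
    (A := 2 * C * τ ^ 4) (fun y _ => md _) (fun y hy a' => ?_) hz (sb hy)
  · rw [abs_of_pos K0, abs_of_nonneg (by positivity), Real.norm_eq_abs, ← hm] at b2
    have c1 : Fintype.card ι * K * (2 * C * τ ^ 4) * ‖y - z‖ ≤ L * τ ^ 4 * (m / (2 * L * τ ^ 4)) :=
      mul_le_mul (by nlinarith [pow_pos τ0 4]) (mem_closedBall_iff_norm.1 hy) (norm_nonneg _)
        (by positivity)
    rw [show L * τ ^ 4 * (m / (2 * L * τ ^ 4)) = m / 2 by field_simp] at c1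
    have c2 := neg_le_of_abs_le (b2.trans c1)
    have c3 := neg_le_of_abs_le ((abs_real_inner_le_norm (nab I e A a (nab I e A a w) (κ.symm y))
      (w (κ.symm y))).trans (mul_le_mul_of_nonneg_left (hW y (sb hy)) (norm_nonneg _)))
    have c4 : 4 * (‖nab I e A a (nab I e A a w) (κ.symm y)‖ * W) ≤ m :=
      (abs_le_of_sq_le_sq' (by
        nlinarith [mul_le_mul_of_nonneg_left (h2 y (sb hy) a) (sq_nonneg W)]) m0).2
    rw [b1]
    change _ ≤ 2 * ⟪nab I e A a (nab I e A a w) (κ.symm y), w (κ.symm y)⟫_ℝ +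
      2 * ‖nab I e A a w (κ.symm y)‖ ^ 2
    linarith
  have m1 : Mp86.MD I (nab I e A a w) (κ.symm y) := (sf _).mdifferentiableAt (by simp)
  have a3 := Mp86.dv_inner_cd (v := e a') (sk a' _) m1 m1
  simp only [real_inner_self_eq_norm_sq] at a3
  rw [a3, real_inner_comm, ← two_mul, norm_mul, Real.norm_ofNat, mul_assoc]
  refine mul_le_mul_of_nonneg_left ((norm_inner_le_norm _ _).trans
    (abs_le_of_sq_le_sq' ?_ (by positivity)).2) zero_le_two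
  rw [mul_pow]
  exact (mul_le_mul (h1 y hy) (h2 y hy a') (sq_nonneg _) (by positivity)).trans_eq (by ring)

end one

variable {α : Type} {X : α → Type} [∀ n, TopologicalSpace (X n)] [∀ n, ChartedSpace HM (X n)]
  [∀ n, IsManifold I ∞ (X n)] [∀ n, MeasurableSpace (X n)] {b : Fb I ι X} {L : Sy ι X}

variable (L) in
/-- the indicator of the fields of type `t` -/
def ch (t : Bool) (i : L.κ) : ℝ := if (L.f i).t = t then 1 else 0

variable (L) in
/-- the size of the fields of type `t` -/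
def fs (t : Bool) (n : α) (x : X n) : ℝ := ∑ i, ch L t i * ‖(L.f i).s n x‖ ^ 2

variable (b L) in
/-- the size of their derivatives -/
def gs (t : Bool) (n : α) (x : X n) : ℝ :=
  ∑ i, ch L t i * ∑ a, ‖nab I (b.e n) ((L.f i).A n) a ((L.f i).s n) x‖ ^ 2

theorem ch_nonneg (t : Bool) (i : L.κ) : 0 ≤ ch L t i := by unfold ch; split <;> simp

theorem fs_nonneg (t : Bool) (n : α) (x : X n) : 0 ≤ fs L t n x :=
  Finset.sum_nonneg fun i _ => mul_nonneg (ch_nonneg t i) (sq_nonneg _)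

theorem gs_nonneg (t : Bool) (n : α) (x : X n) : 0 ≤ gs b L t n x :=
  Finset.sum_nonneg fun i _ => mul_nonneg (ch_nonneg t i) (by positivity)

theorem wt_eq (dw : ℕ) (μ : ℝ) (i : L.κ) : ((μ ^ (L.f i).d dw) ^ 2)⁻¹ =
    ((μ ^ 4) ^ 2)⁻¹ * ch L false i + ((μ ^ dw) ^ 2)⁻¹ * ch L true i := by
  unfold ch Fld.d; cases (L.f i).t <;> simp

theorem H0_eq (dw : ℕ) (μ : ℝ) (n : α) (x : X n) : b.H L dw μ 0 n x =
    ((μ ^ 4) ^ 2)⁻¹ * fs L false n x + ((μ ^ dw) ^ 2)⁻¹ * fs L true n x := by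
  simp only [Fb.H, hs, fs, wt_eq, add_mul, Finset.sum_add_distrib, Finset.mul_sum, mul_assoc]

theorem H1_eq (dw : ℕ) (μ : ℝ) (n : α) (x : X n) : b.H L dw μ 1 n x = b.H L dw μ 0 n x + (μ ^ 4)⁻¹ *
    (((μ ^ 4) ^ 2)⁻¹ * gs b L false n x + ((μ ^ dw) ^ 2)⁻¹ * gs b L true n x) := by
  simp only [Fb.H, hs, gs, mul_add, Finset.sum_add_distrib, mul_left_comm _ (μ ^ 4)⁻¹,
    ← Finset.mul_sum]
  simp only [wt_eq, add_mul, Finset.sum_add_distrib, mul_assoc, ← Finset.mul_sum, mul_add]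

theorem le_fs {t : Bool} {i : L.κ} (h : (L.f i).t = t) (n : α) (x : X n) :
    ‖(L.f i).s n x‖ ^ 2 ≤ fs L t n x :=
  le_trans (by simp [ch, h]) (Finset.single_le_sum (f := fun i => ch L t i * ‖(L.f i).s n x‖ ^ 2)
    (fun i _ => mul_nonneg (ch_nonneg t i) (sq_nonneg _)) (Finset.mem_univ i))

theorem fs_le {t : Bool} {n : α} {x : X n} {C : L.κ → ℝ} {w : ℝ} (C0 : ∀ i, 0 ≤ C i) (w0 : 0 ≤ w)
    (h : ∀ i, (L.f i).t = t → ‖(L.f i).s n x‖ ^ 2 ≤ C i * w) : fs L t n x ≤ (∑ i, C i) * w := by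
  rw [Finset.sum_mul]
  refine Finset.sum_le_sum fun i _ => ?_
  unfold ch; split
  · rw [one_mul]; exact h i ‹_›
  · rw [zero_mul]; exact mul_nonneg (C0 i) w0

variable (hc : Cons b L)
include hc

theorem sm_sq (i : L.κ) (n : α) : Sm I fun x => ‖(L.f i).s n x‖ ^ 2 :=
  fun x => Mp86.cm_normSq ((hc.ok i).sm n x)

theorem sm_fs (t : Bool) (n : α) : Sm I (fs L t n) := sm_lin _ fun i => sm_sq hc i n

theorem fs_grad (t : Bool) (n : α) (x : X n) (θ : ι → ℝ) :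
    ∑ a, θ a * dv I (b.e n a) (fs L t n) x ≤ (∑ a, θ a ^ 2) * fs L t n x + gs b L t n x := by
  unfold fs gs
  simp only [dv_lin _ fun i => sm_sq hc i n, Finset.mul_sum _ _ (θ _), Finset.mul_sum _ _ (∑ _, _)]
  rw [Finset.sum_comm, ← Finset.sum_add_distrib]
  refine Finset.sum_le_sum fun i _ => ?_
  simp only [mul_left_comm _ (ch L t i), ← Finset.mul_sum, ← mul_add]
  exact mul_le_mul_of_nonneg_left (grad_hs (μ := 1) (b.frm n).se ((hc.ok i).sA n) ((hc.ok i).sk n) θ x 0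
    ((hc.ok i).sm n)) (ch_nonneg t i)

theorem fs_Lop (t : Bool) (n : α) (x : X n) {Λ r : ℝ} (Λ0 : 0 ≤ Λ) (hr : fs L t n x ≤ r)
    (h : ∀ i, (L.f i).t = t → ‖L0 I (b.e n) ((L.f i).A n) ((L.f i).s n) x‖ ≤ Λ) :
    2 * gs b L t n x - 2 * Fintype.card L.κ * Λ * √r ≤ Lop I (b.e n) 0 (fs L t n) x := by
  refine le_trans ?_ (Lop_lin (b.frm n).se _ (fun i => sm_sq hc i n) x).ge
  rw [gs, show ∀ a c d e : ℝ, a * c * d * e = c * (a * d * e) from fun _ _ _ _ => by ring,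
    ← nsmul_eq_mul, ← Finset.card_univ, ← Finset.sum_const, Finset.mul_sum, ← Finset.sum_sub_distrib]
  refine Finset.sum_le_sum fun i _ => ?_
  by_cases ht : (L.f i).t = t
  · have := Lop_hs (b.frm n).se ((hc.ok i).sA n) ((hc.ok i).sk n) one_pos x 0 ((hc.ok i).sm n)
      (Λ := Λ) fun v hv => by
        obtain rfl := List.length_eq_zero_iff.1 (Nat.le_zero.1 hv)
        simpa [Dw] using h i ht
    simp only [hs, pow_zero, mul_one] at this
    have h2 := mul_le_mul_of_nonneg_left (Real.sqrt_le_sqrt ((le_fs ht n x).trans hr)) Λ0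
    simp only [ch, ht, if_true, one_mul]
    linarith
  · simp only [ch, ht, if_false, zero_mul, mul_zero, zero_sub, neg_nonpos]
    positivity

/-- **(E3)** -/
theorem e3 [CompleteSpace E] [∀ n, BoundarylessManifold I (X n)] : ∃ h : ∀ n, X n → ℝ,
    (∀ n, Continuous (h n)) ∧ (∀ n x, 0 ≤ h n x) ∧ (∀ n x, b.H L 3 1 0 n x ≤ 2 * h n x) ∧
    (∀ n x, h n x ^ 3 ≤ 8 * ((1 + fs L false n x) ^ 3 + fs L true n x ^ 4)) ∧
    ∃ C, 0 ≤ C ∧ ∀ᶠ q in b.F, HA I (b.e q.1) 0 C (h q.1) q.2 := by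
  have f0 := fs_nonneg (L := L)
  have a0 : ∀ n x, 0 ≤ 1 + fs L false n x := fun n x => by linarith [f0 false n x]
  have a1 : ∀ n x, 1 ≤ (1 + fs L false n x) ^ (3 / 4 : ℝ) := fun n x =>
    Real.one_le_rpow (by linarith [f0 false n x]) (by norm_num)
  have m0 : ∀ n x, 0 ≤ (1 + fs L false n x) ^ (3 / 4 : ℝ) + fs L true n x := fun n x => by
    linarith [f0 true n x, a1 n x]
  refine ⟨fun n x => ((1 + fs L false n x) ^ (3 / 4 : ℝ) + fs L true n x) ^ (4 / 3 : ℝ),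
    fun n => (((continuous_const.add (sm_fs hc _ n).continuous).rpow_const fun _ => .inr (by norm_num)).add
      (sm_fs hc _ n).continuous).rpow_const fun _ => .inr (by norm_num),
    fun n x => Real.rpow_nonneg (m0 n x) _, fun n x => ?_, fun n x => ?_, ?_⟩
  · have c1 := Real.rpow_le_rpow (zero_le_one.trans (a1 n x)) (le_add_of_nonneg_right (f0 true n x))
      (show (0 : ℝ) ≤ 4 / 3 by norm_num)
    rw [← Real.rpow_mul (a0 n x), show (3 / 4 * (4 / 3) : ℝ) = 1 by norm_num, Real.rpow_one] at c1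
    have c2 := Real.self_le_rpow_of_one_le (y := 4 / 3)
      (le_add_of_le_of_nonneg (a1 n x) (f0 true n x)) (by norm_num)
    rw [H0_eq]
    simp only [one_pow, inv_one, one_mul]
    linarith [a1 n x]
  · have c1 : ((1 + fs L false n x) ^ (3 / 4 : ℝ)) ^ 4 = (1 + fs L false n x) ^ 3 := by
      rw [rp_pow (a0 n x), ← Real.rpow_natCast]; norm_num
    rw [rp_pow (m0 n x), show (4 / 3 * ((3 : ℕ) : ℝ) : ℝ) = ((4 : ℕ) : ℝ) by norm_num,
      Real.rpow_natCast, ← c1]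
    simpa [show (2 : ℝ) ^ 3 = 8 by norm_num] using add_pow_le (zero_le_one.trans (a1 n x)) (f0 true n x) 4
  obtain ⟨K, K0, hK⟩ := hc.core (dw := 3) le_rfl le_rfl 0 0 (by omega) 2
  refine ⟨7 * (2 * Fintype.card L.κ * K), by positivity, hK.mono fun ⟨n, x⟩ hq => ?_⟩
  have s1 : CM I 2 (fs L false n) x := (sm_fs hc false n x).of_le Mp86.two_le
  have hv : ∀ i, VF I 1 (b.e n i) x := fun i => ((b.frm n).se i x).of_le (by simp)
  refine ha_pt (a := fun x => 1 + fs L false n x) (b.frm n).se (contMDiffAt_const.add s1)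
    ((sm_fs hc true n x).of_le Mp86.two_le) (le_add_of_nonneg_right (f0 ..)) (f0 ..)
    (gs_nonneg (b := b) (L := L) false n x) (gs_nonneg true n x) (by positivity) (fun θ => ?_) (fs_grad hc true n x)
    fun μ m1 h1 h2 => ?_
  · simp only [Mp86.dv_add mdifferentiableAt_const (s1.md one_le_two), Mp86.dv_const, zero_add]
    refine (fs_grad hc false n x θ).trans ?_
    gcongr; linarith
  have μ0 : 0 < μ := by linarith
  have H2 : b.H L 3 μ 0 n x ≤ 2 := by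
    rw [H0_eq]
    refine (add_le_add (b := 1) (d := 1) ?_ ?_).trans_eq one_add_one_eq_two <;> rw [inv_mul_le_iff₀ (by positivity)] <;> linarith
  have hq' := fun i => hq μ m1 (.inr (.inl rfl)) H2 i [] le_rfl
  simp only [Dw, List.length_nil, mul_zero, pow_zero, one_mul, zero_add, Nat.sub_zero, bt] at hq'
  refine ⟨1 + √(b.H L 3 μ 1 n x), by positivity, ?_, ?_, ?_⟩
  · rw [H1_eq]; gcongr
  · rw [Mp86.Lop_add hv contMDiffAt_const s1, Mp86.Lop_const, zero_add]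
    exact le_trans (le_of_eq (by ring)) (fs_Lop hc false n x (r := 1 + fs L false n x)
      (Λ := μ ^ 4 * (K * μ ^ 4 * (1 + √(b.H L 3 μ 1 n x)))) (by positivity)
      (by linarith) fun i hi => (hq' i).trans_eq (by rw [Fld.d, hi]; rfl))
  · exact le_trans (le_of_eq (by ring)) (fs_Lop hc true n x
      (Λ := μ ^ 3 * (K * μ ^ 4 * (1 + √(b.H L 3 μ 1 n x)))) (by positivity) le_rfl
      fun i hi => (hq' i).trans_eq (by rw [Fld.d, hi]; rfl))

end Crest.Agent.X212.Th31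
end
end

-- ▼ part X212/Eps63/Dec
section

/-!
# Row 212, AN (helper63): DEC, all jets are bounded at a puncture
-/

set_option autoImplicit false
set_option linter.unusedSectionVars false
open Set Filter Topology Function MeasureTheory Metric
open scoped ContDiff Manifold InnerProductSpace NNReal ENNReal

noncomputable section
namespace Crest.Agent.X212.Eps63

open Cmp73
open An (Sm)
open Sob92 (dv)
open Mp86 (Lop)
open Wz78 (nab)
open Th31 (fs)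

variable {E : Type} [NormedAddCommGroup E] [NormedSpace ℝ E] {HM : Type} [TopologicalSpace HM]
  {I : ModelWithCorners ℝ E HM} {ι : Type} [Fintype ι]
  {E' : Type} [NormedAddCommGroup E'] [NormedSpace ℝ E']
  {α : Type} {l : Filter α} {z₀ : E'}
  {X : α → Type} [∀ n, TopologicalSpace (X n)] [∀ n, ChartedSpace HM (X n)]
  [∀ n, IsManifold I ∞ (X n)] [∀ n, MeasurableSpace (X n)]
  {b : Fb I ι X} {L : Sy ι X} {κ : ∀ n, OpenPartialHomeomorph (X n) E'}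

/-- the scalar inequalities of a consistent system that are used here -/
structure Ine (b : Fb I ι X) (L : Sy ι X) : Prop where
  sm : ∀ r n, Sm I (b.H L 3 1 r n)
  e4 : ∀ r n x, ∑ a, dv I (b.e n a) (b.H L 3 1 r n) x ^ 2 ≤
    4 * b.H L 3 1 r n x * (b.H L 3 1 (r + 1) n x - b.H L 3 1 0 n x)
  e2 : ∀ r R, ∃ K, ∀ᶠ q in b.F, b.H L 3 1 r q.1 q.2 ≤ R →
    2 * b.H L 3 1 (r + 2) q.1 q.2 - K * (1 + √(b.H L 3 1 (r + 1) q.1 q.2)) *
      ((1 + √(b.H L 3 1 (r + 1) q.1 q.2)) ^ 2 + √(b.H L 3 1 (r + 2) q.1 q.2)) ≤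
      Lop I (b.e q.1) 0 (b.H L 3 1 (r + 1) q.1) q.2

theorem one_le_tau {z : E'} (h : 0 < ‖z - z₀‖ ∧ ‖z - z₀‖ ≤ 1) : 1 ≤ tau z₀ z :=
  (one_le_inv₀ (by linarith [h.1])).2 (by linarith [h.2])

theorem tau_mul {z : E'} (h : 0 < ‖z - z₀‖) : tau z₀ z * (‖z - z₀‖ / 2) = 1 :=
  inv_mul_cancel₀ (by linarith)

theorem abs_le_of_sum {f : ι → ℝ} {c : ℝ} (c0 : 0 ≤ c) (h : ∑ a, f a ^ 2 ≤ c ^ 2) (a : ι) :
    |f a| ≤ c := abs_le.2 (abs_le_of_sq_le_sq' ((Finset.single_le_sum (f := fun a => f a ^ 2)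
      (fun _ _ => sq_nonneg _) (Finset.mem_univ a)).trans h) c0)

theorem step0 (P : Pun b L κ l z₀) (hE : Eps b L κ (gB l z₀)) : ∃ C, ∀ᶠ p in pF l z₀,
    b.H L 3 (√(‖p.2 - z₀‖ / 2))⁻¹ 1 p.1 ((κ p.1).symm p.2) ≤ C := by
  obtain ⟨ε, ε0, C, h⟩ := hE
  exact ⟨C, (ev_B.1 (h.and (P.en ε ε0))).mono fun p hp => hp.1 hp.2⟩

/-- the conclusion of `Kat` at the natural scale -/
def KatN (b : Fb I ι X) (L : Sy ι X) (κ : ∀ n, OpenPartialHomeomorph (X n) E') (z₀ : E')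
    (h : ∀ n, X n → ℝ) (k C : ℝ) (p : α × E') : Prop :=
  ∃ G ν : ℝ, 0 ≤ G ∧ 0 ≤ ν ∧ ν ≤ C * tau z₀ p.2 ^ 3 ∧ ν ≤ C + (tau z₀ p.2 ^ 2 + fs L true p.1 ((κ p.1).symm p.2)) ∧
    h p.1 ((κ p.1).symm p.2) ≤ C * tau z₀ p.2 ^ 4 ∧ G ≤ C * tau z₀ p.2 ^ 6 ∧
    h p.1 ((κ p.1).symm p.2) ≤ C * (b.en p.1 ((κ p.1).symm p.2) + tau z₀ p.2 ^ 3) ∧
    b.en p.1 ((κ p.1).symm p.2) ≤ C * (h p.1 ((κ p.1).symm p.2) + tau z₀ p.2 ^ 3) ∧
    2 * G - C * √(h p.1 ((κ p.1).symm p.2)) * (h p.1 ((κ p.1).symm p.2) + √G + tau z₀ p.2 ^ 3 +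
      √(tau z₀ p.2 ^ 5 * ν)) ≤ Lop I (b.e p.1) 0 (h p.1) ((κ p.1).symm p.2) ∧
    ∑ a, dv I (b.e p.1 a) (h p.1) ((κ p.1).symm p.2) ^ 2 ≤ 4 * k * h p.1 ((κ p.1).symm p.2) * G +
      C * h p.1 ((κ p.1).symm p.2) * (h p.1 ((κ p.1).symm p.2) + tau z₀ p.2 ^ 3 + ν ^ 2)

theorem one_le_mu {z : E'} (h3 : 0 < ‖z - z₀‖ ∧ ‖z - z₀‖ ≤ 1) : 1 ≤ (√(‖z - z₀‖ / 2))⁻¹ := by
  refine (one_le_inv₀ (Real.sqrt_pos.2 (by linarith [h3.1]))).2 (Real.sqrt_le_one.2 ?_)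
  linarith [h3.2]

/-- `Kat` at the natural scale -/
theorem step1 (P : Pun b L κ l z₀) (hE : Eps b L κ (gB l z₀)) : ∃ (h : ∀ n, X n → ℝ) (k C : ℝ),
    (∀ n, Sm I (h n)) ∧ (∀ n x, 0 ≤ h n x) ∧ 0 ≤ k ∧ k < 1 ∧ 0 < C ∧
      ∀ᶠ p in pF l z₀, KatN b L κ z₀ h k C p := by
  obtain ⟨C0, h0⟩ := step0 P hE
  obtain ⟨e0, h, sh, h0', k, k1, G, G0, hK⟩ := P.kat
  obtain ⟨C, hC⟩ := hK C0
  refine ⟨h, max k 0, max C (2 * |C0| + 1), sh, h0', le_max_right _ _, max_lt k1 one_pos,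
    lt_max_of_lt_right (by positivity), ?_⟩
  filter_upwards [(ev_F P).1 hC, h0, pF_small one_pos] with p h1 h2 h3
  have t1 := one_le_tau h3
  have m1 := one_le_mu h3
  obtain ⟨a1, a2, a5, a6, a3, a4⟩ := h1 _ m1 h2
  have b1 := (b.H_mono L 3 _ 0 _ _).trans (h2.trans (le_abs_self _))
  have b2 := b.H_nonneg L 0 (√(‖p.2 - z₀‖ / 2))⁻¹ 0 p.1 ((κ p.1).symm p.2)
  have b3 := Th31.H0_eq (b := b) (L := L) 0 (√(‖p.2 - z₀‖ / 2))⁻¹ p.1 ((κ p.1).symm p.2)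
  have b4 : (√(‖p.2 - z₀‖ / 2))⁻¹ ^ 5 = √(tau z₀ p.2 ^ 5) := by
    rw [← mu_pow, mul_comm 2, pow_mul, Real.sqrt_sq (by positivity)]
  rw [Th31.H0_eq, ← pow_mul _ 3, mul_comm 3, mu_pow] at b1
  rw [show 8 = 2 * 4 from rfl, mu_pow] at a1
  rw [show 12 = 2 * 6 from rfl, mu_pow] at a2
  rw [show 6 = 2 * 3 from rfl, mu_pow] at a3 a4 a5 a6
  rw [b4, ← Real.sqrt_mul (by positivity)] at a3
  have b7 : (√(‖p.2 - z₀‖ / 2))⁻¹ ^ 4 = tau z₀ p.2 ^ 2 := mu_pow _ 2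
  rw [b7] at a3 a4
  simp only [pow_zero, one_pow, inv_one, one_mul] at b3
  have f0 := Th31.fs_nonneg (L := L) false p.1 ((κ p.1).symm p.2)
  have f1 := Th31.fs_nonneg (L := L) true p.1 ((κ p.1).symm p.2)
  have b5 : 0 ≤ (tau z₀ p.2 ^ 3)⁻¹ * fs L true p.1 ((κ p.1).symm p.2) := by positivity
  have b6 : fs L true p.1 ((κ p.1).symm p.2) ≤ |C0| * tau z₀ p.2 ^ 3 := by
    rw [mul_comm, ← inv_mul_le_iff₀ (by positivity)]
    exact le_trans (le_add_of_nonneg_left (by positivity)) b1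
  have b8 : b.H L 0 (√(‖p.2 - z₀‖ / 2))⁻¹ 0 p.1 ((κ p.1).symm p.2) ≤
      |C0| + fs L true p.1 ((κ p.1).symm p.2) :=
    b3.trans_le (add_le_add_left (le_trans (le_add_of_nonneg_right b5) b1) _)
  clear b1 b3 b4 b5 b7 h1 h2 m1
  generalize b.H L 0 (√(‖p.2 - z₀‖ / 2))⁻¹ 0 p.1 ((κ p.1).symm p.2) = H0 at *
  have c1 := le_max_left C (2 * |C0| + 1)
  have c3 := le_max_right C (2 * |C0| + 1)
  have c2 := le_max_left k 0
  have c4 := abs_nonneg C0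
  have n0 := e0 p.1 ((κ p.1).symm p.2)
  have n1 := G0 p.1 ((κ p.1).symm p.2)
  have n2 := h0' p.1 ((κ p.1).symm p.2)
  refine ⟨_, tau z₀ p.2 ^ 2 + H0, n1, add_nonneg (sq_nonneg _) b2, ?_, by linarith, a1.trans (by gcongr), a2.trans (by gcongr),
    a5.trans (by gcongr), a6.trans (by gcongr), le_trans (by gcongr) a3, a4.trans (by gcongr)⟩
  nlinarith [mul_le_mul_of_nonneg_left (one_le_pow₀ (n := 3) t1) c4,
    mul_le_mul_of_nonneg_right c3 (pow_nonneg (tau_nonneg (z₀ := z₀) p.2) 3),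
    pow_le_pow_right₀ t1 (show 2 ≤ 3 by norm_num)]

variable [∀ n, OpensMeasurableSpace (X n)]

theorem step2 (P : Pun b L κ l z₀) {h : ∀ n, X n → ℝ} {k C : ℝ} (sh : ∀ n, Sm I (h n))
    (h0 : ∀ n x, 0 ≤ h n x) (k1 : k < 1) (C0 : 0 < C) (hK : ∀ᶠ p in pF l z₀, KatN b L κ z₀ h k C p)
    {ε : ℝ} (ε0 : 0 < ε) : ∀ᶠ p in pF l z₀, h p.1 ((κ p.1).symm p.2) ≤ ε * tau z₀ p.2 ^ 4 := by
  obtain ⟨B, K, B0, B1, K0, hB⟩ := pun_low P sh (A := 5 * C ^ 2 + C ^ 3 + C ^ 4 + 1) (by positivity)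
    (by
      filter_upwards [hK, pF_small one_pos] with p ⟨G, ν, G0, ν0, ν1, _, a1, a2, _, _, _, a4⟩ h3
      have t1 := one_le_tau h3
      have n0 := h0 p.1 ((κ p.1).symm p.2)
      refine abs_le_of_sum (by positivity) (a4.trans ?_)
      set τ := tau z₀ p.2
      have t3 : τ ^ 3 ≤ τ ^ 6 := pow_le_pow_right₀ t1 (by norm_num)
      have t4 : τ ^ 4 ≤ τ ^ 6 := pow_le_pow_right₀ t1 (by norm_num)
      calc _ ≤ 4 * 1 * (C * τ ^ 4) * (C * τ ^ 6) +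
            C * (C * τ ^ 4) * (C * τ ^ 6 + τ ^ 6 + (C * τ ^ 3) ^ 2) := by
            gcongr
            exact a1.trans (by gcongr)
        _ = (5 * C ^ 2 + C ^ 3 + C ^ 4) * (τ ^ 5) ^ 2 := by ring
        _ ≤ (5 * C ^ 2 + C ^ 3 + C ^ 4 + 1) ^ 2 * (τ ^ 5) ^ 2 := by
            gcongr
            nlinarith [(by positivity : 0 ≤ 5 * C ^ 2 + C ^ 3 + C ^ 4)]
        _ = _ := by ring) ε
  set s := ε / (2 * B) with hs
  have s0 : 0 < s := by positivity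
  have s1 : s ≤ 1 := by rw [hs, div_le_one (by positivity)]; linarith
  have c0 : 0 < ε / (8 * C) * s ^ 4 / K := by positivity
  filter_upwards [hB, ev_B.1 (P.en (Real.toNNReal (ε / (8 * C) * s ^ 4 / K)) (Real.toNNReal_pos.2 c0)),
    pF_small one_pos, pF_ball hK, pF_small (δ := ε / (16 * C)) (by positivity)] with p h1 h2 h3 h5 h6
  by_contra! hc
  have tm := tau_mul h3.1
  have tb := fun y hy => pow_le_pow_left₀ (tau_nonneg y) (tau_ball (y := y) h3.1 hy) 3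
  set τ := tau z₀ p.2
  set ρ := ‖p.2 - z₀‖ / 2 with hρ
  have ρ0 : 0 < ρ := by linarith [h3.1]
  have τ0 : 0 < τ := by
    by_contra! hn
    nlinarith
  have := (h1 (s * ρ) (by positivity) (mul_le_of_le_one_left ρ0.le s1)
    (fun x => ENNReal.ofReal (b.en p.1 x)) (ENNReal.ofReal (ε / (4 * C) * τ ^ 4)) _ Subset.rfl
    fun y hy hx => ENNReal.ofReal_le_ofReal (by
      have e : B * τ ^ 5 * (s * ρ) = ε / 2 * τ ^ 4 * (τ * ρ) := by rw [hs]; field_simp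
      rw [e, tm] at hx
      obtain ⟨-, -, -, -, -, -, -, -, a5, -⟩ := h5 y hy
      have c1 : 32 * C * ρ ≤ ε := by
        have := (le_div_iff₀ (by positivity)).1 h6.2; rw [hρ]; linarith
      have c2 : 32 * C * τ ^ 3 ≤ ε * τ ^ 4 := by
        calc _ = 32 * C * ρ * τ ^ 4 := by
              linear_combination (-32 * C * τ ^ 3) * tm
          _ ≤ _ := by gcongr
      rw [div_mul_eq_mul_div, div_le_iff₀ (by positivity)]
      nlinarith [mul_le_mul_of_nonneg_left (tb y hy) C0.le])).trans h2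
  rw [← ENNReal.ofReal_mul (by positivity)] at this
  have h4 := (ENNReal.ofReal_le_ofReal_iff c0.le).1 this
  have e : ε / (4 * C) * τ ^ 4 * ((s * ρ) ^ 4 / K) = 2 * (ε / (8 * C) * s ^ 4 / K) * (τ * ρ) ^ 4 := by
    field_simp; norm_num
  rw [e, tm] at h4
  linarith

theorem fld_le (i : L.κ) (μ : ℝ) (r : ℕ) (n : α) (x : X n) :
    ((μ ^ (L.f i).d 3) ^ 2)⁻¹ * hs I (b.e n) ((L.f i).A n) μ r ((L.f i).s n) x ≤ b.H L 3 μ r n x :=
  Finset.single_le_sum (f := fun i => ((μ ^ (L.f i).d 3) ^ 2)⁻¹ *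
    hs I (b.e n) ((L.f i).A n) μ r ((L.f i).s n) x)
    (fun _ _ => mul_nonneg (by positivity) (hs_nonneg _ _ _)) (Finset.mem_univ i)

/-- the one-jet of a field at the natural scale -/
theorem step3 (P : Pun b L κ l z₀) (hE : Eps b L κ (gB l z₀)) (i : L.κ) : ∃ C, 0 ≤ C ∧
    ∀ᶠ p in pF l z₀, ‖(L.f i).s p.1 ((κ p.1).symm p.2)‖ ^ 2 ≤ C * tau z₀ p.2 ^ (L.f i).d 3 ∧
      ∀ a, ‖nab I (b.e p.1) ((L.f i).A p.1) a ((L.f i).s p.1) ((κ p.1).symm p.2)‖ ^ 2 ≤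
        C * tau z₀ p.2 ^ ((L.f i).d 3 + 2) := by
  obtain ⟨C, h⟩ := step0 P hE
  refine ⟨max C 0, le_max_right _ _, ?_⟩
  filter_upwards [h, pF_small one_pos] with p h1 h3
  have t1 := one_le_tau h3
  have h2 := (fld_le i _ 1 p.1 _).trans (h1.trans (le_max_left C 0))
  rw [← pow_mul, mul_comm _ 2, mu_pow, inv_mul_le_iff₀ (by positivity), hs,
    show 4 = 2 * 2 from rfl, mu_pow] at h2
  simp only [hs] at h2
  have n1 : ∀ a, ‖nab I (b.e p.1) ((L.f i).A p.1) a ((L.f i).s p.1) ((κ p.1).symm p.2)‖ ^ 2 ≤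
      ∑ a, ‖nab I (b.e p.1) ((L.f i).A p.1) a ((L.f i).s p.1) ((κ p.1).symm p.2)‖ ^ 2 := fun a =>
    Finset.single_le_sum (f := fun a =>
      ‖nab I (b.e p.1) ((L.f i).A p.1) a ((L.f i).s p.1) ((κ p.1).symm p.2)‖ ^ 2)
      (fun _ _ => sq_nonneg _) (Finset.mem_univ a)
  refine ⟨le_trans (le_add_of_nonneg_right (by positivity)) (h2.trans_eq (mul_comm _ _)),
    fun a => (n1 a).trans ?_⟩
  have h4 := le_trans (le_add_of_nonneg_left (sq_nonneg _)) h2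
  rw [inv_mul_le_iff₀ (by positivity)] at h4
  exact h4.trans_eq (by ring)

/-- fields bounded in `L⁴` -/
theorem step4 (P : Pun b L κ l z₀) (hE : Eps b L κ (gB l z₀)) (i : L.κ) (ht : (L.f i).t = false)
    (h4 : b.L4 (L.f i).s) : ∃ C, 0 ≤ C ∧ ∀ᶠ p in pF l z₀,
      (‖(L.f i).s p.1 ((κ p.1).symm p.2)‖ ^ 2) ^ 6 ≤ C * tau z₀ p.2 ^ 20 := by
  obtain ⟨C, C0, h⟩ := step3 P hE i
  have ok := P.cons.ok i
  have hd : (L.f i).d 3 = 4 := by simp [Fld.d, ht]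
  rw [hd] at h
  obtain ⟨C4, D, hD, h4⟩ := h4
  obtain ⟨B, K, B0, B1, K0, hB⟩ := pun_low P (f := fun n x => ⟪(L.f i).s n x, (L.f i).s n x⟫_ℝ)
    (fun n x => by simpa only [real_inner_self_eq_norm_sq] using Mp86.cm_normSq (ok.sm n x)) (A := 2 * C) (by positivity)
    (by
      filter_upwards [h] with p ⟨a1, a2⟩ a
      have t0 := tau_nonneg (z₀ := z₀) p.2
      have m := (ok.sm p.1 ((κ p.1).symm p.2)).mdifferentiableAt (by simp)
      rw [Mp86.dv_inner_cd (A := (L.f i).A p.1 a) (ok.sk _ _ _) m m, real_inner_comm, ← two_mul,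
        abs_mul, abs_two, mul_assoc]
      refine mul_le_mul_of_nonneg_left ((abs_real_inner_le_norm _ _).trans
        (abs_le_of_sq_le_sq' ?_ (by positivity)).2) zero_le_two
      rw [mul_pow]
      refine (mul_le_mul a1 (a2 a) (sq_nonneg _) (by positivity)).trans_eq (by ring)) C
  refine ⟨4 * (2 * B) ^ 4 * K * C4, by positivity, ?_⟩
  filter_upwards [hB, h, ev_B.1 (P.bl.sub D hD), pF_small one_pos] with p h1 h2 h5 h3
  have tm := tau_mul h3.1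
  have t1 := one_le_tau h3
  simp only [real_inner_self_eq_norm_sq] at h1
  set τ := tau z₀ p.2
  set ρ := ‖p.2 - z₀‖ / 2 with hρ
  set m := ‖(L.f i).s p.1 ((κ p.1).symm p.2)‖ ^ 2 with hm
  have τ0 : 0 < τ := by linarith
  have m1 : 0 ≤ m := sq_nonneg _
  rcases m1.eq_or_lt with m0 | m0
  · rw [← m0, zero_pow (by norm_num)]; positivity
  have := (h1 (m / (2 * B * τ ^ 5)) (by positivity) (by
      rw [div_le_iff₀ (by positivity)]
      have e : ρ * (2 * B * τ ^ 5) = 2 * B * τ ^ 4 * (τ * ρ) := by ring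
      rw [e, tm]
      nlinarith [h2.1, mul_le_mul_of_nonneg_right B1 (by positivity : 0 ≤ τ ^ 4)])
    (fun x => ‖(L.f i).s p.1 x‖ₑ ^ 4) (ENNReal.ofReal ((m / 2) ^ 2)) (Sigma.mk p.1 ⁻¹' D)
    (by rintro _ ⟨y, hy, rfl⟩; exact h5 y hy) fun x _ hx => by
      have e : B * τ ^ 5 * (m / (2 * B * τ ^ 5)) = m / 2 := by field_simp
      rw [e] at hx
      rw [← ofReal_norm, ← ENNReal.ofReal_pow (norm_nonneg _),
        show 4 = 2 * 2 from rfl, pow_mul]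
      exact ENNReal.ofReal_le_ofReal (pow_le_pow_left₀ (by positivity) (by linarith) 2)).trans
      (h4 p.1)
  rw [← ENNReal.ofReal_mul (by positivity), ← ENNReal.ofReal_coe_nnreal] at this
  have h6 : _ ≤ (C4 : ℝ) := (ENNReal.ofReal_le_ofReal_iff C4.2).1 this
  have e : (m / 2) ^ 2 * ((m / (2 * B * τ ^ 5)) ^ 4 / K) =
      m ^ 6 / (4 * (2 * B) ^ 4 * K * τ ^ 20) := by field_simp; norm_num
  rw [e, div_le_iff₀ (by positivity)] at h6
  exact h6.trans_eq (by ring)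

theorem rp_pow {q : ℝ} (h : 0 < q) (k : ℕ) : (q ^ (-(1 / 12) : ℝ)) ^ k = q ^ (-(k / 12) : ℝ) := by
  rw [← Real.rpow_natCast, ← Real.rpow_mul h.le]; congr 1; ring

/-- comparison of `tau` with powers of `Q` -/
theorem tau_Q {Q : E' → ℝ} {K : ℝ} (K0 : 0 < K)
    (hQ : ∀ z, ‖z - z₀‖ ^ 2 ≤ K * Q z ∧ Q z ≤ K * ‖z - z₀‖ ^ 2) :
    ∀ᶠ p in pF l z₀, 0 < Q p.2 ∧ 1 ≤ Q p.2 ^ (-(1 / 12) : ℝ) ∧ tau z₀ p.2 ^ 2 * Q p.2 ≤ 4 * K ∧
      tau z₀ p.2 ≤ (1 + 4 * K) * (Q p.2 ^ (-(1 / 12) : ℝ)) ^ 6 := by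
  filter_upwards [pF_small (δ := √(1 / K)) (by positivity)] with p h
  have q0 : 0 < Q p.2 := by
    by_contra! hn
    nlinarith [(hQ p.2).1, pow_pos h.1 2]
  have q1 : Q p.2 ≤ 1 := (hQ p.2).2.trans (by
    rw [mul_comm, ← le_div_iff₀ K0]
    exact (Real.le_sqrt (norm_nonneg _) (by positivity)).1 h.2)
  have tm := tau_mul h.1
  have t2 : tau z₀ p.2 ^ 2 * Q p.2 ≤ 4 * K := by
    calc _ ≤ tau z₀ p.2 ^ 2 * (K * ‖p.2 - z₀‖ ^ 2) := by gcongr; exact (hQ p.2).2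
      _ = 4 * K * (tau z₀ p.2 * (‖p.2 - z₀‖ / 2)) ^ 2 := by ring
      _ = _ := by rw [tm]; ring
  refine ⟨q0, Real.one_le_rpow_of_pos_of_le_one_of_nonpos q0 q1 (by norm_num), t2,
    (abs_le_of_sq_le_sq' ?_ (by positivity)).2⟩
  rw [mul_pow, ← pow_mul, rp_pow q0, show (-(((6 * 2 : ℕ) : ℝ) / 12)) = -1 by norm_num,
    Real.rpow_neg_one, ← div_eq_mul_inv, le_div_iff₀ q0]
  nlinarith

theorem root {x C τ A ϑ : ℝ} {k j m : ℕ} (hk : k ≠ 0) (h : x ^ k ≤ C * τ ^ j) (C0 : 0 ≤ C) (τ0 : 0 ≤ τ)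
    (A0 : 0 ≤ A) (hτ : τ ≤ A * ϑ ^ 6) (ϑ1 : 1 ≤ ϑ) (e : 6 * j ≤ m * k) : x ≤ (C * A ^ j + 1) * ϑ ^ m := by
  have u : 1 ≤ C * A ^ j + 1 := le_add_of_nonneg_left (by positivity)
  refine le_of_pow_le_pow_left₀ hk (by positivity) (h.trans ?_)
  calc _ ≤ C * (A * ϑ ^ 6) ^ j := by gcongr
    _ = C * A ^ j * ϑ ^ (6 * j) := by rw [mul_pow, ← pow_mul, mul_assoc]
    _ ≤ (C * A ^ j + 1) ^ k * ϑ ^ (m * k) := by
        gcongr
        exact (le_add_of_nonneg_right zero_le_one).trans (le_self_pow₀ u hk)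
    _ = _ := by rw [mul_pow, ← pow_mul]

theorem hb_arith {τ ϑ A C C₁ G ν h D k L g : ℝ} (τ0 : 0 ≤ τ) (ϑ1 : 1 ≤ ϑ) (A0 : 0 ≤ A) (C0 : 0 ≤ C)
    (C1 : 0 ≤ C₁) (G0 : 0 ≤ G) (ν0 : 0 ≤ ν) (hτ : τ ≤ A * ϑ ^ 6) (hν : ν ≤ C + C₁ * ϑ ^ 16)
    (hl : ϑ ^ 23 ≤ h) (hD : D = A ^ 5 * (C + C₁) + (C + C₁) ^ 2 + A ^ 3 + 2)
    (a3 : 2 * G - C * √h * (h + √G + τ ^ 3 + √(τ ^ 5 * ν)) ≤ L)
    (a4 : g ≤ 4 * k * h * G + C * h * (h + τ ^ 3 + ν ^ 2)) :
    ∃ G W : ℝ, 0 ≤ G ∧ W ^ 2 ≤ (C * D + C ^ 2) * (1 + √h) ∧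
      2 * G - (C * D + C ^ 2) * √h * (ϑ ^ 23 + √h + h) - W * √h * √G ≤ L ∧
      g ≤ 4 * k * h * G + (C * D + C ^ 2) * h * (ϑ ^ 23 + h + h * √h) := by
  have w0 : 0 ≤ ϑ := by linarith
  have h0 : 0 ≤ h := le_trans (by positivity) hl
  have r0 := Real.sqrt_nonneg h
  have n1 : ν ≤ (C + C₁) * ϑ ^ 16 := by nlinarith [one_le_pow₀ (n := 16) ϑ1]
  have t3 : τ ^ 3 ≤ A ^ 3 * ϑ ^ 23 := by
    calc _ ≤ (A * ϑ ^ 6) ^ 3 := by gcongr
      _ = A ^ 3 * ϑ ^ 18 := by ring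
      _ ≤ _ := by gcongr; norm_num
  have t5 : √(τ ^ 5 * ν) ≤ (A ^ 5 * (C + C₁) + 1) * ϑ ^ 23 := by
    refine Real.sqrt_le_iff.2 ⟨by positivity, ?_⟩
    have : 0 ≤ A ^ 5 * (C + C₁) := by positivity
    calc _ ≤ (A * ϑ ^ 6) ^ 5 * ((C + C₁) * ϑ ^ 16) := by gcongr
      _ = A ^ 5 * (C + C₁) * (ϑ ^ 23) ^ 2 := by ring
      _ ≤ (A ^ 5 * (C + C₁) + 1) ^ 2 * (ϑ ^ 23) ^ 2 := by gcongr; nlinarith
      _ = _ := by ring
  have n2 : ν ^ 2 ≤ (C + C₁) ^ 2 * (h * √h) := by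
    have : ϑ ^ 9 ≤ √h := Real.le_sqrt_of_sq_le (le_trans (by
      rw [← pow_mul]; exact pow_le_pow_right₀ ϑ1 (by norm_num)) hl)
    calc _ ≤ ((C + C₁) * ϑ ^ 16) ^ 2 := by gcongr
      _ = (C + C₁) ^ 2 * (ϑ ^ 23 * ϑ ^ 9) := by ring
      _ ≤ _ := by gcongr
  have p1 : 0 ≤ A ^ 5 * (C + C₁) := by positivity
  have p2 := sq_nonneg (C + C₁)
  have p3 := pow_nonneg A0 3
  have p4 := pow_nonneg w0 23
  have p5 := mul_nonneg h0 r0
  have D1 : 1 ≤ D := by linarith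
  have e1 : h + τ ^ 3 + √(τ ^ 5 * ν) ≤ (D + C) * (ϑ ^ 23 + √h + h) := by
    have : (A ^ 3 + (A ^ 5 * (C + C₁) + 1)) * ϑ ^ 23 ≤ (D + C) * ϑ ^ 23 :=
      mul_le_mul_of_nonneg_right (by linarith) p4
    nlinarith [mul_le_mul_of_nonneg_right (show 1 ≤ D + C by linarith) h0,
      mul_nonneg (show 0 ≤ D + C by linarith) r0]
  have e2 : h + τ ^ 3 + ν ^ 2 ≤ (D + C) * (ϑ ^ 23 + h + h * √h) := by
    have c1 : A ^ 3 * ϑ ^ 23 ≤ (D + C) * ϑ ^ 23 := by gcongr; linarith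
    have c2 : (C + C₁) ^ 2 * (h * √h) ≤ (D + C) * (h * √h) := by gcongr; linarith
    nlinarith [mul_le_mul_of_nonneg_right (show 1 ≤ D + C by linarith) h0]
  refine ⟨G, C, G0, ?_, le_trans ?_ a3, a4.trans ?_⟩
  · nlinarith [mul_nonneg C0 (zero_le_one.trans D1), mul_nonneg (add_nonneg
      (mul_nonneg C0 (zero_le_one.trans D1)) (sq_nonneg C)) r0]
  · linarith [mul_le_mul_of_nonneg_left e1 (mul_nonneg C0 r0)]
  · linarith [mul_le_mul_of_nonneg_left e2 (mul_nonneg C0 h0)]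

variable [CompleteSpace E] [∀ n, BoundarylessManifold I (X n)] [FiniteDimensional ℝ E']

/-- derivatives of bounded sections -/
theorem step5 (P : Pun b L κ l z₀) (hE : Eps b L κ (gB l z₀)) (i : L.κ) : ∃ C, 0 ≤ C ∧
    ∀ᶠ p in pF l z₀, (L.f i).t = true →
      (‖(L.f i).s p.1 ((κ p.1).symm p.2)‖ ^ 2) ^ 3 ≤ C * tau z₀ p.2 ^ 8 := by
  have ok := P.cons.ok i
  rcases ok.kind with ⟨ht, -⟩ | ⟨ht, w, a, sw, ⟨W, hW⟩, hk⟩
  · exact ⟨0, le_rfl, .of_forall fun p h => by simp [ht] at h⟩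
  have := FiniteDimensional.proper_real E'
  obtain ⟨φ, B, hφ⟩ := Shi84.exists_bmp E'
  obtain ⟨K, K0, hK⟩ := P.bl.ch
  obtain ⟨C, C0, h⟩ := step3 P hE i
  rw [show (L.f i).d 3 = 3 by simp [Fld.d, ht]] at h
  have B0 := hφ.nn
  refine ⟨_, ?_, ((ev_B.1 hK).and ((pF_ball h).and ((pF_ball ((ev_F P).1 hW)).and
    (pF_small one_pos)))).mono fun p ⟨h1, h2, h3, h4⟩ _ => hk p.1 ▸ Th31.interp (C := 32 * C) h1.2.2 K0
      (b.frm _).se hφ h1.2.1 (ok.sA _) (ok.sk _) (sw _) a (one_le_tau h4) (tau_mul h4.1)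
      (by positivity) h3 (fun y hy => hk p.1 ▸ (h2 y hy).1.trans ?_)
      fun y hy a' => hk p.1 ▸ ((h2 y hy).2 a').trans ?_⟩
  · positivity
  · have := mul_le_mul_of_nonneg_left (pow_le_pow_left₀ (tau_nonneg y) (tau_ball h4.1 hy) 3) C0
    nlinarith [mul_nonneg C0 (pow_nonneg (tau_nonneg (z₀ := z₀) p.2) 3)]
  · exact (mul_le_mul_of_nonneg_left (pow_le_pow_left₀ (tau_nonneg y) (tau_ball h4.1 hy) 5)
      C0).trans_eq (by ring)

/-- **DEC** from the scalar inequalities -/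
theorem dec_of (J : Ine b L) (P : Pun b L κ l z₀) (hB : Bern b L κ (gB l z₀))
    (hE : Eps b L κ (gB l z₀)) : b.JB L := by
  obtain ⟨Q, K, K0, hQ, hA⟩ := pun_ann P
  have tq := tau_Q (l := l) K0 hQ
  have A0 : 0 ≤ 1 + 4 * K := by positivity
  -- derivatives of bounded sections
  have ft : ∃ C, 0 ≤ C ∧ ∀ᶠ p in pF l z₀, tau z₀ p.2 ^ 2 +
      fs L true p.1 ((κ p.1).symm p.2) ≤ C * (Q p.2 ^ (-(1 / 12) : ℝ)) ^ 16 := by
    choose C C0 hC using step5 P hE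
    have c0 : ∀ i, 0 ≤ C i * (1 + 4 * K) ^ 8 + 1 := fun i => by have := C0 i; positivity
    refine ⟨_, add_nonneg (by positivity) (Finset.sum_nonneg fun i _ => c0 i),
      ((eventually_all.2 hC).and tq).mono fun p ⟨h1, q⟩ => (add_le_add (root (k := 1) (j := 2) (C := 1)
        one_ne_zero (by simp) zero_le_one (tau_nonneg _) A0 q.2.2.2 q.2.1 (by norm_num))
        (Th31.fs_le c0 (pow_nonneg (zero_le_one.trans q.2.1) _) fun i hi => root (by norm_num) (h1 i hi)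
          (C0 i) (tau_nonneg _) A0 q.2.2.2 q.2.1 (by norm_num))).trans_eq (add_mul ..).symm⟩
  -- the energy density
  have en : ∃ C, 0 ≤ C ∧ ∀ᶠ p in pF l z₀,
      b.en p.1 ((κ p.1).symm p.2) + tau z₀ p.2 ^ 3 ≤ C * (Q p.2 ^ (-(1 / 12) : ℝ)) ^ 23 := by
    obtain ⟨h, k, C, sh, h0, k0, k1, C0, hK⟩ := step1 P hE
    obtain ⟨C₁, C1, h1⟩ := ft
    obtain ⟨D, hD⟩ : ∃ D, D = (1 + 4 * K) ^ 5 * (C + C₁) + (C + C₁) ^ 2 + (1 + 4 * K) ^ 3 + 2 := ⟨_, rfl⟩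
    have D1 : 1 ≤ D := by
      have : 0 ≤ (1 + 4 * K) ^ 5 * (C + C₁) + (C + C₁) ^ 2 + (1 + 4 * K) ^ 3 := by positivity
      linarith
    obtain ⟨ε, ε0, γ, γ0, hb⟩ := annB.{0, 0, 0, 0} (p := 23 / 12)
      (C := C * D + C ^ 2) k0 k1 (by norm_num) (by norm_num) (by positivity)
    obtain ⟨d, hd, h2⟩ := hA ε ε0 γ γ0 _ (hK.and (tq.and (h1.and
      (step2 P sh h0 k1 C0 hK (ε := (ε / (4 * K)) ^ 2) (by positivity)))))
    obtain ⟨K', hK'⟩ := hb d hd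
    refine ⟨C * max K' 0 + (C + 1) * (1 * (1 + 4 * K) ^ 3 + 1), by positivity, ?_⟩
    filter_upwards [h2, tq, hK] with p ⟨S, d', A, m1, m2, m3, m4⟩ q ⟨_, _, _, _, _, _, _, _, _, a6, _⟩
    have := hK' A (sh p.1).continuous.continuousOn (fun x _ => h0 _ x)
      (fun x hx => ?_) (fun x hx hl => ?_) _ m1 (by rw [m2]; exact m3)
    · rw [m2, show (-(23 / 12) : ℝ) = -(((23 : ℕ) : ℝ) / 12) by norm_num, ← rp_pow q.1] at this
      have w0 := pow_nonneg (zero_le_one.trans q.2.1) 23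
      have t3 := root (k := 1) (j := 3) (m := 23) (x := tau z₀ p.2 ^ 3) (C := 1) one_ne_zero (by simp)
        zero_le_one (tau_nonneg _) A0 q.2.2.2 q.2.1 (by norm_num)
      nlinarith [mul_le_mul_of_nonneg_left (this.trans (mul_le_mul_of_nonneg_right (le_max_left K' 0) w0))
        C0.le, mul_le_mul_of_nonneg_left t3 C0.le]
    · obtain ⟨z, ⟨-, ⟨q0, -, q2, -⟩, -, h3⟩, rfl, e2⟩ := m4 x hx
      rw [e2]
      have t0 := tau_nonneg (z₀ := z₀) z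
      have : √(h p.1 ((κ p.1).symm z)) ≤ ε / (4 * K) * tau z₀ z ^ 2 :=
        (Real.sqrt_le_left (by positivity)).2 (h3.trans_eq (by ring))
      calc _ ≤ ε / (4 * K) * tau z₀ z ^ 2 * Q z := by gcongr
        _ = ε / (4 * K) * (tau z₀ z ^ 2 * Q z) := by ring
        _ ≤ ε / (4 * K) * (4 * K) := by gcongr
        _ = ε := by field_simp
    · obtain ⟨z, ⟨⟨G, ν, G0, ν0, -, ν2, -, -, -, -, a3, a4⟩, ⟨q0, q1, -, q3⟩, f1, -⟩, rfl, e2⟩ :=
        m4 x (interior_subset hx)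
      simp only [e2] at hl ⊢
      rw [show (-(23 / 12) : ℝ) = -(((23 : ℕ) : ℝ) / 12) by norm_num, ← rp_pow q0] at hl ⊢
      exact ⟨(sh p.1 _).of_le Mp86.two_le, hb_arith (tau_nonneg z) q1 A0 C0.le C1 G0 ν0 q3
        (ν2.trans (add_le_add_right f1 _)) hl.le hD a3 a4⟩
  -- the other fields
  have fl : ∀ i, ∃ C, 0 ≤ C ∧ ∀ᶠ p in pF l z₀, (L.f i).t = false →
      ‖(L.f i).s p.1 ((κ p.1).symm p.2)‖ ^ 2 ≤ C * (Q p.2 ^ (-(1 / 12) : ℝ)) ^ 23 := by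
    intro i
    rcases (P.cons.ok i).kind with ⟨ht, h | h⟩ | ⟨ht, -⟩
    · obtain ⟨C, C0, hC⟩ := en
      obtain ⟨R, hR⟩ := step0 P hE
      obtain ⟨C₁, C1, h⟩ := h R
      refine ⟨C₁ * C, by positivity, ?_⟩
      filter_upwards [hC, hR, (ev_F P).1 h, pF_small one_pos] with p h1 h2 h3 h4 _
      have := h3 _ (one_le_mu h4) ((b.H_mono ..).trans h2)
      rw [show 6 = 2 * 3 from rfl, mu_pow] at this
      exact this.trans ((mul_le_mul_of_nonneg_left h1 C1.le).trans_eq (mul_assoc ..).symm)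
    · obtain ⟨C, C0, hC⟩ := step4 P hE i ht h
      exact ⟨C * (1 + 4 * K) ^ 20 + 1, by positivity, (hC.and tq).mono fun p ⟨h1, q⟩ _ =>
        root (by norm_num) h1 C0 (tau_nonneg _) A0 q.2.2.2 q.2.1 (by norm_num)⟩
    · exact ⟨0, le_rfl, .of_forall fun p h => by simp [ht] at h⟩
  -- one application of (A)
  have stepA : ∀ (f : ∀ n, X n → ℝ) (a C : ℝ), (∀ n, Continuous (f n)) → (∀ n x, 0 ≤ f n x) → 0 ≤ a →
      a < 2 → 0 ≤ C → (∀ᶠ p in pF l z₀, f p.1 ((κ p.1).symm p.2) ≤ C * Q p.2 ^ (-a) ∧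
        HA I (b.e p.1) 0 C (f p.1) ((κ p.1).symm p.2)) →
      ∃ R, ∀ᶠ p in pF l z₀, f p.1 ((κ p.1).symm p.2) ≤ R := by
    intro f a C cf f0 a0 a2 C0 h
    obtain ⟨ε, ε0, γ, γ0, hb⟩ := annA.{0, 0, 0, 0} a0 a2 C0
    obtain ⟨d, hd, h2⟩ := hA ε ε0 γ γ0 _ h
    obtain ⟨K', hK'⟩ := hb d hd
    refine ⟨K', ?_⟩
    filter_upwards [h2] with p ⟨S, d', A, m1, m2, m3, m4⟩
    refine hK' A (cf p.1).continuousOn (fun x _ => f0 ..)
      (fun x hx => ?_) (fun x hx => ?_) _ m1 (by rw [m2]; exact m3)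
    · obtain ⟨z, h3, rfl, e2⟩ := m4 x hx
      rw [e2]; exact h3.1
    · obtain ⟨z, h3, rfl, -⟩ := m4 x (interior_subset hx)
      exact h3.2
  have main : ∀ r, ∃ R, ∀ᶠ p in pF l z₀, b.H L 3 1 r p.1 ((κ p.1).symm p.2) ≤ R := by
    intro r
    induction r with
    | zero =>
      choose C C0 hC using fl
      obtain ⟨C₁, C1, h1⟩ := ft
      obtain ⟨f, cf, f0, f1, f2, K3, K30, h3⟩ := Th31.e3 P.cons
      have s0 : 0 ≤ ∑ i, C i := Finset.sum_nonneg fun i _ => C0 i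
      obtain ⟨D, hD⟩ : ∃ D, D = 8 * ((1 + ∑ i, C i) ^ 3 + C₁ ^ 4) + 1 := ⟨_, rfl⟩
      have D1 : 1 ≤ D := hD ▸ le_add_of_nonneg_left (by positivity)
      obtain ⟨R, hR⟩ := stepA f (23 / 12) (D + K3) cf f0 (by norm_num) (by norm_num) (by positivity) (by
        filter_upwards [eventually_all.2 hC, (ev_F P).1 h3, tq, h1] with p h1 h2 q h4
        refine ⟨?_, h2.sm, h2.ex.imp fun G ⟨W, a1, a2, a3, a4⟩ =>
          ⟨|W|, a1, by rwa [sq_abs], le_trans ?_ a3, a4⟩⟩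
        · rw [show (-(23 / 12) : ℝ) = -(((23 : ℕ) : ℝ) / 12) by norm_num, ← rp_pow q.1]
          have w1 := q.2.1
          have c1 := Th31.fs_le C0 (pow_nonneg (zero_le_one.trans w1) 23) h1
          have c2 := Th31.fs_nonneg (L := L) false p.1 ((κ p.1).symm p.2)
          have c3 := Th31.fs_nonneg (L := L) true p.1 ((κ p.1).symm p.2)
          replace h4 := le_trans (le_add_of_nonneg_left (sq_nonneg _)) h4
          generalize Q p.2 ^ (-(1 / 12) : ℝ) = ϑ at *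
          refine le_of_pow_le_pow_left₀ (n := 3) (by norm_num) (by positivity) ((f2 _ _).trans ?_)
          have c4 : 1 + fs L false p.1 ((κ p.1).symm p.2) ≤ (1 + ∑ i, C i) * ϑ ^ 23 := by
            linarith [one_le_pow₀ (n := 23) w1]
          calc _ ≤ 8 * (((1 + ∑ i, C i) * ϑ ^ 23) ^ 3 + (C₁ * ϑ ^ 16) ^ 4) := by gcongr
            _ = 8 * ((1 + ∑ i, C i) ^ 3 * ϑ ^ 69 + C₁ ^ 4 * ϑ ^ 64) := by ring
            _ ≤ 8 * ((1 + ∑ i, C i) ^ 3 * ϑ ^ 69 + C₁ ^ 4 * ϑ ^ 69) := by gcongr; norm_num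
            _ = (D - 1) * ϑ ^ 69 := by rw [hD]; ring
            _ ≤ (D + K3) ^ 3 * ϑ ^ 69 := by
                gcongr; linarith [le_self_pow₀ (show 1 ≤ D + K3 by linarith) (n := 3) (by norm_num)]
            _ = _ := by ring
        · refine sub_le_sub_left (le_trans (b := K3 * (1 + √(f p.1 ((κ p.1).symm p.2))) *
            ((1 + √(f p.1 ((κ p.1).symm p.2))) ^ 2 + |W| * √G)) ?_ ?_) _ <;> gcongr
          exacts [le_abs_self _, by linarith])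
      exact ⟨2 * R, hR.mono fun p hp => (f1 _ _).trans (by linarith)⟩
    | succ r ih =>
      obtain ⟨R, hR⟩ := ih
      obtain ⟨C, hC⟩ := hB r R
      obtain ⟨K2, h2⟩ := J.e2 r R
      refine stepA _ 1 (|C| * (4 * K) + |K2|) (fun n => (J.sm (r + 1) n).continuous)
        (fun _ _ => b.H_nonneg ..) zero_le_one one_lt_two (by positivity) ?_
      filter_upwards [ev_B.1 hC, pF_ball hR, hR, (ev_F P).1 h2, tq, pF_small one_pos]
        with p h1 h3 h4 h5 q h6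
      have n1 := b.H_nonneg L 3 1 (r + 1) p.1 ((κ p.1).symm p.2)
      refine ⟨?_, (J.sm _ p.1 _).of_le Mp86.two_le, _, 1,
        b.H_nonneg L 3 1 (r + 2) p.1 ((κ p.1).symm p.2), by simp, le_trans ?_ (h5 h4), (J.e4 _ _ _).trans ?_⟩
      · have a1 := (h1 h3).trans (le_abs_self C)
        have tm := tau_mul h6.1
        rw [Real.rpow_neg_one, ← div_eq_mul_inv, le_div_iff₀ q.1]
        calc _ = (‖p.2 - z₀‖ / 2) ^ 2 * b.H L 3 1 (r + 1) p.1 ((κ p.1).symm p.2) *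
              (tau z₀ p.2 ^ 2 * Q p.2) := by
              linear_combination (-(b.H L 3 1 (r + 1) p.1 ((κ p.1).symm p.2) * Q p.2 *
                (tau z₀ p.2 * (‖p.2 - z₀‖ / 2) + 1))) * tm
          _ ≤ |C| * (4 * K) := mul_le_mul a1 q.2.2.1 (mul_nonneg (sq_nonneg _) q.1.le) (abs_nonneg _)
          _ ≤ _ := le_add_of_nonneg_right (abs_nonneg _)
      · rw [one_mul]
        refine sub_le_sub_left ?_ _
        gcongr
        exact (le_abs_self _).trans (le_add_of_nonneg_left (by positivity))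
      · exact mul_le_mul_of_nonneg_left (sub_le_self _ (b.H_nonneg ..)) (by positivity)
  exact fun r => (main r).imp fun R h => (ev_F P).2 h

theorem ine_of_cons (hc : Cons b L) : Ine b L :=
  ⟨fun r n => hc.sm_H 3 1 r n, fun r n x => by simpa using hc.grad (dw := 3) one_pos r x,
    fun r R => (hc.ine r R).imp fun K h => h.2.mono fun q hq hR => by
      simpa using (hq 1 le_rfl (Or.inl rfl) hR).2⟩

/-- **DEC** -/
theorem dec (P : Pun b L κ l z₀) (hB : Bern b L κ (gB l z₀)) (hE : Eps b L κ (gB l z₀)) :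
    b.JB L := dec_of (ine_of_cons P.cons) P hB hE

end Crest.Agent.X212.Eps63
end
end

-- ▼ part X212/Shi84/Bub
section

/-!
# BUB (helper84): regular points, isolated bubble points, the puncture hypotheses at every point
-/

set_option autoImplicit false
set_option linter.unusedSectionVars false
open Set Filter Topology Metric MeasureTheory
open scoped Manifold ContDiff NNReal InnerProductSpace

noncomputable section

namespace Crest.Agent.X212.Shi84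

open Mp86 Cmp73
open An (Sm)

variable {E : Type} [NormedAddCommGroup E] [NormedSpace ℝ E] {HM : Type} [TopologicalSpace HM]
  {I : ModelWithCorners ℝ E HM} {ι : Type} [Fintype ι]
  {E' : Type} [NormedAddCommGroup E'] [NormedSpace ℝ E']

/-- a spanning family is a Parseval frame for a Euclidean structure -/
theorem exists_parseval [FiniteDimensional ℝ E'] {v : ι → E'} (hv : ∀ w, ∃ θ : ι → ℝ, ∑ a, θ a • v a = w) :
    ∃ (R : E' →L[ℝ] EuclideanSpace ℝ ι) (K : ℝ), (∀ w, ‖w‖ ^ 2 ≤ K * ‖R w‖ ^ 2 ∧ ‖R w‖ ^ 2 ≤ K * ‖w‖ ^ 2) ∧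
      (∀ w, ∑ a, ⟪R w, R (v a)⟫_ℝ ^ 2 = ‖R w‖ ^ 2) ∧ ∑ a, ‖R (v a)‖ ^ 2 = Module.finrank ℝ E' := by
  classical
  let β := EuclideanSpace.basisFun ι ℝ
  let T : EuclideanSpace ℝ ι →ₗ[ℝ] E' := β.toBasis.constr ℝ v
  have Tb : ∀ a, T (β a) = v a := fun a => β.toBasis.constr_basis ℝ v a
  obtain ⟨R₀, h0⟩ := T.exists_rightInverse_of_surjective (LinearMap.range_eq_top.2 fun w =>
    let ⟨θ, hθ⟩ := hv w; ⟨∑ a, θ a • β a, by simp only [map_sum, map_smul, Tb, hθ]⟩)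
  have h1 : ∀ w, T (R₀ w) = w := fun w => LinearMap.congr_fun h0 w
  let P := (LinearMap.ker T)ᗮ.starProjection
  have k0 : ∀ θ ∈ LinearMap.ker T, P θ = 0 := fun θ hθ =>
    (Submodule.starProjection_apply_eq_zero_iff _).2 (Submodule.le_orthogonal_orthogonal _ hθ)
  have TP : ∀ θ, T (P θ) = T θ := fun θ => by
    have := (LinearMap.ker T)ᗮ.sub_starProjection_mem_orthogonal θ
    rw [Submodule.orthogonal_orthogonal, LinearMap.mem_ker, map_sub] at this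
    exact (sub_eq_zero.1 this).symm
  let R : E' →ₗ[ℝ] EuclideanSpace ℝ ι := P.toLinearMap ∘ₗ R₀
  have RT : ∀ θ, R (T θ) = P θ := fun θ => sub_eq_zero.1 (by
    change P _ - P _ = 0
    rw [← map_sub]; exact k0 _ (by rw [LinearMap.mem_ker, map_sub, h1, sub_self]))
  have TR : ∀ w, T (R w) = w := fun w => (TP _).trans (h1 w)
  have PP : ∀ θ η, ⟪P θ, P η⟫_ℝ = ⟪P θ, η⟫_ℝ := fun θ η => by
    rw [← Submodule.inner_starProjection_left_eq_right, Submodule.starProjection_eq_self_iff.2 (Submodule.starProjection_apply_mem _ _)]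
  refine ⟨R.toContinuousLinearMap, ‖T.toContinuousLinearMap‖ ^ 2 + ‖R.toContinuousLinearMap‖ ^ 2,
    fun w => ⟨?_, ?_⟩, fun w => ?_, ?_⟩
  · have := pow_le_pow_left₀ (norm_nonneg _) (T.toContinuousLinearMap.le_opNorm (R w)) 2
    rw [LinearMap.coe_toContinuousLinearMap', TR] at this
    rw [LinearMap.coe_toContinuousLinearMap']
    nlinarith [sq_nonneg (‖R.toContinuousLinearMap‖ * ‖R w‖)]
  · have := pow_le_pow_left₀ (norm_nonneg _) (R.toContinuousLinearMap.le_opNorm w) 2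
    nlinarith [sq_nonneg (‖T.toContinuousLinearMap‖ * ‖w‖)]
  · simp only [LinearMap.coe_toContinuousLinearMap', ← Tb, RT]
    rw [← β.sum_sq_inner_left]
    exact Finset.sum_congr rfl fun a _ => congrArg (· ^ 2) (PP _ _)
  · have t1 := LinearMap.trace_comp_comm' T R
    rw [show T ∘ₗ R = LinearMap.id from LinearMap.ext TR, LinearMap.trace_id, LinearMap.trace_eq_sum_inner _ β] at t1
    rw [← t1]
    refine Finset.sum_congr rfl fun a _ => ?_
    rw [LinearMap.coe_toContinuousLinearMap', ← Tb, LinearMap.comp_apply R T, RT, ← real_inner_self_eq_norm_sq, PP,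
      real_inner_comm]

section one
variable {N : Type} [TopologicalSpace N] [ChartedSpace HM N] [IsManifold I ∞ N] [MeasurableSpace N]
  {e : ι → (x : N) → TangentSpace I x} {μ : Measure N} {κ : OpenPartialHomeomorph N E'} {T T' : Set E'}
  {K : ℝ} {y : E'} {V : Type} [NormedAddCommGroup V] [InnerProductSpace ℝ V]

theorem ch_mono (h : Ch I e μ κ T K) (hT : T' ⊆ T) : Ch I e μ κ T' K :=
  ⟨hT.trans h.tgt, h.sm, h.sm', fun z hz => h.d1 z (hT hz), fun z hz => h.d2 z (hT hz),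
    fun z hz => h.sp z (hT hz), fun z s s0 hs => h.vol z s s0 (hs.trans hT)⟩

theorem Q_pt (h : Ch I e μ κ T K) (he : SmV I e) (hy : y ∈ T) (R : E' →L[ℝ] V) (z : E') :
    (∀ a, dv I (e a) (fun x => ‖R (κ x - z)‖ ^ 2) (κ.symm y) = 2 * ⟪R (y - z), R (dv I (e a) κ (κ.symm y))⟫_ℝ) ∧
    Lop I e 0 (fun x => ‖R (κ x - z)‖ ^ 2) (κ.symm y) =
      2 * ⟪R (∑ a, dv I (e a) (dv I (e a) κ) (κ.symm y)), R (y - z)⟫_ℝ +
        2 * ∑ a, ‖R (dv I (e a) κ (κ.symm y))‖ ^ 2 := by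
  have c := ch_cm h hy
  have c1 : CM I 2 (fun x => R (κ x - z)) (κ.symm y) := R.contDiff.contDiffAt.comp_contMDiffAt (c.sub contMDiffAt_const)
  have d : ∀ a x, MD I κ x → dv I (e a) (fun x => R (κ x - z)) x = R (dv I (e a) κ x) := fun a x hx => by
    have : MD I (fun x => κ x - z) x := hx.sub mdifferentiableAt_const
    rw [dv_clm R this, dv_sub hx mdifferentiableAt_const, dv_const, sub_zero]
  have d1 := fun a => d a _ (c.md one_le_two)
  refine ⟨fun a => ?_, ?_⟩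
  · have := dv_inner (v := e a) (c1.md one_le_two) (c1.md one_le_two)
    simp only [real_inner_self_eq_norm_sq, d1, κ.right_inv (h.tgt hy)] at this
    rw [this, real_inner_comm, two_mul]
  · have z0 : ∀ v (u : N → V), cd I v 0 u = dv I v u := fun v u => funext fun x => by simp [cd]
    rw [Lop_normSq (A := 0) (fun a => vf1 he a _) (fun _ => contMDiffAt_const) (fun _ => .of_forall fun _ => by simp) c1]
    simp only [LA, Pi.zero_apply, z0, zero_smul, add_zero, d1, κ.right_inv (h.tgt hy), map_sum]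
    congr 3
    refine Finset.sum_congr rfl fun a _ => ?_
    rw [dv_congr ((c.ev_md one_le_two).mono (d a)), dv_clm R (md_dv c (vf1 he a _))]

end one

variable {α : Type} {X : α → Type} [∀ n, TopologicalSpace (X n)] [∀ n, ChartedSpace HM (X n)]
  [∀ n, IsManifold I ∞ (X n)] [∀ n, MeasurableSpace (X n)] {b : Fb I ι X} {L : Sy ι X}
  {κ : ∀ n, OpenPartialHomeomorph (X n) E'} {l : Filter α} {z : E'} {F : Filter (Σ n, X n)}

theorem ok_wf {f : Fld ι X} (h : f.O3 b L) (hF : F ≤ b.F) : f.O3 (b.wf F) L :=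
  ⟨h.sA, h.sm, h.sk, fun a a' => let ⟨R, k1, k2⟩ := h.crv a a'
      ⟨R, k1.up rfl hF fun _ _ _ => le_rfl, k2⟩,
    let ⟨ϖ, k1, k2, k3⟩ := h.lap; ⟨ϖ, k1, k2, k3.up rfl hF fun _ _ _ => le_rfl⟩,
    h.kind.imp (And.imp_right (Or.imp (fun k R => let ⟨C, C0, k1⟩ := k R; ⟨C, C0, k1.filter_mono hF⟩)
      fun ⟨C, D, hD, k⟩ => ⟨C, D, hF hD, k⟩))
      (And.imp_right fun ⟨w, a, k1, ⟨C, k2⟩, k3⟩ => ⟨w, a, k1, ⟨C, k2.filter_mono hF⟩, k3⟩)⟩

theorem cons_wf (h : Cons b L) (hF : F ≤ b.F) : Cons (b.wf F) L :=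
  ⟨fun a a' k => (h.c a a' k).up rfl hF fun _ _ _ => le_rfl, fun i => ok_wf (h.ok i) hF⟩

theorem kat_wf (h : Kat b L) (hF : F ≤ b.F) : Kat (b.wf F) L :=
  let ⟨h0, f, h1, h2, k, k1, G, G0, h3⟩ := h
  ⟨h0, f, h1, h2, k, k1, G, G0, fun R => let ⟨C, hC⟩ := h3 R; ⟨C, hC.filter_mono hF⟩⟩

variable (κ l z) in
/-- the points of `X n` near the point with coordinate `z` -/
def lF : Filter (Σ n, X n) := (l ×ˢ 𝓝 z).map fun p => ⟨p.1, (κ p.1).symm p.2⟩

variable (l z) in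
/-- small balls near `z` -/
def lB : Filter (α × E' × ℝ) := l ×ˢ 𝓝 z ×ˢ 𝓝[>] 0

variable (b κ l z) in
/-- uniform charts near `z` -/
def ChAt : Prop := ∃ K δ, 0 < K ∧ 0 < δ ∧ ∀ᶠ n in l, Ch I (b.e n) (b.μ n) (κ n) (closedBall z δ) K

variable (b κ l z) in
/-- the local hypotheses at `z` -/
structure Loc : Prop where
  le : lF κ l z ≤ b.F
  ch : ChAt b κ l z
  en : ∃ δ > 0, ∃ C : ℝ≥0, ∀ᶠ n in l, b.eb κ (n, z, δ) ≤ C

/-- closed annuli -/
def ann (z : E') (s t : ℝ) : Set E' := {y | s ≤ ‖y - z‖ ∧ ‖y - z‖ ≤ t}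

theorem ann_mono {s t s' t' : ℝ} (hs : s' ≤ s) (ht : t ≤ t') : ann z s t ⊆ ann z s' t' :=
  fun _ hy => ⟨hs.trans hy.1, hy.2.trans ht⟩

theorem ann_sub {s t : ℝ} : ann z s t ⊆ closedBall z t := fun _ hy => mem_closedBall_iff_norm.2 hy.2

theorem ball_ann {y : E'} {s t : ℝ} (hs : 2 * s ≤ ‖y - z‖) (ht : 2 * ‖y - z‖ ≤ t) :
    closedBall y (‖y - z‖ / 2) ⊆ ann z s t := fun _ hu =>
  ⟨by have := (Eps63.ball_cmp hu).1; linarith, (Eps63.ball_cmp hu).2.trans ht⟩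

variable (b κ l z) in
/-- the local hypotheses at a puncture `z` -/
structure PLoc : Prop where
  le : gF κ l z ≤ b.F
  ch : ∃ K δ, 0 < K ∧ 0 < δ ∧ ∀ δ' > 0, ∀ᶠ n in l, Ch I (b.e n) (b.μ n) (κ n) (ann z δ' δ) K
  fr : ∃ v : ι → E', (∀ w, ∃ θ : ι → ℝ, ∑ a, θ a • v a = w) ∧
    ∀ a, Tendsto (fun p : α × E' => dv I (b.e p.1 a) (κ p.1) ((κ p.1).symm p.2)) (pF l z) (𝓝 (v a))
  en : ∃ δ > 0, ∃ C : ℝ≥0, ∀ δ' > 0, ∀ᶠ n in l,
    ∫⁻ x in (κ n).symm '' ann z δ' δ, ENNReal.ofReal (b.en n x) ∂b.μ n ≤ C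

theorem pF_le : pF l z ≤ l ×ˢ 𝓝 z := fun D hD => by
  obtain ⟨A, hA, B, hB, h⟩ := mem_prod_iff.1 hD
  obtain ⟨δ, δ0, hδ⟩ := nhds_basis_closedBall.mem_iff.1 hB
  exact ⟨δ, δ0, fun _ _ => mem_of_superset hA fun n hn y _ hy => h ⟨hn, hδ (mem_closedBall_iff_norm.2 hy)⟩⟩

theorem gF_le : gF κ l z ≤ lF κ l z := map_mono pF_le

theorem ev_lB {P : α × E' → Prop} (h : ∀ᶠ p in l ×ˢ 𝓝 z, P p) :
    ∀ᶠ p in lB l z, ∀ y ∈ closedBall p.2.1 p.2.2, P (p.1, y) := by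
  obtain ⟨A, hA, B, hB, h⟩ := mem_prod_iff.1 h
  obtain ⟨δ, δ0, hδ⟩ := nhds_basis_closedBall.mem_iff.1 hB
  refine mem_of_superset (prod_mem_prod hA (prod_mem_prod (closedBall_mem_nhds z (half_pos δ0))
    (Ioc_mem_nhdsGT (half_pos δ0)))) fun p hp y hy => h ⟨hp.1, hδ (closedBall_subset_closedBall' ?_ hy)⟩
  have := mem_closedBall.1 hp.2.1; have := hp.2.2.2; linarith

theorem of_lB {P : α × E' × ℝ → Prop} (h : ∀ᶠ p in lB l z, P p) :
    ∃ δ > 0, ∀ᶠ n in l, ∀ y ∈ ball z δ, ∀ ρ, 0 < ρ → ρ < δ → P (n, y, ρ) := by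
  obtain ⟨A, hA, B, hB, h⟩ := mem_prod_iff.1 h
  obtain ⟨B, hB, D, hD, h'⟩ := mem_prod_iff.1 hB
  obtain ⟨δ, δ0, hδ⟩ := Metric.mem_nhds_iff.1 hB
  obtain ⟨γ, γ0, hγ⟩ := (nhdsGT_basis (0 : ℝ)).mem_iff.1 hD
  exact ⟨min δ γ, lt_min δ0 γ0, mem_of_superset hA fun n hn y hy ρ ρ0 ρ1 => h ⟨hn, h'
    ⟨hδ (ball_subset_ball (min_le_left _ _) hy), hγ ⟨ρ0, ρ1.trans_le (min_le_right _ _)⟩⟩⟩⟩

theorem ChAt.near (h : ChAt b κ l z) : ∀ᶠ y in 𝓝 z, ChAt b κ l y := by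
  obtain ⟨K, δ, K0, δ0, h⟩ := h
  exact mem_of_superset (closedBall_mem_nhds z (half_pos δ0)) fun y hy => ⟨K, δ / 2, K0, half_pos δ0,
    h.mono fun n hn => ch_mono hn (closedBall_subset_closedBall' (by have := mem_closedBall.1 hy; linarith))⟩

theorem bl_lB (hF : lF κ l z ≤ b.F) (h : ChAt b κ l z) : Bl b κ (lB l z) := by
  obtain ⟨K, δ, K0, δ0, h⟩ := h
  refine ⟨fun D hD => ev_lB (P := fun p => (⟨p.1, (κ p.1).symm p.2⟩ : Σ n, X n) ∈ D) (hF hD), K, K0, ?_⟩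
  filter_upwards [ev_lB (h.prod_mk (closedBall_mem_nhds z δ0)), h.prod_inl _,
    ((show ∀ᶠ ρ in 𝓝[>] (0 : ℝ), ρ ∈ Ioc 0 1 from Ioc_mem_nhdsGT one_pos).prod_inr _).prod_inr _] with p h1 h2 h3
  exact ⟨h3.1, h3.2, ch_mono h2 fun y hy => (h1 y hy).2⟩

theorem PLoc.ev (h : PLoc b κ l z) : ∃ K, 0 < K ∧ ∀ᶠ p in pF l z,
    Ch I (b.e p.1) (b.μ p.1) (κ p.1) (closedBall p.2 (‖p.2 - z‖ / 2)) K := by
  obtain ⟨K, δ, K0, δ0, h⟩ := h.ch
  exact ⟨K, K0, Eps63.ev_pF.2 ⟨δ / 2, half_pos δ0, fun δ' h0 => (h _ (half_pos h0)).mono fun n hn y y1 y2 =>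
    ch_mono hn (ball_ann (by linarith) (by linarith))⟩⟩

theorem PLoc.near (h : PLoc b κ l z) : ∀ᶠ y in 𝓝[≠] z, ChAt b κ l y := by
  obtain ⟨K, K0, δ, δ0, h⟩ := h.ev
  filter_upwards [nhdsWithin_le_nhds (closedBall_mem_nhds z δ0), self_mem_nhdsWithin] with y hy h0
  have y0 : 0 < ‖y - z‖ := norm_pos_iff.2 (sub_ne_zero.2 h0)
  exact ⟨K, _, K0, half_pos y0, mem_of_superset (h _ y0) fun n hn => hn y le_rfl (mem_closedBall_iff_norm.1 hy)⟩

theorem bl_gB (h : PLoc b κ l z) : Bl (b.wf (gF κ l z)) κ (gB l z) := by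
  obtain ⟨K, K0, h⟩ := h.ev
  refine ⟨fun D hD => Eps63.pF_ball (P := fun p => (⟨p.1, (κ p.1).symm p.2⟩ : Σ n, X n) ∈ D) hD, K, K0,
    Eps63.ev_B.2 ?_⟩
  filter_upwards [h, Eps63.pF_small one_pos] with p h2 h3
  exact ⟨half_pos h3.1, by linarith [h3.2, h3.1], h2⟩

theorem eb_mono {n : α} {y y' : E'} {ρ ρ' : ℝ} (h : closedBall y ρ ⊆ closedBall y' ρ') :
    b.eb κ (n, y, ρ) ≤ b.eb κ (n, y', ρ') := lintegral_mono_set (image_mono h)

theorem H_scale {σ : ℝ} (σ0 : 0 < σ) (σ1 : σ ≤ 1) (n : α) (x : X n) :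
    σ ^ 4 * b.H L 3 1 0 n x ≤ b.H L 3 (√σ)⁻¹ 0 n x := by
  simp only [Fb.H, sq_mu σ0, one_pow, inv_one, one_mul, Finset.mul_sum, hs]
  exact Finset.sum_le_sum fun i _ => mul_le_mul_of_nonneg_right
    (pow_le_pow_of_le_one σ0.le σ1 (by unfold Fld.d; split <;> omega)) (sq_nonneg _)

section en
variable [∀ n, OpensMeasurableSpace (X n)]

/-- no energy between the scales -/
theorem en_gB {U : Ultrafilter α} (h : PLoc b κ U z) (ε : ℝ≥0) (ε0 : 0 < ε) : ∀ᶠ p in gB U z, b.eb κ p ≤ ε := by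
  obtain ⟨K, δ, -, δ0, hK⟩ := h.ch
  obtain ⟨γ, γ0, C, hC⟩ := h.en
  by_contra hn
  have key : ∀ k : ℕ, ∃ s > 0, s ≤ δ ∧ ∀ δ' > 0, ∀ᶠ n in (U : Filter α),
      k * ε + ∫⁻ x in (κ n).symm '' ann z δ' s, ENNReal.ofReal (b.en n x) ∂b.μ n ≤ C := by
    intro k
    induction k with
    | zero => exact ⟨min δ γ, lt_min δ0 γ0, min_le_left _ _, fun δ' h0 => (hC δ' h0).mono fun n hn => by
        simpa using (lintegral_mono_set (image_mono (ann_mono le_rfl (min_le_right _ _)))).trans hn⟩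
    | succ k ih =>
      obtain ⟨s, s0, s1, hs⟩ := ih
      rw [Eps63.ev_B, Eps63.ev_pF] at hn
      push Not at hn
      obtain ⟨t, t0, ht⟩ := hn (s / 2) (half_pos s0)
      obtain ⟨-, y, y1, y2, -⟩ := ht.exists
      refine ⟨t / 4, by positivity, by linarith, fun δ' h0 => ?_⟩
      have m0 : 0 < min δ' (t / 4) := lt_min h0 (by positivity)
      refine (ht.and ((hs _ m0).and (hK _ m0))).mono fun n ⟨⟨y, y1, y2, y3⟩, h1, h2⟩ => le_trans ?_ h1
      have sy : closedBall y (‖y - z‖ / 2) ⊆ ann z (min δ' (t / 4)) s :=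
        ball_ann (by have := min_le_right δ' (t / 4); linarith) (by linarith)
      have sa : ann z δ' (t / 4) ⊆ ann z (min δ' (t / 4)) s := ann_mono (min_le_left _ _) (by linarith)
      have tg := (ann_mono le_rfl s1).trans h2.tgt
      rw [Nat.cast_succ, add_mul, one_mul, add_assoc, add_comm (ε : ENNReal)]
      refine add_le_add le_rfl (le_trans (add_le_add (lintegral_mono_set (subset_inter (image_mono sa) ?_))
        (y3.le.trans (lintegral_mono_set (subset_sdiff.2 ⟨image_mono sy, disjoint_left.2 ?_⟩))))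
        (lintegral_inter_add_sdiff _ _ ((κ n).isOpen_inter_preimage
          (isOpen_ball (x := z) (ε := t / 3))).measurableSet).le) <;> rintro _ ⟨u, hu, rfl⟩
      · refine ⟨(κ n).map_target (tg (sa hu)), ?_⟩
        rw [mem_preimage, (κ n).right_inv (tg (sa hu)), mem_ball_iff_norm]
        linarith [hu.2]
      · rintro ⟨-, h3⟩
        rw [mem_preimage, (κ n).right_inv (tg (sy hu)), mem_ball_iff_norm] at h3
        linarith [(Eps63.ball_cmp hu).1]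
  obtain ⟨k, hk⟩ := exists_nat_gt (C / ε)
  obtain ⟨s, -, -, hs⟩ := key k
  obtain ⟨n, hn⟩ := (hs 1 one_pos).exists
  have : (k : ℝ≥0) * ε ≤ C := by exact_mod_cast le_self_add.trans hn
  exact absurd ((div_lt_iff₀ ε0).1 hk) (not_lt.2 this)

end en

variable [∀ n, OpensMeasurableSpace (X n)] [CompleteSpace E] [I.Boundaryless] [FiniteDimensional ℝ E']

theorem jb_of0 (hc : Cons b L) (hF : lF κ l z ≤ b.F) (h : ChAt b κ l z) {R : ℝ}
    (h0 : ∀ᶠ q in lF κ l z, b.H L 3 1 0 q.1 q.2 ≤ R) : (b.wf (lF κ l z)).JB L := by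
  intro r
  induction r with
  | zero => exact ⟨R, h0⟩
  | succ r ih =>
    obtain ⟨R, hR⟩ := ih
    obtain ⟨C, hC⟩ := bern hc (bl_lB hF h) r R
    obtain ⟨δ, δ0, hδ⟩ := of_lB (hC.and (ev_lB (P := fun p => b.H L 3 1 r p.1 ((κ p.1).symm p.2) ≤ R) hR))
    refine ⟨C / (δ / 2) ^ 2, (hδ.prod_mk (ball_mem_nhds z δ0)).mono fun p hp => ?_⟩
    have := hp.1 _ hp.2 _ (half_pos δ0) (half_lt_self δ0)
    exact (le_div_iff₀' (by positivity)).2 (this.1 this.2)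

/-- small energy gives bounded jets, uniformly near `z` -/
theorem jb_small (hc : Cons b L) (hF : lF κ l z ≤ b.F) (h : ChAt b κ l z) : ∃ ε : ℝ≥0, 0 < ε ∧ ∀ᶠ y in 𝓝 z,
    lF κ l y ≤ b.F → (∃ ρ > 0, ∀ᶠ n in l, b.eb κ (n, y, ρ) ≤ ε) → (b.wf (lF κ l y)).JB L := by
  obtain ⟨ε, ε0, C, hC⟩ := eps hc (bl_lB hF h)
  obtain ⟨δ, δ0, hδ⟩ := of_lB hC
  refine ⟨ε, ε0, (h.near.and (ball_mem_nhds z δ0)).mono fun y hy hF' ⟨ρ, ρ0, hρ⟩ => ?_⟩
  set σ := min 1 (min (ρ / 2) (δ / 2))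
  have σ0 : 0 < σ := lt_min one_pos (lt_min (half_pos ρ0) (half_pos δ0))
  have σ1 : σ ≤ ρ / 2 := (min_le_right _ _).trans (min_le_left _ _)
  have σ2 : σ ≤ δ / 2 := (min_le_right _ _).trans (min_le_right _ _)
  refine jb_of0 hc hF' hy.1 (R := C / σ ^ 4) (((hδ.and hρ).prod_mk
    (inter_mem (isOpen_ball.mem_nhds hy.2) (closedBall_mem_nhds y σ0))).mono fun p hp => ?_)
  refine (le_div_iff₀' (by positivity)).2 ((H_scale σ0 (min_le_left _ _) _ _).trans ((b.H_mono ..).trans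
    (hp.1.1 _ hp.2.1 σ σ0 (by linarith) ((eb_mono (closedBall_subset_closedBall' ?_)).trans hp.1.2))))
  have := mem_closedBall.1 hp.2.2; linarith

/-- the fields are bounded near the points close to a puncture -/
theorem H0_near {U : Ultrafilter α} (hc : Cons b L) (h : PLoc b κ U z) :
    ∀ᶠ y in 𝓝[≠] z, ∃ R, ∀ᶠ q in lF κ U y, b.H L 3 1 0 q.1 q.2 ≤ R := by
  obtain ⟨ε, ε0, C, hC⟩ := eps (cons_wf hc h.le) (bl_gB h)
  obtain ⟨δ, δ0, hδ⟩ := Eps63.ev_pF.1 (Eps63.ev_B.1 (hC.and (en_gB h ε ε0)))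
  set γ := min δ 1
  filter_upwards [nhdsWithin_le_nhds (closedBall_mem_nhds z (half_pos (lt_min δ0 one_pos : 0 < γ))),
    self_mem_nhdsWithin] with y h3 h0
  have y0 : 0 < ‖y - z‖ := norm_pos_iff.2 (sub_ne_zero.2 h0)
  have y1 := mem_closedBall_iff_norm.1 h3
  refine ⟨C / (‖y - z‖ / 4) ^ 4,
    ((hδ _ (half_pos y0)).prod_mk (closedBall_mem_nhds y (half_pos y0))).mono fun p hp => ?_⟩
  obtain ⟨a1, a2⟩ := ball_ann (s := ‖y - z‖ / 2) (t := γ) (by linarith) (by linarith) hp.2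
  have a3 := hp.1 p.2 a1 (a2.trans (min_le_left _ _))
  refine (le_div_iff₀' (by positivity)).2 (le_trans (mul_le_mul_of_nonneg_right ?_ (b.H_nonneg ..))
    ((H_scale (σ := ‖p.2 - z‖ / 2) (by linarith) (by linarith [min_le_right δ 1]) _ _).trans
      ((b.H_mono ..).trans (a3.1 a3.2))))
  exact pow_le_pow_left₀ (by positivity) (by linarith) 4

/-- the energy density is bounded near the points close to a puncture -/
theorem en_near {U : Ultrafilter α} (hc : Cons b L) (hk : Kat b L) (h : PLoc b κ U z) :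
    ∀ᶠ y in 𝓝[≠] z, ∃ R, ∀ᶠ q in lF κ U y, b.en q.1 q.2 ≤ R := by
  obtain ⟨ε, ε0, C, hC⟩ := eps (cons_wf hc h.le) (bl_gB h)
  obtain ⟨-, f, -, f0, k, -, G, -, hK⟩ := hk
  obtain ⟨K, hK⟩ := hK C
  obtain ⟨δ, δ0, hδ⟩ := Eps63.ev_pF.1 ((Eps63.ev_B.1 (hC.and (en_gB h ε ε0))).and
    ((eventually_map.1 (hK.filter_mono h.le)).and (Eps63.pF_small one_pos)))
  filter_upwards [nhdsWithin_le_nhds (closedBall_mem_nhds z (half_pos δ0)), self_mem_nhdsWithin]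
    with y h3 h0
  have y0 : 0 < ‖y - z‖ := norm_pos_iff.2 (sub_ne_zero.2 h0)
  have y1 := mem_closedBall_iff_norm.1 h3
  refine ⟨|K| * (|K| * (√(‖y - z‖ / 4))⁻¹ ^ 8 + (√(‖y - z‖ / 4))⁻¹ ^ 6),
    ((hδ _ (half_pos y0)).prod_mk (closedBall_mem_nhds y (half_pos y0))).mono fun p hp => ?_⟩
  obtain ⟨a1, a2⟩ := ball_ann (s := ‖y - z‖ / 2) (t := δ) (by linarith) (by linarith) hp.2
  obtain ⟨a3, a4, a5⟩ := hp.1 p.2 a1 a2
  have m1 := Eps63.one_le_mu a5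
  obtain ⟨c1, -, c3, c2, -⟩ := a4 _ m1 (a3.1 a3.2)
  have m2 : (√(‖p.2 - z‖ / 2))⁻¹ ≤ (√(‖y - z‖ / 4))⁻¹ :=
    inv_anti₀ (by positivity) (Real.sqrt_le_sqrt (by linarith))
  replace c1 := c1.trans (mul_le_mul (le_abs_self K) (pow_le_pow_left₀ (by positivity) m2 8)
    (by positivity) (abs_nonneg _))
  exact c2.trans (mul_le_mul (le_abs_self K) (add_le_add c1 (pow_le_pow_left₀ (by positivity) m2 6))
    (add_nonneg (f0 ..) (by positivity)) (abs_nonneg _))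

/-- bubble points are isolated -/
theorem bub_iso {U : Ultrafilter α} (hc : Cons b L) (h : PLoc b κ U z) (hF : ∀ᶠ y in 𝓝[≠] z, lF κ U y ≤ b.F) :
    ∀ᶠ y in 𝓝[≠] z, (b.wf (lF κ U y)).JB L := by
  filter_upwards [hF, h.near, H0_near hc h] with y h1 h2 ⟨R, h3⟩ using jb_of0 hc h1 h2 h3

/-- the limit of the frame at `z` -/
theorem frame_lim {U : Ultrafilter α} (h : ChAt b κ U z) : ∃ v : ι → E', (∀ w, ∃ θ : ι → ℝ, ∑ a, θ a • v a = w) ∧
    ∀ a, Tendsto (fun p : α × E' => dv I (b.e p.1 a) (κ p.1) ((κ p.1).symm p.2)) (U ×ˢ 𝓝 z) (𝓝 (v a)) := by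
  have := FiniteDimensional.proper_real E'
  obtain ⟨K, δ, K0, δ0, h⟩ := h
  have hz := mem_closedBall_self (x := z) δ0.le
  choose v _ hv using fun a => (isCompact_closedBall (0 : E') K).ultrafilter_le_nhds
    (U.map fun n => dv I (b.e n a) (κ n) ((κ n).symm z))
    (le_principal_iff.2 (h.mono fun n hn => mem_closedBall_zero_iff.2 (hn.d1 z hz a)))
  refine ⟨v, fun w => ?_, fun a => ?_⟩
  · obtain ⟨θ, hθ⟩ := (h.mono fun n hn => hn.sp z hz w).choice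
    obtain ⟨θ', -, h'⟩ := (isCompact_closedBall (0 : ι → ℝ) (K * ‖w‖)).ultrafilter_le_nhds (U.map θ)
      (le_principal_iff.2 (hθ.mono fun n hn => mem_closedBall_zero_iff.2
        ((pi_norm_le_iff_of_nonneg (by positivity)).2 hn.2)))
    exact ⟨θ', tendsto_nhds_unique (tendsto_finsetSum _ fun a _ => (tendsto_pi_nhds.1 h' a).smul (hv a))
      (tendsto_const_nhds.congr' (hθ.mono fun n hn => hn.1.symm))⟩
  · have t1 : Tendsto (fun p : α × E' => Fintype.card ι * |K| * |K| * ‖p.2 - z‖) (U ×ˢ 𝓝 z) (𝓝 0) := by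
      simpa using (tendsto_iff_norm_sub_tendsto_zero.1 (tendsto_snd (f := (U : Filter α)) (g := 𝓝 z))).const_mul
        (Fintype.card ι * |K| * |K|)
    simpa using (squeeze_zero_norm' ((h.prod_mk (closedBall_mem_nhds z δ0)).mono fun p hp =>
      lip hp.1 (convex_closedBall z δ) Subset.rfl (fun y hy => md_dv (ch_cm hp.1 hy) (vf1 (b.frm _).se a _))
        (fun y hy a' => hp.1.d2 y hy a' a) hz hp.2) t1).add (Tendsto.comp (hv a) tendsto_fst)

theorem Loc.ploc {U : Ultrafilter α} (h : Loc b κ U z) : PLoc b κ U z :=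
  ⟨gF_le.trans h.le, let ⟨K, δ, K0, δ0, k⟩ := h.ch; ⟨K, δ, K0, δ0, fun _ _ => k.mono fun _ hn => ch_mono hn ann_sub⟩,
    let ⟨v, h1, h2⟩ := frame_lim h.ch; ⟨v, h1, fun a => (h2 a).mono_left pF_le⟩,
    let ⟨δ, δ0, C, k⟩ := h.en; ⟨δ, δ0, C, fun _ _ => k.mono fun _ hn =>
      (lintegral_mono_set (image_mono ann_sub)).trans hn⟩⟩

/-- the hypotheses of DEC hold at every point -/
theorem pun {U : Ultrafilter α} (hd : Module.finrank ℝ E' = 4) (hc : Cons b L) (hk : Kat b L) (h : PLoc b κ U z) :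
    Pun (b.wf (gF κ U z)) L κ U z := by
  refine ⟨rfl, cons_wf hc h.le, kat_wf hk h.le, bl_gB h, en_gB (b := b) h, ?_⟩
  obtain ⟨v, h1, hv⟩ := h.fr
  obtain ⟨R, K, k1, k2, k3⟩ := exists_parseval h1
  obtain ⟨K', K0, hK⟩ := h.ev
  have hm : ∀ p : α × E', p.2 ∈ closedBall p.2 (‖p.2 - z‖ / 2) := fun p => mem_closedBall_self (by positivity)
  refine ⟨fun y => ‖R (y - z)‖ ^ 2, K, (R.contDiff.comp (contDiff_id.sub contDiff_const)).norm_sq ℝ,
    fun y => k1 _, fun η η0 => mem_map.2 ?_⟩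
  have hv' := fun a => (R.continuous.tendsto _).comp (hv a)
  have t1 := (tendsto_finsetSum Finset.univ fun a _ => ((hv' a).sub_const (R (v a))).norm.mul
    ((hv' a).add_const (R (v a))).norm).const_mul 4
  have t2 : Tendsto (fun p : α × E' => ‖R‖ * (Fintype.card ι * K') * ‖R (p.2 - z)‖) (pF U z) (𝓝 0) := by
    simpa using ((R.continuous.tendsto _).comp (((tendsto_snd (f := (U : Filter α)) (g := 𝓝 z)).mono_left
      pF_le).sub_const z)).norm.const_mul (‖R‖ * (Fintype.card ι * K'))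
  have t3 := ((squeeze_zero_norm' (f := fun p : α × E' => ⟪R (∑ a, dv I (b.e p.1 a) (dv I (b.e p.1 a) (κ p.1))
    ((κ p.1).symm p.2)), R (p.2 - z)⟫_ℝ) (hK.mono fun p hp =>
      (norm_inner_le_norm _ _).trans (mul_le_mul_of_nonneg_right (R.le_of_opNorm_le_of_le le_rfl
        ((norm_sum_le_of_le _ fun a _ => hp.d2 _ (hm p) a a).trans (by simp))) (norm_nonneg _))) t2).const_mul 2).add
    ((tendsto_finsetSum Finset.univ fun a _ => (hv' a).norm.pow 2).const_mul 2)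
  simp only [sub_self, norm_zero, zero_mul, Finset.sum_const_zero, mul_zero] at t1
  rw [k3, hd] at t3
  filter_upwards [hK, t1.eventually (ge_mem_nhds η0),
    t3.eventually (closedBall_mem_nhds _ η0)] with p hp p1 p2
  obtain ⟨q1, q2⟩ := Q_pt hp (b.frm _).se (hm p) R z
  change |∑ a, dv I (b.e p.1 a) _ ((κ p.1).symm p.2) ^ 2 - 4 * ‖R (κ p.1 ((κ p.1).symm p.2) - z)‖ ^ 2| ≤
    η * ‖R (κ p.1 ((κ p.1).symm p.2) - z)‖ ^ 2 ∧ |Lop I (b.e p.1) 0 _ ((κ p.1).symm p.2) - 8| ≤ η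
  rw [q2, (κ p.1).right_inv (hp.tgt (hm p))]
  refine ⟨?_, by convert mem_closedBall_iff_norm.1 p2 using 2; norm_num⟩
  simp only [q1]
  refine le_trans ?_ (mul_le_mul_of_nonneg_right p1 (sq_nonneg _))
  nth_rewrite 1 [← k2]
  rw [Finset.mul_sum, ← Finset.sum_sub_distrib, Finset.mul_sum, Finset.sum_mul]
  refine (Finset.abs_sum_le_sum_abs _ _).trans (Finset.sum_le_sum fun a _ => ?_)
  set w := R (p.2 - z)
  set d := R (dv I (b.e p.1 a) (κ p.1) ((κ p.1).symm p.2))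
  have e1 : (2 * ⟪w, d⟫_ℝ) ^ 2 - 4 * ⟪w, R (v a)⟫_ℝ ^ 2 = 4 * (⟪w, d - R (v a)⟫_ℝ * ⟪w, d + R (v a)⟫_ℝ) := by
    rw [inner_sub_right, inner_add_right]; ring
  rw [e1, abs_mul, abs_mul, Nat.abs_ofNat]
  calc _ ≤ 4 * (‖w‖ * ‖d - R (v a)‖ * (‖w‖ * ‖d + R (v a)‖)) := by
        gcongr <;> exact abs_real_inner_le_norm _ _
    _ = _ := by simp only [Function.comp_apply]; ring

/-- all jets are bounded along the iterated filter at every point -/
theorem jb_gF {U : Ultrafilter α} (hd : Module.finrank ℝ E' = 4) (hc : Cons b L) (hk : Kat b L) (h : PLoc b κ U z) :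
    (b.wf (gF κ U z)).JB L :=
  let P := pun hd hc hk h
  Eps63.dec P (bern P.cons P.bl) (eps P.cons P.bl)

/-- bounded jets make the classes of `L` bounded along the smaller filter -/
theorem cb_of_jb {V : α → Type} [∀ n, NormedAddCommGroup (V n)] [∀ n, NormedSpace ℝ (V n)] {dw : ℕ}
    {A : ∀ n, ι → X n → V n →L[ℝ] V n} {f : ∀ n, X n → V n} {σ : ℕ → ℕ × ℕ} (h : Wt (b.cx L dw) A σ f)
    (hF : F ≤ b.F) (hJ : (b.wf F).JB L) : (b.wf F).CB A f :=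
  Wt.cb (L := L) (dw := dw) (h.up rfl hF fun _ _ _ => le_rfl) fun r => by
    rw [H_one L dw 3]; exact hJ r

end Crest.Agent.X212.Shi84

end
end

-- ▼ part X212/Shi84/ChM
section

/-!
# BUB (helper84): uniform charts from converging frames, the bubble set on the limit manifold
-/

set_option autoImplicit false
set_option linter.unusedSectionVars false
open Set Filter Topology Metric MeasureTheory
open scoped Manifold ContDiff NNReal InnerProductSpace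

noncomputable section

namespace Crest.Agent.X212.Shi84

open Mp86 Cmp73 An Pat85 Loc66

theorem span_near {E' ι : Type} [NormedAddCommGroup E'] [NormedSpace ℝ E'] [FiniteDimensional ℝ E'] [Fintype ι]
    {v : ι → E'} (hv : ∀ w, ∃ θ : ι → ℝ, ∑ a, θ a • v a = w) : ∃ K, ∀ᶠ v' in 𝓝 v, ∀ w, ∃ θ : ι → ℝ,
      ∑ a, θ a • v' a = w ∧ ∀ a, |θ a| ≤ K * ‖w‖ := by
  obtain ⟨R₀, h0⟩ := (Fintype.linearCombination ℝ v).exists_rightInverse_of_surjective
    (LinearMap.range_eq_top.2 hv)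
  let R := R₀.toContinuousLinearMap
  have h1 : ∀ w, ∑ a, R w a • v a = w := fun w => LinearMap.congr_fun h0 w
  have t : Tendsto (fun v' : ι → E' => ‖R‖ * ∑ a, ‖v' a - v a‖) (𝓝 v) (𝓝 0) :=
    (by fun_prop : Continuous fun v' : ι → E' => ‖R‖ * ∑ a, ‖v' a - v a‖).tendsto' _ _ (by simp)
  refine ⟨2 * ‖R‖, (t.eventually (ge_mem_nhds one_half_pos)).mono fun v' hv' w => ?_⟩
  have h2 : ∀ u, ‖u‖ ≤ 2 * ‖∑ a, R u a • v' a‖ := fun u => by
    have a1 : ‖∑ a, R u a • v' a - u‖ ≤ 1 / 2 * ‖u‖ := by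
      nth_rewrite 2 [← h1 u]
      rw [← Finset.sum_sub_distrib]
      refine (norm_sum_le_of_le _ (n := fun a => ‖R‖ * ‖v' a - v a‖ * ‖u‖) fun a _ => ?_).trans ?_
      · rw [← smul_sub, norm_smul, mul_right_comm]
        exact mul_le_mul_of_nonneg_right ((norm_le_pi_norm _ a).trans (R.le_opNorm u)) (norm_nonneg _)
      · rw [← Finset.sum_mul, ← Finset.mul_sum]
        exact mul_le_mul_of_nonneg_right hv' (norm_nonneg _)
    linarith [norm_sub_norm_le u (∑ a, R u a • v' a), norm_sub_rev u (∑ a, R u a • v' a)]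
  obtain ⟨u, rfl⟩ := LinearMap.surjective_of_injective (f := Fintype.linearCombination ℝ v' ∘ₗ R₀)
    ((injective_iff_map_eq_zero _).2 fun u hu => norm_le_zero_iff.1 ((h2 u).trans (by
      rw [show ∑ a, R u a • v' a = 0 from hu]; simp))) w
  refine ⟨R u, rfl, fun a => ((norm_le_pi_norm _ a).trans (R.le_opNorm u)).trans ?_⟩
  rw [mul_comm 2, mul_assoc]
  exact mul_le_mul_of_nonneg_left (h2 u) (norm_nonneg _)

variable {E : Type} [NormedAddCommGroup E] [NormedSpace ℝ E] [FiniteDimensional ℝ E]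
  [MeasurableSpace E] [BorelSpace E]
  {HM : Type} [TopologicalSpace HM] {I : ModelWithCorners ℝ E HM} [I.Boundaryless]
  {M : Type} [TopologicalSpace M] [ChartedSpace HM M] [IsManifold I ∞ M]
  [MeasurableSpace M] [BorelSpace M] [T2Space M] [SecondCountableTopology M] {ι : Type} [Fintype ι]
  {α : Type} {l : Filter α} {Ω : Set M} {x : M}

variable (I) in
/-- the chart at `x` -/
abbrev ch0 (x : M) : OpenPartialHomeomorph M E := echart I (ContinuousLinearEquiv.refl ℝ E) x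

theorem ch0_mem (x : M) : x ∈ (ch0 I x).source := by rw [echart_source]; exact mem_chart_source HM x

theorem ev_chart {φ : OpenPartialHomeomorph M E} (hx : x ∈ φ.source) :
    (l ×ˢ 𝓝 (φ x)).map (fun p => (p.1, φ.symm p.2)) = l ×ˢ 𝓝 x := by
  rw [← φ.symm_map_nhds_eq hx, ← map_id (f := l), prod_map_map_eq, map_id]; rfl

theorem vol_two (F : Pre I M ι) (hd : Module.finrank ℝ E = 4) (x : M) : ∃ c > 0,
    ∀ᶠ O in (𝓝 (ch0 I x x)).smallSets, ∀ z s, 0 < s → ball z s ⊆ O →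
      ENNReal.ofReal (c * s ^ 4) ≤ F.μ ((ch0 I x).symm '' ball z s) ∧
        F.μ ((ch0 I x).symm '' ball z s) ≤ ENNReal.ofReal (4 * c * s ^ 4) := by
  obtain ⟨O, ρ, ⟨o1, o2, o3, o4⟩, h1, h2⟩ := F.dens x
  have n1 : extChartAt I x '' O ∈ 𝓝 (extChartAt I x x) := extChartAt_image_nhds_mem_nhds_of_boundaryless (o1.mem_nhds o2)
  have r0 := h2 _ ⟨x, o2, rfl⟩
  have n2 := (h1.continuousOn.continuousAt n1).eventually (Icc_mem_nhds (half_lt_self r0) (lt_two_mul_self r0))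
  have hH : (leb E).IsAddHaarMeasure := by unfold leb; infer_instance
  have v0 : 0 < (leb E).real (ball 0 1) :=
    ENNReal.toReal_pos (measure_ball_pos _ 0 one_pos).ne' measure_ball_lt_top.ne
  refine ⟨ρ (extChartAt I x x) / 2 * (leb E).real (ball 0 1), by positivity,
    (eventually_smallSets_subset.2 (inter_mem n1 n2)).mono fun T hT z s s0 hs => ?_⟩
  have hb := hs.trans hT
  have e1 : (ch0 I x).symm '' ball z s = extChartAt I x ⁻¹' ball z s ∩ O := by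
    ext y
    refine ⟨?_, fun hy => ⟨_, hy.1, (extChartAt I x).left_inv (o3 hy.2)⟩⟩
    rintro ⟨u, hu, rfl⟩
    obtain ⟨y, hy, rfl⟩ := (hb hu).1
    rw [show (ch0 I x).symm (extChartAt I x y) = y from (extChartAt I x).left_inv (o3 hy)]
    exact ⟨hu, hy⟩
  have e2 : ∀ c, 0 ≤ c → ENNReal.ofReal (c * (leb E).real (ball 0 1) * s ^ 4) =
      ∫⁻ _ in ball z s, ENNReal.ofReal c ∂leb E := fun c c0 => by
    rw [setLIntegral_const, Measure.addHaar_ball_of_pos _ _ s0, hd, mul_right_comm, mul_assoc,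
      ENNReal.ofReal_mul c0, ENNReal.ofReal_mul (by positivity), ofReal_measureReal measure_ball_lt_top.ne]
  rw [e1, ← Measure.restrict_apply' o1.measurableSet, ← Measure.map_apply_of_aemeasurable
    (((continuousOn_extChartAt x).mono o3).aemeasurable o1.measurableSet) measurableSet_ball, o4,
    withDensity_apply _ measurableSet_ball, Measure.restrict_restrict_of_subset fun u hu => (hb hu).1,
    ← mul_assoc 4, e2 _ (by positivity), e2 _ (by positivity)]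
  exact ⟨setLIntegral_mono' measurableSet_ball fun u hu => ENNReal.ofReal_le_ofReal (hb hu).2.1,
    setLIntegral_mono' measurableSet_ball fun u hu => ENNReal.ofReal_le_ofReal (by linarith [(hb hu).2.2])⟩

theorem span_chart (F : Pre I M ι) {φ : OpenPartialHomeomorph M E} (h : SCh I φ) (hx : x ∈ φ.source) (w : E) :
    ∃ θ : ι → ℝ, ∑ a, θ a • dv I (F.e a) φ x = w := by
  have md : φ.MDifferentiable I 𝓘(ℝ, E) :=
    ⟨fun y hy => ((h.sm y hy).mdifferentiableAt (by simp)).mdifferentiableWithinAt,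
      fun y hy => ((h.sm' y hy).mdifferentiableAt (by simp)).mdifferentiableWithinAt⟩
  obtain ⟨t, ht⟩ := md.mfderiv_surjective hx w
  obtain ⟨θ, hθ⟩ := (Submodule.mem_span_range_iff_exists_fun ℝ).1 (F.span x ▸ Submodule.mem_top (x := t))
  refine ⟨θ, ?_⟩
  rw [← ht, ← hθ, map_sum]
  exact Finset.sum_congr rfl fun a _ => (map_smul (mfderiv I 𝓘(ℝ, E) φ x) _ _).symm

variable [l.NeBot] {F : α → Fr I M ι} {F₀ : Fr I M ι}

theorem cv_chart (h : FCv l Ω F F₀) (hΩ : IsOpen Ω) (x : M) (a : ι) :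
    Cv I l (Ω ∩ (ch0 I x).source) (fun n => dv I ((F n).e a) (ch0 I x)) (dv I (F₀.e a) (ch0 I x)) :=
  ((h a).mono le_rfl inter_subset_left).dv (hΩ.inter (ch0 I x).open_source)
    (Cv.fixed (hΩ.inter (ch0 I x).open_source) fun y hy => (sch_echart _ x).sm y hy.2)

/-- **CH**: converging frames have uniform charts -/
theorem ch_frames (h : FCv l Ω F F₀) (hΩ : IsOpen Ω) (hF : ∀ᶠ n in l, (F n).IsVol) (h₀ : F₀.IsVol)
    (hd : Module.finrank ℝ E = 4) (hx : x ∈ Ω) : ∃ K δ, 0 < K ∧ 0 < δ ∧ ∀ᶠ n in l,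
      Ch I (F n).e (F n).μ (ch0 I x) (closedBall (ch0 I x x) δ) K := by
  set φ := ch0 I x
  have hO := hΩ.inter φ.open_source
  have hx' : x ∈ Ω ∩ φ.source := ⟨hx, ch0_mem x⟩
  have c1 := cv_chart h hΩ x
  choose K1 k1 using fun a => ((c1 a).mb 0 x hx').bdd
  choose K2 k2 using fun a a' => ((((h a).mono le_rfl inter_subset_left).dv hO (c1 a')).mb 0 x hx').bdd
  obtain ⟨K3, k3⟩ := span_near (span_chart F₀.toPre (sch_echart _ x) hx'.2)
  obtain ⟨c, c0, k4⟩ := vol_two F₀.toPre hd x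
  have k5 := (((h.wq hΩ).mb 1 x hx).tendsto ((h.wq hΩ).pt x hx)).eventually (le_mem_nhds one_half_lt_one)
  have k6 := (tendsto_pi_nhds.2 fun a => ((c1 a).mb 1 x hx').tendsto ((c1 a).pt x hx')).eventually k3
  have k7 := (eventually_all.2 k1).and ((eventually_all.2 fun a => eventually_all.2 (k2 a)).and (k6.and k5))
  rw [← ev_chart hx'.2, eventually_map] at k7
  obtain ⟨A, hA, T, hT, k7⟩ := mem_prod_iff.1 k7
  obtain ⟨δ, δ0, k8⟩ := (nhds_basis_closedBall.smallSets.eventually_iff.1 (k4.and (eventually_smallSets_subset.2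
    (inter_mem hT (φ.open_target.mem_nhds (φ.map_source hx'.2))))))
  obtain ⟨k8, k9⟩ := k8 (mem_powerset Subset.rfl)
  have p1 : 0 ≤ ∑ a, |K1 a| := by positivity
  have p2 : 0 ≤ ∑ a, ∑ a', |K2 a a'| := by positivity
  have p3 := abs_nonneg K3
  have p4 : 0 < 2 / c := by positivity
  refine ⟨∑ a, |K1 a| + ∑ a, ∑ a', |K2 a a'| + |K3| + 2 / c, δ, by positivity, δ0, ?_⟩
  filter_upwards [hA, hF] with n hn hv
  have k := fun y (hy : y ∈ closedBall (φ x) δ) => k7 (mk_mem_prod hn (k9 hy).1)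
  have p5 : K3 ≤ ∑ a, |K1 a| + ∑ a, ∑ a', |K2 a a'| + |K3| + 2 / c := by linarith [le_abs_self K3]
  refine ⟨fun y hy => (k9 hy).2, fun y hy => ((sch_echart _ x).sm y hy).contMDiffWithinAt,
    fun y hy => ((sch_echart _ x).sm' y hy).contMDiffWithinAt, fun y hy a => ((k y hy).1 a).trans ?_,
    fun y hy a a' => ((k y hy).2.1 a a').trans ?_, fun y hy w => ((k y hy).2.2.1 w).imp fun θ hθ =>
      ⟨hθ.1, fun a => (hθ.2 a).trans (mul_le_mul_of_nonneg_right p5 (norm_nonneg _))⟩, fun z s s0 hs => ?_⟩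
  · linarith [le_abs_self (K1 a), Finset.single_le_sum (f := fun a => |K1 a|) (fun _ _ => abs_nonneg _)
      (Finset.mem_univ a)]
  · linarith [le_abs_self (K2 a a'), Finset.single_le_sum (f := fun a' => |K2 a a'|) (fun _ _ => abs_nonneg _)
      (Finset.mem_univ a'), Finset.single_le_sum (f := fun a => ∑ a', |K2 a a'|) (fun _ _ => by positivity)
      (Finset.mem_univ a)]
  have mo := (φ.symm.isOpen_image_of_subset_source isOpen_ball fun y hy => (k9 (hs hy)).2).measurableSet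
  rw [Met55.vol_eq_wt h₀ hv (sm_wq (F n) F₀).continuous fun x =>
    (div_mul_cancel₀ _ (Met55.pre_sp F₀.toPre x).rjb_pos.ne').symm, withDensity_apply _ mo]
  refine le_trans ?_ (setLIntegral_mono' mo (f := fun _ => ENNReal.ofReal (1 / 2)) ?_)
  · rw [setLIntegral_const]
    refine le_trans ?_ (mul_le_mul_right (k8 z s s0 hs).1 _)
    rw [← ENNReal.ofReal_mul (by norm_num)]
    refine ENNReal.ofReal_le_ofReal ((div_le_div_of_nonneg_left (by positivity) p4 (by linarith)).trans_eq ?_)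
    field_simp
  · rintro _ ⟨y, hy, rfl⟩
    exact ENNReal.ofReal_le_ofReal (k y (hs hy)).2.2.2

/-- small neighbourhoods have uniformly small volume -/
theorem vol_small (h : FCv l Ω F F₀) (hΩ : IsOpen Ω) (hF : ∀ᶠ n in l, (F n).IsVol) (h₀ : F₀.IsVol)
    (hd : Module.finrank ℝ E = 4) (hx : x ∈ Ω) {η : ℝ} (η0 : 0 < η) :
    ∀ᶠ N in (𝓝 x).smallSets, ∀ᶠ n in l, (F n).μ N ≤ ENNReal.ofReal η := by
  set φ := ch0 I x
  have hm := ch0_mem (I := I) x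
  obtain ⟨c, c0, k4⟩ := vol_two F₀.toPre hd x
  have k5 : ∀ᶠ q in l ×ˢ 𝓝 x, wq (F q.1) F₀ q.2 ≤ 2 :=
    (((h.wq hΩ).mb 1 x hx).tendsto ((h.wq hΩ).pt x hx)).eventually (ge_mem_nhds one_lt_two)
  obtain ⟨A, hA, T, hT, k5⟩ := eventually_prod_iff.1 k5
  have t : Tendsto (fun s : ℝ => 2 * (4 * c * s ^ 4)) (𝓝[>] 0) (𝓝 0) :=
    ((by fun_prop : Continuous fun s : ℝ => 2 * (4 * c * s ^ 4)).tendsto' _ _ (by simp)).mono_left nhdsWithin_le_nhds
  obtain ⟨δ, δ0, k8⟩ := nhds_basis_ball.smallSets.eventually_iff.1 (k4.and (eventually_smallSets_subset.2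
    (inter_mem (φ.tendsto_symm hm hT) (φ.open_target.mem_nhds (φ.map_source hm)))))
  obtain ⟨k8, k9⟩ := k8 (mem_powerset Subset.rfl)
  obtain ⟨s, s1, s0, s2⟩ := ((t.eventually (ge_mem_nhds η0)).and (Ioc_mem_nhdsGT δ0)).exists
  have sb : ball (φ x) s ⊆ ball (φ x) δ := ball_subset_ball s2
  have o := φ.symm.isOpen_image_of_subset_source isOpen_ball fun y hy => (k9 (sb hy)).2
  refine (eventually_smallSets_subset.2 (o.mem_nhds ⟨_, mem_ball_self s0, φ.left_inv hm⟩)).mono fun N hN => ?_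
  filter_upwards [hA, hF] with n hn hv
  refine (measure_mono hN).trans ?_
  rw [Met55.vol_eq_wt h₀ hv (sm_wq (F n) F₀).continuous fun x =>
    (div_mul_cancel₀ _ (Met55.pre_sp F₀.toPre x).rjb_pos.ne').symm, withDensity_apply _ o.measurableSet]
  refine (setLIntegral_mono' o.measurableSet (g := fun _ => ENNReal.ofReal 2) ?_).trans ?_
  · rintro _ ⟨y, hy, rfl⟩
    exact ENNReal.ofReal_le_ofReal (k5 hn (k9 (sb hy)).1)
  · rw [setLIntegral_const]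
    refine (mul_le_mul_right (k8 _ s s0 sb).2 _).trans ?_
    rw [← ENNReal.ofReal_mul zero_le_two]
    exact ENNReal.ofReal_le_ofReal s1

section tr
variable {E' : Type} [NormedAddCommGroup E'] [NormedSpace ℝ E'] [FiniteDimensional ℝ E']
  [MeasurableSpace E'] [BorelSpace E'] {HM' : Type} [TopologicalSpace HM'] {I' : ModelWithCorners ℝ E' HM'}
  [I'.Boundaryless] {N : Type} [TopologicalSpace N] [ChartedSpace HM' N] [IsManifold I' ∞ N] [MeasurableSpace N]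
  [BorelSpace N] [T2Space N] [SecondCountableTopology N]
  {P : Fr I M ι} {P' : Fr I' N ι} {ψ : OpenPartialHomeomorph M N} {φ : OpenPartialHomeomorph M E}
  {T : Set E} {K : ℝ}

theorem iso_meas (h : Iso P.toPre P'.toPre ψ) {A : Set M} (hA : IsOpen A) (hs : A ⊆ ψ.source) :
    P'.μ (ψ '' A) = P.μ A := by
  have o := (ψ.isOpen_image_of_subset_source hA hs).measurableSet
  have s1 : ψ '' A ⊆ ψ.target := by rintro _ ⟨x, hx, rfl⟩; exact ψ.map_source (hs hx)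
  rw [← Measure.restrict_eq_self _ s1, ← h.μ, Measure.map_apply_of_aemeasurable
    (ψ.continuousOn.aemeasurable ψ.open_source.measurableSet) o, Measure.restrict_apply' ψ.open_source.measurableSet]
  congr 1
  ext x
  exact ⟨fun ⟨⟨y, hy, e⟩, hx⟩ => ψ.injOn (hs hy) hx e ▸ hy, fun hx => ⟨⟨x, hx, rfl⟩, hs hx⟩⟩

theorem rel_ev (hx : x ∈ ψ.source) : ∀ᶠ y in 𝓝 x, φ y = (ψ.symm.trans φ) (ψ y) :=
  (ψ.eventually_left_inverse hx).mono fun _ hy => congrArg φ hy.symm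

theorem rel_d1 (h : Pj41.FRel P P' ψ ψ.source) (a : ι) {y : E} (h2 : φ.symm y ∈ ψ.source) :
    dv I' (P'.e a) (ψ.symm.trans φ) ((ψ.symm.trans φ).symm y) = dv I (P.e a) φ (φ.symm y) :=
  (h.D h2 a (rel_ev (φ := φ) h2)).symm

/-- transport of uniform charts -/
theorem ch_rel (h : Pj41.FRel P P' ψ ψ.source) (hv : P.IsVol) (hv' : P'.IsVol) (hc : Ch I P.e P.μ φ T K)
    (hT : ∀ y ∈ T, φ.symm y ∈ ψ.source) : Ch I' P'.e P'.μ (ψ.symm.trans φ) T K := by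
  have k := h.iso hv hv'
  refine ⟨fun y hy => ⟨hc.tgt hy, hT y hy⟩, hc.sm.comp (k.sm'.mono inter_subset_left) fun y hy => hy.2,
    k.sm.comp (hc.sm'.mono inter_subset_left) fun y hy => hy.2,
    fun y hy a => rel_d1 h a (hT y hy) ▸ hc.d1 y hy a, fun y hy a a' => ?_,
    fun y hy w => by simp only [rel_d1 h _ (hT y hy)]; exact hc.sp y hy w, fun z s s0 hs => ?_⟩
  · exact (congrArg norm (h.D (hT y hy) a (h.D_ev (hT y hy) a' (rel_ev (φ := φ) (hT y hy))))).symm.trans_le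
      (hc.d2 y hy a a')
  · refine (hc.vol z s s0 hs).trans_eq ?_
    rw [← iso_meas k (ch_open hc hs) (by rintro _ ⟨y, hy, rfl⟩; exact hT y (hs hy)), image_image]
    rfl

end tr

theorem tend_ne {Y Z : Type} [TopologicalSpace Y] [TopologicalSpace Z] {φ : OpenPartialHomeomorph Y Z} {x : Y}
    (hx : x ∈ φ.source) : Tendsto φ (𝓝[≠] x) (𝓝[≠] (φ x)) :=
  tendsto_nhdsWithin_iff.2 ⟨(φ.continuousAt hx).tendsto.mono_left nhdsWithin_le_nhds, by
    filter_upwards [nhdsWithin_le_nhds (φ.open_source.mem_nhds hx), self_mem_nhdsWithin] with y h1 h2 h3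
    exact h2 (φ.injOn h1 hx h3)⟩

theorem cpt_ann (z : E) (s t : ℝ) : IsCompact (ann z s t) :=
  have := FiniteDimensional.proper_real E
  have c : Continuous fun y : E => ‖y - z‖ := by fun_prop
  (isCompact_closedBall z t).of_isClosed_subset
    ((isClosed_le continuous_const c).inter (isClosed_le c continuous_const)) ann_sub

theorem small_ann {z : E} {p : E → Prop} (h : ∀ᶠ y in 𝓝[≠] z, p y) : ∃ δ > 0, ∀ δ' > 0, ∀ y ∈ ann z δ' δ, p y :=
  let ⟨δ, δ0, hδ⟩ := nhds_basis_closedBall.mem_iff.1 (eventually_nhdsWithin_iff.1 h)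
  ⟨δ, δ0, fun _ h0 _ hy => hδ (ann_sub hy) (sub_ne_zero.1 (norm_pos_iff.1 (h0.trans_le hy.1)))⟩

omit [l.NeBot] in
/-- the two iterated filters agree -/
theorem pF_nF {φ : OpenPartialHomeomorph M E} (hx : x ∈ φ.source) :
    (pF l (φ x)).map (fun p => (p.1, φ.symm p.2)) = nF l {x}ᶜ x := by
  refine le_antisymm (fun D hD => ?_) fun D ⟨δ, δ0, hD⟩ => ev_nF.2 ?_
  · have h1 := tend_ne (φ := φ.symm) (φ.map_source hx)
    rw [φ.left_inv hx] at h1
    obtain ⟨δ, δ0, h⟩ := small_ann ((h1.eventually (ev_nF.1 hD)).and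
      (nhdsWithin_le_nhds (φ.open_target.mem_nhds (φ.map_source hx))))
    refine ⟨δ, δ0, fun δ' h0 => (ev_compact (cpt_ann (φ x) δ' δ) (p := fun n z => (n, φ.symm z) ∈ D)
      fun z hz => ?_).mono fun n hn z a c => hn z ⟨a, c⟩⟩
    exact (tendsto_id.prodMap (φ.continuousAt_symm (h δ' h0 z hz).2).tendsto).eventually (h δ' h0 z hz).1
  · filter_upwards [(tend_ne hx).eventually (eventually_mem_nhdsWithin.and (nhdsWithin_le_nhds (ball_mem_nhds _ δ0))),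
      nhdsWithin_le_nhds (φ.open_source.mem_nhds hx)] with y hy hs
    have y0 : 0 < ‖φ y - φ x‖ := norm_pos_iff.2 (sub_ne_zero.2 hy.1)
    have c : ContinuousAt (fun y => ‖φ y - φ x‖) y := ((φ.continuousAt hs).sub continuousAt_const).norm
    filter_upwards [(hD _ (half_pos y0)).prod_mk ((c.eventually (le_mem_nhds (half_lt_self y0))).and
      ((c.eventually (ge_mem_nhds (mem_ball_iff_norm.1 hy.2))).and (φ.open_source.mem_nhds hs)))] with q hq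
    have := hq.1 _ hq.2.1 hq.2.2.1
    rwa [mem_preimage, φ.left_inv hq.2.2.2] at this

theorem fin_of_iso {S K : Set M} (h : ∀ x ∈ Ω, ∀ᶠ y in 𝓝[≠] x, y ∉ S) (hK : IsCompact K) (hKΩ : K ⊆ Ω) :
    (S ∩ K).Finite :=
  hK.induction_on (p := fun t => (S ∩ t).Finite) (by simp) (fun _ _ hs ht => ht.subset (inter_subset_inter_right _ hs))
    (fun _ _ hs ht => by rw [inter_union_distrib_left]; exact hs.union ht)
    fun x hx => ⟨_, nhdsWithin_le_nhds (eventually_nhdsWithin_iff.1 (h x (hKΩ hx))),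
      (finite_singleton x).subset fun y hy => by_contra fun hn => hy.2 hn hy.1⟩

theorem closed_of_iso {S : Set M} (h : ∀ x, ∀ᶠ y in 𝓝[≠] x, y ∉ S) : IsClosed S ∧ S.Countable := by
  refine ⟨isOpen_compl_iff.1 (isOpen_iff_mem_nhds.2 fun x hx => mem_of_superset
    (eventually_nhdsWithin_iff.1 (h x)) fun y hy => ?_), ?_⟩
  · by_cases e : y = x
    exacts [e ▸ hx, hy e]
  · obtain ⟨T, -, h1, h2⟩ := TopologicalSpace.countable_cover_nhdsWithin (s := S) (f := fun x => {x}) fun x _ =>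
      mem_nhdsWithin_iff_eventually.2 ((eventually_nhdsWithin_iff.1 (h x)).mono fun y hy hs =>
        by_contra fun hn => hy hn hs)
    exact h1.mono (by simpa using h2)

theorem iso_of_fin {S : Set M} (h : S.Finite) (x : M) : ∀ᶠ y in 𝓝[≠] x, y ∉ S :=
  mem_of_superset (inter_mem (nhdsWithin_le_nhds ((h.subset (sdiff_subset (t := {x}))).isClosed.isOpen_compl.mem_nhds
    fun k => k.2 rfl)) self_mem_nhdsWithin) fun _ hy hS => hy.1 ⟨hS, hy.2⟩

end Crest.Agent.X212.Shi84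

end
end

-- ▼ part X212/Shi84/An

/-!
# AN (helper84): bounded geometry, finiteness of the bubble set, bounded jets for `Cmp73.Gs`
-/

set_option autoImplicit false
set_option linter.unusedSectionVars false
open Set Filter Topology Metric MeasureTheory
open scoped Manifold ContDiff NNReal InnerProductSpace

noncomputable section

namespace Crest.Agent.X212.Shi84

open Cmp73 An
open Sob92 (dv)

variable {E : Type} [NormedAddCommGroup E] [NormedSpace ℝ E] [FiniteDimensional ℝ E]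
  [MeasurableSpace E] [BorelSpace E]
  {HM : Type} [TopologicalSpace HM] {I : ModelWithCorners ℝ E HM} [I.Boundaryless]
  {E₀ : Type} [NormedAddCommGroup E₀] [NormedSpace ℝ E₀] [FiniteDimensional ℝ E₀]
  [MeasurableSpace E₀] [BorelSpace E₀]
  {H₀ : Type} [TopologicalSpace H₀] {I₀ : ModelWithCorners ℝ E₀ H₀} [I₀.Boundaryless]
  {M : Type} [TopologicalSpace M] [ChartedSpace H₀ M] [IsManifold I₀ ∞ M] [MeasurableSpace M]
  [BorelSpace M] [T2Space M] [SecondCountableTopology M]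
  {ι lam : Type} [Fintype ι] [Fintype lam] {α : Type}
  {X : α → Type} [∀ n, TopologicalSpace (X n)] [∀ n, ChartedSpace HM (X n)]
  [∀ n, IsManifold I ∞ (X n)] [∀ n, MeasurableSpace (X n)] [∀ n, BorelSpace (X n)] [∀ n, T2Space (X n)]
  [∀ n, SecondCountableTopology (X n)] {r : ℕ}
  {g : Gs I I₀ M ι lam X} {c : ∀ n, Cfg (X n) ι lam r} {U : Set M} {x : M} {L : Sy ι X}
  {V : Type} [NormedAddCommGroup V] [NormedSpace ℝ V]

theorem nab_tv {N : Type} [TopologicalSpace N] [ChartedSpace HM N] (e : ι → (x : N) → TangentSpace I x)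
    (a : ι) (u : N → V) : Wz78.nab I e (fun _ _ => 0) a u = dv I (e a) u := funext fun _ => add_zero _

theorem Dw_tv {N : Type} [TopologicalSpace N] [ChartedSpace HM N] [IsManifold I ∞ N] [MeasurableSpace N]
    (F : Pre I N ι) : ∀ (v : List ι) (u : N → V), Dw I F.e (fun _ _ => 0) v u = F.Dw v u
  | [], _ => rfl
  | a :: v, u => by rw [Dw, nab_tv]; exact Dw_tv F v _

theorem jb_mono {b : Fb I ι X} {𝓕 𝓖 : Filter (Σ n, X n)} (h : (b.wf 𝓕).JB L) (hG : 𝓖 ≤ 𝓕) : (b.wf 𝓖).JB L :=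
  fun r => (h r).imp fun _ hR => hR.filter_mono hG

variable (g) in
/-- the charts of `X n` over the chart at `x` -/
abbrev chX (x : M) (n : α) : OpenPartialHomeomorph (X n) E₀ := (g.ψ n).symm.trans (ch0 I₀ x)

theorem lF_eq {y : M} (hy : y ∈ (ch0 I₀ x).source) (hU : y ∈ U) : lF (chX g x) g.l (ch0 I₀ x y) = g.F U y := by
  rw [Gs.F, nF_eq hU, ← ev_chart hy, map_map]; rfl

theorem gF_eq : gF (chX g x) g.l (ch0 I₀ x x) = g.F {x}ᶜ x := by
  rw [Gs.F, ← pF_nF (ch0_mem (I := I₀) x), map_map]; rfl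

theorem ne' {p : M → Prop} (hp : ∀ᶠ y in 𝓝[≠] x, p y) :
    ∀ᶠ z in 𝓝[≠] (ch0 I₀ x x), z ∈ (ch0 I₀ x).target ∧ p ((ch0 I₀ x).symm z) := by
  have h1 := tend_ne (φ := (ch0 I₀ x).symm) ((ch0 I₀ x).map_source (ch0_mem x))
  rw [(ch0 I₀ x).left_inv (ch0_mem x)] at h1
  exact inter_mem (nhdsWithin_le_nhds ((ch0 I₀ x).open_target.mem_nhds ((ch0 I₀ x).map_source (ch0_mem x))))
    (h1.eventually hp)

variable (hg : g.OK)
include hg

theorem ev_src (hU : U ⊆ g.Pᶜ) : ∀ᶠ q in nF g.l U x, q.2 ∈ (g.ψ q.1).source :=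
  ev_nF.2 (eventually_nhdsWithin_of_forall fun y hy => hg.src y (hU hy))

theorem mb_Dw : ∀ (v : List ι) {f : α → M → V}, (∀ k, MB I₀ g.l x k f) →
    ∀ k, MB I₀ g.l x k fun n => (g.H n).F.Dw v (f n)
  | [], _, h => h
  | a :: v, _, h => mb_Dw v fun k => (h (k + 1)).dv ((hg.e a).mb k x)

/-- functions which are bounded with all derivatives on the limit manifold -/
theorem cs_of_mb (hU : U ⊆ g.Pᶜ) {f : ∀ n, X n → V} {f' : α → M → V} (sm : ∀ n, Sm I (f n))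
    (e : ∀ n, ∀ y ∈ (g.ψ n).source, f n (g.ψ n y) = f' n y) (h : ∀ k, MB I₀ g.l x k f') :
    (g.fb c (g.F U x)).CB (tv X ι fun _ => V) f := by
  refine Fb.cb_iff.2 ⟨fun _ _ => contMDiff_const, sm, fun v => (mb_Dw hg v h 0).bdd.imp fun K hK => ?_⟩
  refine mem_map.2 (mem_of_superset (inter_mem (nF_le hK) (ev_src hg hU)) fun q hq => ?_)
  refine le_of_eq_of_le (congrArg norm ((congrFun (Dw_tv (g.G q.1).F.toPre v _) _).trans
    ((hg.rel q.1).Dw hq.2 v ?_).symm)) hq.1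
  exact mem_of_superset ((g.ψ q.1).open_source.mem_nhds hq.2) fun y hy => (e _ y hy).symm

theorem mb_of_cb (hU : U ⊆ g.Pᶜ) (hx : x ∈ U) : ∀ (k : ℕ) {f : ∀ n, X n → V},
    (g.fb c (g.F U x)).CB (tv X ι fun _ => V) f → MB I₀ g.l x k fun n y => f n (g.ψ n y) := by
  have s := le_nF hx (ev_src (x := x) hg hU)
  have h0 : ∀ {f : ∀ n, X n → V}, (g.fb c (g.F U x)).CB (tv X ι fun _ => V) f →
      MB I₀ g.l x 0 fun n y => f n (g.ψ n y) := fun h =>
    MB.zero_of (mem_of_superset s fun q hq => (hg.rel q.1).sm hq (h.sm _ _))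
      (((Fb.cb_iff.1 h).2.2 []).imp fun _ hK => le_nF hx hK)
  intro k
  induction k with
  | zero => exact h0
  | succ k ih =>
    intro f h
    refine MB.gain (X := fun a n => (g.H n).F.e a) (fun a => (hg.e a).mb k x)
      (fun a => ((hg.e a).mb 1 x).tendsto ((hg.e a).pt x))
      (span_chart g.G₀.F.toPre (Pat85.sch_echart (.refl ℝ E₀) x) (ch0_mem x)) (h0 h) fun a =>
        (ih (h.D a)).congr (mem_of_superset s fun q hq => ?_)
    exact ((hg.rel q.1).D hq a (.of_forall fun _ => rfl)).trans (add_zero _).symm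

theorem P_rel (n : α) (a a' : ι) : ∀ y ∈ (g.ψ n).source, (g.B n).P a a' (g.ψ n y) = g.B₀.P a a' y := fun y hy => by
  rw [← (hg.G n).P, ← (hg.H n).P, (hg.rel n).P hy]

/-- **bounded geometry** -/
theorem gb (hU : U ⊆ g.Pᶜ) : GB (g.fb c (g.F U x)) g.B g.G := by
  refine ⟨fun a a' k => cs_of_mb hg hU (fun n => (g.G n).F.c_sm a a' k)
      (fun n y hy => ((hg.rel n).c hy a a' k).symm) fun j => (hg.c a a' k).mb j x trivial,
    fun a => cs_of_mb hg hU (fun n => (g.G n).F.dv_sm a)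
      (f' := fun n y => ∑ b, ∑ l, (g.H n).F.c b a l y * g.B₀.P l b y) (fun n y hy => ?_)
      fun j => MB.sum fun b => MB.sum fun l => ((hg.c b a l).mb j x trivial).mul (MB.fixed' (hg.B₀.sP l b)),
    fun a a' => cs_of_mb hg hU (fun n => (hg.B n).sP a a') (fun n => P_rel hg n a a')
      fun _ => MB.fixed' (hg.B₀.sP a a'),
    fun a a' k k' => cs_of_mb hg hU (fun n => (hg.B n).so a a' k k') (fun n y hy => hg.bo n y hy a a' k k')
      fun _ => MB.fixed' (hg.B₀.so a a' k k'),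
    cs_of_mb hg hU (fun n => (hg.B n).sl) hg.bl fun _ => MB.fixed' hg.B₀.sl,
    fun a => cs_of_mb hg hU (fun n => (hg.G n).con.sm a) (fun n y hy => hg.la n y hy a)
      fun j => (hg.a a).mb j x trivial⟩
  rw [← (hg.rel n).dv hy (hg.H n).vol (hg.G n).vol, Met55.dv_vol (hg.H n).vol, (hg.H n).P]

theorem fcv : Loc66.FCv g.l univ (fun n => (g.H n).F) g.G₀.F := fun a =>
  ⟨fun k x _ => (hg.e a).mb k x, fun x _ => (hg.e a).pt x⟩

theorem ch_X (x : M) : ∃ K δ, 0 < K ∧ 0 < δ ∧ ∀ T, IsCompact T → T ⊆ closedBall (ch0 I₀ x x) δ →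
    (∀ z ∈ T, (ch0 I₀ x).symm z ∉ g.P) → ∀ᶠ n in (g.l : Filter α), Ch I (g.G n).F.e (g.G n).F.μ (chX g x n) T K := by
  obtain ⟨K, δ, K0, δ0, k⟩ := ch_frames (fcv hg) isOpen_univ (.of_forall fun n => (hg.H n).vol) hg.G₀.vol hg.h4
    (mem_univ x)
  refine ⟨K, δ, K0, δ0, fun T h1 h2 h3 => ?_⟩
  obtain ⟨n, hn⟩ := k.exists
  filter_upwards [k, ev_compact h1 (p := fun n z => (ch0 I₀ x).symm z ∈ (g.ψ n).source) fun z hz =>
    (tendsto_id.prodMap ((ch0 I₀ x).continuousAt_symm (hn.tgt (h2 hz))).tendsto).eventually (hg.src _ (h3 z hz))]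
    with n k1 k3
  exact ch_rel (hg.rel n) (hg.H n).vol (hg.G n).vol (ch_mono k1 h2) k3

theorem chAt {𝓕 : Filter (Σ n, X n)} (h0 : x ∉ g.P) : ChAt (g.fb c 𝓕) (chX g x) g.l (ch0 I₀ x x) := by
  have := FiniteDimensional.proper_real E₀
  obtain ⟨K, δ, K0, δ0, k⟩ := ch_X hg x
  obtain ⟨γ, γ0, hγ⟩ := nhds_basis_closedBall.mem_iff.1 (inter_mem ((ch0 I₀ x).tendsto_symm (ch0_mem x)
    (hg.fin.isClosed.isOpen_compl.mem_nhds h0)) (closedBall_mem_nhds _ δ0))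
  exact ⟨K, γ, K0, γ0, k _ (isCompact_closedBall _ _) (fun z hz => (hγ hz).2) fun z hz => (hγ hz).1⟩

theorem nF_pt : nF (g.l : Filter α) {x}ᶜ x ≤ nF g.l g.Pᶜ x := fun _ hD =>
  ev_nF.2 ((ev_nF.1 hD).filter_mono (nhdsWithin_le_iff.2 (iso_of_fin hg.fin x)))

theorem ploc (he : (g.fb c (g.F g.Pᶜ x)).En) : PLoc (g.fb c (g.F g.Pᶜ x)) (chX g x) g.l (ch0 I₀ x x) := by
  have hm := ch0_mem (I := I₀) x
  have le : gF (chX g x) g.l (ch0 I₀ x x) ≤ g.F g.Pᶜ x := gF_eq.trans_le (map_mono (nF_pt hg))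
  refine ⟨le, ?_, ⟨_, span_chart g.G₀.F.toPre (Pat85.sch_echart _ x) hm, fun a => ?_⟩, ?_⟩
  · obtain ⟨K, δ, K0, δ0, k⟩ := ch_X hg x
    obtain ⟨γ, γ0, hγ⟩ := small_ann (ne' (I₀ := I₀) (iso_of_fin hg.fin x))
    exact ⟨K, min δ γ, K0, lt_min δ0 γ0, fun δ' h0 => k _ (cpt_ann ..)
      (ann_sub.trans (closedBall_subset_closedBall (min_le_left _ _)))
      fun z hz => (hγ δ' h0 z (ann_mono le_rfl (min_le_right _ _) hz)).2⟩
  · have t1 := (((hg.e a).mb 1 x).tendsto ((hg.e a).pt x)).mono_left (nF_le (U := {x}ᶜ))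
    have e1 := nF_pt hg (ev_src (x := x) hg Subset.rfl)
    rw [← pF_nF hm] at t1 e1
    exact Tendsto.congr' (mem_of_superset e1 fun p h1 => (rel_d1 (φ := ch0 I₀ x) (hg.rel p.1) a h1).symm) t1
  · obtain ⟨C, D, hD, k⟩ := he
    obtain ⟨δ, δ0, h⟩ := le hD
    exact ⟨δ, δ0, C, fun δ' h0 => mem_of_superset (h δ' h0) fun n hn => (lintegral_mono_set
      (by rintro _ ⟨z, hz, rfl⟩; exact hn z hz.1 hz.2)).trans (k n)⟩

omit hg in
theorem en_le_H (𝓕 : Filter (Σ n, X n)) (n : α) (y : X n) :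
    ‖g.Fg c n y‖ ^ 2 ≤ (g.fb c 𝓕).H ((g.bs c).sum L) 3 1 0 n y := by
  rw [Fb.H_sum, PiLp.norm_sq_eq_of_L2]
  refine le_add_of_le_of_nonneg (le_trans ?_ (Fintype.sum_sum_type _).ge) (Fb.H_nonneg ..)
  refine le_add_of_le_of_nonneg (le_of_eq ?_) (Finset.sum_nonneg fun _ _ => mul_nonneg (by positivity) (hs_nonneg _ _ _))
  simp only [one_pow, inv_one, one_mul]
  rfl

/-- bounded curvature excludes bubbles -/
theorem not_bub {R : ℝ} (h : ∀ᶠ q in (g.l : Filter α) ×ˢ 𝓝 x, ‖g.Fg c q.1 (g.ψ q.1 q.2)‖ ^ 2 ≤ R) :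
    ¬g.Bub c x := by
  rintro ⟨ε, ε0, hε⟩
  obtain ⟨A, hA, T, hT, h⟩ := mem_prod_iff.1 h
  have p0 : (0 : ℝ) < ε / (2 * (|R| + 1)) := by positivity
  obtain ⟨N, ⟨hx, o⟩, k⟩ := (nhds_basis_opens x).smallSets.eventually_iff.1 ((vol_small (fcv hg) isOpen_univ
    (.of_forall fun n => (hg.H n).vol) hg.G₀.vol hg.h4 (mem_univ x) p0).and (eventually_smallSets_subset.2 hT))
  obtain ⟨k1, k2⟩ := k (mem_powerset Subset.rfl)
  obtain ⟨n, h1, h2, h3⟩ := ((hε N (o.mem_nhds hx)).and (k1.and hA)).exists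
  have o' := o.inter (g.ψ n).open_source
  have a1 : g.en c n N ≤ ENNReal.ofReal ((|R| + 1) * (ε / (2 * (|R| + 1)))) := by
    refine (setLIntegral_mono' ((g.ψ n).isOpen_image_of_subset_source o' inter_subset_right).measurableSet
      (g := fun _ => ENNReal.ofReal (|R| + 1)) ?_).trans ?_
    · rintro _ ⟨y, hy, rfl⟩
      exact ENNReal.ofReal_le_ofReal ((h (mk_mem_prod h3 (k2 hy.1))).trans (by linarith [le_abs_self R]))
    · rw [setLIntegral_const, iso_meas ((hg.rel n).iso (hg.H n).vol (hg.G n).vol) o' inter_subset_right,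
        ENNReal.ofReal_mul (by positivity)]
      exact mul_le_mul_right ((measure_mono inter_subset_left).trans h2) _
  have a2 := (ENNReal.coe_nnreal_eq ε).symm.trans_le (h1.trans a1)
  rw [ENNReal.ofReal_le_ofReal_iff (by positivity), show (|R| + 1) * (ε / (2 * (|R| + 1))) = ε / 2 by field_simp] at a2
  have : (0 : ℝ) < ε := ε0
  linarith

theorem an_iso (hc : Cons (g.fb c (g.F g.Pᶜ x)) ((g.bs c).sum L)) (he : (g.fb c (g.F g.Pᶜ x)).En) :
    ∀ᶠ y in 𝓝[≠] x, y ∉ g.S c := by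
  have := FiniteDimensional.complete ℝ E
  filter_upwards [(tend_ne (ch0_mem x)).eventually (H0_near hc (ploc hg he)), iso_of_fin hg.fin x,
    nhdsWithin_le_nhds ((ch0 I₀ x).open_source.mem_nhds (ch0_mem x))] with y ⟨R, h1⟩ h2 h3
  rw [lF_eq h3 (mem_univ y)] at h1
  exact fun h => h.elim h2 (not_bub hg (mem_of_superset (le_nF (mem_univ y) h1) fun q hq => (en_le_H _ _ _).trans hq))

/-- **the exceptional set is locally finite** -/
theorem an_fin (hc : ∀ x, ∃ L, Cons (g.fb c (g.F g.Pᶜ x)) ((g.bs c).sum L)) (he : ∀ x, (g.fb c (g.F g.Pᶜ x)).En)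
    (K : Set M) (hK : IsCompact K) : (g.S c ∩ K).Finite :=
  fin_of_iso (Ω := univ) (fun x _ => let ⟨_, h⟩ := hc x; an_iso hg h (he x)) hK (subset_univ _)

theorem an_iso' (hc : Cons (g.fb c (g.F g.Pᶜ x)) L) (hk : Kat (g.fb c (g.F g.Pᶜ x)) L)
    (he : (g.fb c (g.F g.Pᶜ x)).En) : ∀ᶠ y in 𝓝[≠] x, y ∉ g.S c := by
  have := FiniteDimensional.complete ℝ E
  filter_upwards [(tend_ne (ch0_mem x)).eventually (en_near hc hk (ploc hg he)), iso_of_fin hg.fin x,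
    nhdsWithin_le_nhds ((ch0 I₀ x).open_source.mem_nhds (ch0_mem x))] with y ⟨R, h1⟩ h2 h3
  rw [lF_eq h3 (mem_univ y)] at h1
  exact fun h => h.elim h2 (not_bub hg (le_nF (mem_univ y) h1))

/-- the exceptional set is locally finite (any consistent system with the Kato inequality) -/
theorem an_fin' (hc : ∀ x, ∃ L, Cons (g.fb c (g.F g.Pᶜ x)) L ∧ Kat (g.fb c (g.F g.Pᶜ x)) L)
    (he : ∀ x, (g.fb c (g.F g.Pᶜ x)).En) (K : Set M) (hK : IsCompact K) : (g.S c ∩ K).Finite :=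
  fin_of_iso (Ω := univ) (fun x _ => let ⟨_, h, k⟩ := hc x; an_iso' hg h k (he x)) hK (subset_univ _)

/-- bounded jets at points without bubbles -/
theorem an_jb0 (hc : Cons (g.fb c (g.F g.Pᶜ x)) L) (hx : x ∉ g.S c) : (g.fb c (g.F g.Pᶜ x)).JB L := by
  have := FiniteDimensional.complete ℝ E
  have h0 : x ∉ g.P := fun h => hx (.inl h)
  have e := lF_eq (g := g) (U := g.Pᶜ) (ch0_mem x) h0
  obtain ⟨ε, ε0, k⟩ := jb_small hc e.le (chAt hg h0)
  have h1 : ¬g.Bub c x := fun h => hx (.inr h)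
  simp only [Gs.Bub, not_exists, not_and, not_forall, ← Ultrafilter.eventually_not, not_le] at h1
  obtain ⟨N, hN, h1⟩ := h1 ε ε0
  obtain ⟨K, δ, -, δ0, h2⟩ := chAt (c := c) (𝓕 := ⊤) hg h0
  obtain ⟨ρ, ρ0, hρ⟩ := nhds_basis_closedBall.mem_iff.1
    (inter_mem ((ch0 I₀ x).tendsto_symm (ch0_mem x) hN) (closedBall_mem_nhds _ δ0))
  have := k.self_of_nhds e.le ⟨ρ, ρ0, (h1.and h2).mono fun n hn => le_trans (lintegral_mono_set ?_) hn.1.le⟩
  · rwa [e] at this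
  rintro _ ⟨z, hz, rfl⟩
  exact ⟨_, ⟨(hρ hz).1, (hn.2.tgt (hρ hz).2).2⟩, rfl⟩

/-- **all jets are bounded off the exceptional set, uniformly up to it** -/
theorem an_jb (hc : Cons (g.fb c (g.F g.Pᶜ x)) L) (hk : Kat (g.fb c (g.F g.Pᶜ x)) L)
    (he : (g.fb c (g.F g.Pᶜ x)).En) : (g.fb c (g.F (g.S c)ᶜ x)).JB L := by
  have := FiniteDimensional.complete ℝ E
  by_cases hx : x ∈ g.S c
  · exact jb_mono (jb_gF hg.h4 hc hk (ploc hg he))
      ((map_mono (nF_mono (compl_subset_compl.2 (singleton_subset_iff.2 hx)))).trans gF_eq.ge)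
  · exact jb_mono (b := g.fb c (g.F g.Pᶜ x)) (an_jb0 hg hc hx)
      (map_mono (nF_mono (compl_subset_compl.2 subset_union_left)))

end Crest.Agent.X212.Shi84

end
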